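import Vale.Agent.P095.Uni.FromZ.Step
import Vale.Agent.P095.Drop.Defs
import Vale.Agent.P101.Limit.JiangSu

/-!
# P095: absorbing the Jiang-Su algebra gives central dimension drop maps
-/

open scoped ComplexOrder Matrix Kronecker
open unitInterval Filter
open Vale.Agent.P101 Vale.Agent.P101.JiangSu
open Vale.Agent.P101.Drop (dropAlg IsLeft IsRight)

set_option maxSynthPendingDepth 3

universe u

noncomputable section

namespace Vale.Agent.P095.Uni.FromZ

/-- The relabelling with the roles of fibre and block exchanged. -/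
def innerEquiv (j : ℕ) : (Fin (a₀ j) × Fin (a₁ j)) × Fin (p j * q j) ≃ Fib (j + 1) :=
  ((Equiv.refl _).prodCongr finProdFinEquiv.symm).trans
    ((Equiv.prodComm _ _).trans (((Equiv.refl (Fib j)).prodCongr (split j).symm).trans (tenEquiv j)))

theorem inner_apply_apply (j : ℕ) (H : CStarMatrix (Fin (a₀ j) × Fin (a₁ j)) (Fin (a₀ j) × Fin (a₁ j)) ℂ)
    (κ κ' : Fib j) (c c' : Fin (Dims.seq j).k) :
    blockHom (innerEquiv j) (fun _ => H) (tenEquiv j (κ, c)) (tenEquiv j (κ', c')) =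
      if κ = κ' then H (split j c) (split j c') else 0 := by
  simp [blockHom_apply, innerEquiv, Equiv.prodCongr_symm]

theorem commute_inner_cst (j : ℕ)
    (H : CStarMatrix (Fin (a₀ j) × Fin (a₁ j)) (Fin (a₀ j) × Fin (a₁ j)) ℂ) (F : MatJ j) :
    Commute (blockHom (innerEquiv j) fun _ => H) (cst j F) := by
  refine CStarMatrix.ext fun x y => ?_
  obtain ⟨⟨κ, c⟩, rfl⟩ := (tenEquiv j).surjective x
  obtain ⟨⟨κ', c'⟩, rfl⟩ := (tenEquiv j).surjective y
  rw [CStarMatrix.mul_apply, CStarMatrix.mul_apply, ← (tenEquiv j).sum_comp,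
    ← (tenEquiv j).sum_comp]
  simp [inner_apply_apply, cst_apply_apply, Fintype.sum_prod_type, mul_comm]

theorem isLeft_inner {j : ℕ} {H : CStarMatrix (Fin (a₀ j) × Fin (a₁ j)) (Fin (a₀ j) × Fin (a₁ j)) ℂ}
    (h : IsLeft H) : IsLeft (blockHom (innerEquiv j) fun _ => H) := by
  obtain ⟨x, hx⟩ := h
  refine ⟨fun r s => if ((fstEquiv j).symm r).1 = ((fstEquiv j).symm s).1 then
    x ((fstEquiv j).symm r).2 ((fstEquiv j).symm s).2 else 0, fun a b => ?_⟩
  obtain ⟨⟨⟨i, l⟩, c⟩, rfl⟩ := (tenEquiv j).surjective a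
  obtain ⟨⟨⟨i', l'⟩, c'⟩, rfl⟩ := (tenEquiv j).surjective b
  rw [inner_apply_apply, hx]
  simp only [tenEquiv, Equiv.trans_apply, Equiv.prodCongr_apply, Prod.map, Equiv.refl_apply,
    Equiv.prodProdProdComm_apply, Equiv.symm_apply_apply, EmbeddingLike.apply_eq_iff_eq,
    Prod.mk.injEq]
  split_ifs <;> simp_all

theorem isRight_inner {j : ℕ} {H : CStarMatrix (Fin (a₀ j) × Fin (a₁ j)) (Fin (a₀ j) × Fin (a₁ j)) ℂ}
    (h : IsRight H) : IsRight (blockHom (innerEquiv j) fun _ => H) := by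
  obtain ⟨x, hx⟩ := h
  refine ⟨fun r s => if ((sndEquiv j).symm r).1 = ((sndEquiv j).symm s).1 then
    x ((sndEquiv j).symm r).2 ((sndEquiv j).symm s).2 else 0, fun a b => ?_⟩
  obtain ⟨⟨⟨i, l⟩, c⟩, rfl⟩ := (tenEquiv j).surjective a
  obtain ⟨⟨⟨i', l'⟩, c'⟩, rfl⟩ := (tenEquiv j).surjective b
  rw [inner_apply_apply, hx]
  simp only [tenEquiv, Equiv.trans_apply, Equiv.prodCongr_apply, Prod.map, Equiv.refl_apply,
    Equiv.prodProdProdComm_apply, Equiv.symm_apply_apply, EmbeddingLike.apply_eq_iff_eq,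
    Prod.mk.injEq]
  split_ifs <;> simp_all

/-- Conjugated by `W`, the block factor is a copy of a dimension drop algebra in the next stage. -/
def innerHom (j : ℕ) (W : Amb (j + 1)) (hW : ∀ t, W t ∈ unitary _) (h0 : IsLeft (W 0))
    (h1 : IsRight (W 1)) :
    dropAlg (a₀ j) (a₁ j) ℂ →⋆ₐ[ℂ] dropAlg (p (j + 1)) (q (j + 1)) ℂ :=
  restrictHom (Diag.hom ⟨innerEquiv j, fun _ => ContinuousMap.id _, W, hW⟩) fun f => by
    constructor
    · show IsLeft (W 0 * blockHom (innerEquiv j) (fun _ => _) * star (W 0))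
      obtain ⟨w, hw⟩ := (isLeft_iff_rep _).1 h0
      obtain ⟨x, hx⟩ := (isLeft_iff_rep _).1 (isLeft_inner f.2.1)
      rw [isLeft_iff_rep]
      refine ⟨w * x * wᴴ, ?_⟩
      simp only [ContinuousMap.id_apply] at hx ⊢
      rw [hw, hx, rep_mul, rep_mul, rep_star]
      rfl
    · show IsRight (W 1 * blockHom (innerEquiv j) (fun _ => _) * star (W 1))
      obtain ⟨w, hw⟩ := (isRight_iff_rep _).1 h1
      obtain ⟨x, hx⟩ := (isRight_iff_rep _).1 (isRight_inner f.2.2)
      rw [isRight_iff_rep]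
      refine ⟨w * x * wᴴ, ?_⟩
      simp only [ContinuousMap.id_apply] at hx ⊢
      rw [hw, hx, rep_mul, rep_mul, rep_star]
      rfl

/-- A step with nearly constant data leaves room for a nearly commuting copy of a dimension drop
algebra. -/
theorem exists_inner (j : ℕ) (v : Amb j) (hv : ∀ t, v t ∈ unitary _) (hv0 : v 0 = 1)
    (G : Set (dropAlg (p j) (q j) ℂ)) (ε : ℝ)
    (h : ∀ F ∈ G, ∀ t, ‖(F : Amb j) t - v t * (F : Amb j) 0 * star (v t)‖ ≤ ε) :
    ∃ Φ : dropAlg (a₀ j) (a₁ j) ℂ →⋆ₐ[ℂ] dropAlg (p (j + 1)) (q (j + 1)) ℂ,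
      ∀ F ∈ G, ∀ f, ‖Φ f‖ ≤ 1 → ‖conn j F * Φ f - Φ f * conn j F‖ ≤ 8 * ε := by
  obtain ⟨W, hW, h0, h1, hd⟩ := exists_step_conj j v hv hv0 G ε h
  refine ⟨innerHom j W hW h0 h1, fun F hF f hf => ?_⟩
  have hε : 0 ≤ ε := (norm_nonneg _).trans (h F hF 0)
  show ‖((conn j F : Amb (j + 1)) * (innerHom j W hW h0 h1 f : Amb (j + 1)) -
    (innerHom j W hW h0 h1 f : Amb (j + 1)) * (conn j F : Amb (j + 1)))‖ ≤ _
  refine (ContinuousMap.norm_le _ (by positivity)).2 fun t => ?_
  have hy : ‖(innerHom j W hW h0 h1 f : Amb (j + 1)) t‖ ≤ 1 :=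
    (ContinuousMap.norm_coe_le_norm _ t).trans hf
  have hye : (innerHom j W hW h0 h1 f : Amb (j + 1)) t = W t *
      blockHom (innerEquiv j)
        (fun _ => (f : C(I, CStarMatrix (Fin (a₀ j) × Fin (a₁ j)) (Fin (a₀ j) × Fin (a₁ j)) ℂ)) t) *
      star (W t) := rfl
  simp only [ContinuousMap.sub_apply, ContinuousMap.mul_apply]
  set y := (innerHom j W hW h0 h1 f : Amb (j + 1)) t
  set d := (conn j F : Amb (j + 1)) t
  set e := W t * cst j ((F : Amb j) t) * star (W t)
  have hey : e * y = y * e := by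
    simp only [e, hye, mul_assoc]
    rw [← mul_assoc (star (W t)) (W t), ← mul_assoc (star (W t)) (W t),
      Unitary.star_mul_self_of_mem (hW t), one_mul, one_mul, ← mul_assoc (cst j _),
      (commute_inner_cst j _ _).symm.eq, mul_assoc]
  rw [show d * y - y * d = (d - e) * y - y * (d - e) by rw [sub_mul, mul_sub, hey]; abel]
  have hde : ‖d - e‖ ≤ 4 * ε := hd F hF t
  refine (norm_sub_le _ _).trans ?_
  have b1 := (norm_mul_le (d - e) y).trans (mul_le_mul hde hy (norm_nonneg _) (by positivity))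
  have b2 := (norm_mul_le y (d - e)).trans (mul_le_mul hy hde (norm_nonneg _) zero_le_one)
  linarith

theorem le_m (j : ℕ) : j ≤ (Dims.seq j).m := by
  induction j with
  | zero => exact Nat.zero_le _
  | succ j ih =>
    have := (Dims.seq j).two_le_m
    show j + 1 ≤ 3 * (Dims.seq j).m
    omega

theorem le_a (j : ℕ) : j ≤ a₀ j ∧ j ≤ a₁ j := by
  have hP : j ≤ (Dims.seq j).P := (le_m j).trans Nat.lt_two_pow_self.le
  have h4 := (Dims.seq j).four_le
  have hsq : 3 * (Dims.seq j).P ≤ (Dims.seq j).P ^ 2 := by nlinarith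
  constructor <;> simp only [a₀, a₁, Dims.k₀, Dims.k₁] <;> omega

theorem coprime_a (j : ℕ) : (a₀ j).Coprime (a₁ j) := by
  have h := (Dims.seq j).next.coprime
  rw [(Dims.seq j).next_P, (Dims.seq j).next_Q] at h
  exact h.coprime_mul_right.coprime_mul_right_right

/-- An element of the dimension drop algebra given by a function. -/
def toDrop {P Q : ℕ} (f : unitInterval → Matrix (Fin P × Fin Q) (Fin P × Fin Q) ℂ)
    (h : IsDropElement P Q f) : dropAlg P Q ℂ :=
  ⟨⟨fun t => CStarMatrix.ofMatrix (f t),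
      continuous_pi fun a => continuous_pi fun b => h.1.matrix_elem a b⟩,
    (isLeft_iff_rep _).2 ⟨h.2.1.choose, CStarMatrix.ext fun a b => by
      exact (congrFun (congrFun h.2.1.choose_spec a) b).trans (by simp [rep, Matrix.one_apply]; rfl)⟩,
    (isRight_iff_rep _).2 ⟨h.2.2.choose, CStarMatrix.ext fun a b => by
      exact (congrFun (congrFun h.2.2.choose_spec a) b).trans (by simp [rep, Matrix.one_apply]; rfl)⟩⟩

/-- A homomorphism of the dimension drop algebra, read on functions, is unital. -/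
theorem exists_fun_hom {P Q : ℕ} {A : Type*} [CStarAlgebra A] (Φ : dropAlg P Q ℂ →⋆ₐ[ℂ] A) :
    ∃ ψ : (unitInterval → Matrix (Fin P × Fin Q) (Fin P × Fin Q) ℂ) → A,
      IsUnitalHomOn (IsDropElement P Q) ψ ∧
        ∀ f, IsDropElement P Q f → ∃ F, ψ f = Φ F := by
  classical
  set ψ : (unitInterval → Matrix (Fin P × Fin Q) (Fin P × Fin Q) ℂ) → A := fun f =>
    if h : IsDropElement P Q f then Φ (toDrop f h) else 0
  have hψ : ∀ f h, ψ f = Φ (toDrop f h) := fun f h => dif_pos h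
  have h1 : IsDropElement P Q 1 := by
    simpa using IsDropElement.scalar P Q 1
  refine ⟨ψ, ⟨?_, fun f g hf hg => ⟨?_, ?_, fun c => ?_, ?_⟩⟩, fun f hf => ⟨_, hψ f hf⟩⟩
  · rw [hψ 1 h1, show toDrop 1 h1 = 1 from rfl, map_one]
  · rw [hψ f hf, hψ g hg, hψ _ (hf.add hg), ← map_add]
    exact congrArg Φ rfl
  · rw [hψ f hf, hψ g hg, hψ _ (hf.mul hg), ← map_mul]
    exact congrArg Φ rfl
  · have hc : IsDropElement P Q (c • f) := (dropAlgebra P Q).smul_mem hf c
    rw [hψ f hf, hψ _ hc, ← map_smul]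
    exact congrArg Φ rfl
  · rw [hψ f hf, hψ _ hf.conj, ← map_star]
    exact congrArg Φ rfl

/-- A stage inside the Jiang-Su algebra. -/
def stageHom (j : ℕ) : dropAlg (p j) (q j) ℂ →⋆ₐ[ℂ] Limit.JS := Limit.jsSys.inc j

theorem norm_stageHom (j : ℕ) (f : dropAlg (p j) (q j) ℂ) : ‖stageHom j f‖ = ‖f‖ :=
  Limit.jsSys.norm_inc j f

theorem stageHom_connTo (i n : ℕ) (f : dropAlg (p i) (q i) ℂ) :
    stageHom (i + n) (connTo i n f) = stageHom i f :=
  (congrArg (Limit.jsSys.inc (i + n)) (Limit.tr_eq_connTo i n f).symm).trans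
    (Limit.jsSys.inc_tr (Nat.le_add_right i n) f)

/-- The Jiang-Su algebra has central dimension drop maps. -/
theorem hasCentralDropMaps_JS : HasCentralDropMaps Limit.JS := by
  classical
  intro C ε hε N
  have hε' : 0 < ε / 20 := by positivity
  choose st el hel using fun c : Limit.JS => Limit.jsSys.exists_near c hε'
  set i := C.sup st with hi
  set g : Limit.JS → dropAlg (p i) (q i) ℂ := fun c =>
    if h : st c ≤ i then Limit.jsSys.tr h (el c) else 0
  have hg : ∀ c ∈ C, ‖c - stageHom i (g c)‖ ≤ ε / 20 := fun c hc => by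
    have hle : st c ≤ i := Finset.le_sup hc
    simp only [g]
    change ‖c - Limit.jsSys.inc i (dite _ _ _)‖ ≤ _
    erw [dif_pos hle, Limit.DropSys.inc_tr Limit.jsSys hle]
    exact (hel c).le
  obtain ⟨n, ⟨v, hv, hv0, hn⟩, hN⟩ :=
    ((near_constant i (C.image g) hε').and (eventually_ge_atTop N)).exists
  obtain ⟨Φ, hΦ⟩ := exists_inner (i + n) v hv hv0 (connTo i n '' (↑(C.image g) : Set _)) (ε / 20)
    (by rintro _ ⟨x, hx, rfl⟩ t; exact hn x hx t)
  obtain ⟨ψ, hψ, hψF⟩ := exists_fun_hom ((stageHom (i + n + 1)).comp Φ)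
  refine ⟨a₀ (i + n), a₁ (i + n), ?_, ?_, coprime_a _, ψ, hψ, fun c hc f hf hf1 => ?_⟩
  · exact le_trans (by omega) (le_a (i + n)).1
  · exact le_trans (by omega) (le_a (i + n)).2
  obtain ⟨F, hF⟩ := hψF f hf
  rw [hF] at hf1 ⊢
  change ‖stageHom (i + n + 1) (Φ F)‖ ≤ 1 at hf1
  change ‖c * stageHom (i + n + 1) (Φ F) - stageHom (i + n + 1) (Φ F) * c‖ ≤ ε
  set x := stageHom (i + n + 1) (Φ F)
  set d := stageHom i (g c)
  have hcomm : ‖d * x - x * d‖ ≤ 8 * (ε / 20) := by
    rw [show d = stageHom (i + n + 1) (conn (i + n) (connTo i n (g c))) from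
      (stageHom_connTo i (n + 1) (g c)).symm, ← map_mul, ← map_mul, ← map_sub, norm_stageHom]
    exact hΦ _ ⟨g c, Finset.mem_image_of_mem g hc, rfl⟩ F (by rwa [← norm_stageHom])
  rw [show c * x - x * c = (c - d) * x - x * (c - d) + (d * x - x * d) by
    rw [sub_mul, mul_sub]; abel]
  refine (norm_add_le _ _).trans ((add_le_add ((norm_sub_le _ _).trans (add_le_add
    ((norm_mul_le _ _).trans (mul_le_mul (hg c hc) hf1 (norm_nonneg _) hε'.le))
    ((norm_mul_le _ _).trans (mul_le_mul hf1 (hg c hc) (norm_nonneg _) zero_le_one)))) hcomm).trans ?_)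
  linarith

variable {A : Type u} [CStarAlgebra A] {Z : Type} [CStarAlgebra Z] (β : Z →⋆ₐ[ℂ] A)

/-- `c` nearly commutes with the images of the elements which nearly commute with some finite
set. -/
def NearCentral (c : A) : Prop :=
  ∀ ε : ℝ, 0 < ε → ∃ (G : Finset Z) (δ : ℝ), 0 < δ ∧
    ∀ x : Z, ‖x‖ ≤ 1 → (∀ g ∈ G, ‖g * x - x * g‖ ≤ δ) → ‖c * β x - β x * c‖ ≤ ε

theorem NearCentral.of_commute {c : A} (h : ∀ z, Commute c (β z)) : NearCentral β c :=
  fun ε hε => ⟨∅, 1, one_pos, fun x _ _ => by rw [(h x).eq, sub_self, norm_zero]; exact hε.le⟩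

theorem NearCentral.of_range (z : Z) : NearCentral β (β z) := fun ε hε => by
  refine ⟨{z}, ε, hε, fun x _ h => ?_⟩
  rw [← map_mul, ← map_mul, ← map_sub]
  exact (NonUnitalStarAlgHom.norm_apply_le β _).trans (h z (Finset.mem_singleton_self z))

theorem NearCentral.add {c d : A} (hc : NearCentral β c) (hd : NearCentral β d) :
    NearCentral β (c + d) := fun ε hε => by
  classical
  obtain ⟨G, δ, hδ, hG⟩ := hc (ε / 2) (half_pos hε)
  obtain ⟨H, η, hη, hH⟩ := hd (ε / 2) (half_pos hε)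
  refine ⟨G ∪ H, min δ η, lt_min hδ hη, fun x hx h => ?_⟩
  rw [show (c + d) * β x - β x * (c + d) = (c * β x - β x * c) + (d * β x - β x * d) by
    rw [add_mul, mul_add]; abel]
  have b1 := hG x hx fun g hg => (h g (Finset.mem_union_left H hg)).trans (min_le_left _ _)
  have b2 := hH x hx fun g hg => (h g (Finset.mem_union_right G hg)).trans (min_le_right _ _)
  exact (norm_add_le _ _).trans (by linarith)

theorem NearCentral.mul {c d : A} (hc : NearCentral β c) (hd : NearCentral β d) :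
    NearCentral β (c * d) := fun ε hε => by
  classical
  set K := ‖c‖ + ‖d‖ + 1
  have hK : 0 < K := by positivity
  obtain ⟨G, δ, hδ, hG⟩ := hc (ε / (2 * K)) (by positivity)
  obtain ⟨H, η, hη, hH⟩ := hd (ε / (2 * K)) (by positivity)
  refine ⟨G ∪ H, min δ η, lt_min hδ hη, fun x hx h => ?_⟩
  rw [show c * d * β x - β x * (c * d) = (c * β x - β x * c) * d + c * (d * β x - β x * d) by
    rw [sub_mul, mul_sub]; simp only [mul_assoc]; abel]
  have b1 := hG x hx fun g hg => (h g (Finset.mem_union_left H hg)).trans (min_le_left _ _)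
  have b2 := hH x hx fun g hg => (h g (Finset.mem_union_right G hg)).trans (min_le_right _ _)
  refine (norm_add_le _ _).trans ((add_le_add
    ((norm_mul_le _ _).trans (mul_le_mul b1 (show ‖d‖ ≤ K by simp only [K]; linarith [norm_nonneg c])
      (norm_nonneg _) (by positivity)))
    ((norm_mul_le _ _).trans (mul_le_mul (show ‖c‖ ≤ K by simp only [K]; linarith [norm_nonneg d]) b2
      (norm_nonneg _) hK.le))).trans_eq ?_)
  field_simp
  ring

theorem NearCentral.star {c : A} (hc : NearCentral β c) : NearCentral β (star c) := fun ε hε => by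
  classical
  obtain ⟨G, δ, hδ, hG⟩ := hc ε hε
  refine ⟨G.image Star.star, δ, hδ, fun x hx h => ?_⟩
  have b := hG (Star.star x) (by rwa [norm_star]) fun g hg => by
    rw [← norm_star, star_sub, star_mul, star_mul, star_star, norm_sub_rev]
    exact h _ (Finset.mem_image_of_mem _ hg)
  rw [← norm_star, star_sub, star_mul, star_mul, star_star, ← map_star, norm_sub_rev]
  exact b

theorem NearCentral.of_dense {S : Set A} (hS : Dense S) (h : ∀ c ∈ S, NearCentral β c) (c : A) :
    NearCentral β c := fun ε hε => by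
  obtain ⟨d, hd, hcd⟩ := Metric.mem_closure_iff.1 (hS c) (ε / 4) (by positivity)
  obtain ⟨G, δ, hδ, hG⟩ := h d hd (ε / 2) (half_pos hε)
  refine ⟨G, δ, hδ, fun x hx hxG => ?_⟩
  rw [dist_eq_norm] at hcd
  have hbx : ‖β x‖ ≤ 1 := (NonUnitalStarAlgHom.norm_apply_le β x).trans hx
  rw [show c * β x - β x * c = (c - d) * β x - β x * (c - d) + (d * β x - β x * d) by
    rw [sub_mul, mul_sub]; abel]
  refine (norm_add_le _ _).trans ((add_le_add ((norm_sub_le _ _).trans (add_le_add
    ((norm_mul_le _ _).trans (mul_le_mul hcd.le hbx (norm_nonneg _) (by positivity)))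
    ((norm_mul_le _ _).trans (mul_le_mul hbx hcd.le (norm_nonneg _) zero_le_one))))
    (hG x hx hxG)).trans ?_)
  linarith

/-- Central maps pass to an algebra absorbing an algebra which has them. -/
theorem hasCentralDropMaps_of_isTensor (α : A →⋆ₐ[ℂ] A) (hT : IsTensor α β)
    (hinj : Function.Injective β) (hZ : HasCentralDropMaps Z) : HasCentralDropMaps A := by
  classical
  intro C ε hε N
  have hnc : ∀ c, NearCentral β c := by
    refine NearCentral.of_dense β hT.2.2 fun c hc => ?_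
    refine StarAlgebra.adjoin_induction (p := fun x _ => NearCentral β x) (fun x hx => ?_)
      (fun r => .of_commute β fun z => Algebra.commutes r (β z))
      (fun x y _ _ hx hy => hx.add β hy) (fun x y _ _ hx hy => hx.mul β hy)
      (fun x _ hx => hx.star β) hc
    rcases hx with ⟨a, rfl⟩ | ⟨z, rfl⟩
    · exact .of_commute β (hT.1 a)
    · exact .of_range β z
  choose G δ hδ hG using fun c => hnc c ε hε
  obtain ⟨η, hη, hηle⟩ : ∃ η : ℝ, 0 < η ∧ ∀ c ∈ C, η ≤ δ c := by
    rcases C.eq_empty_or_nonempty with rfl | hne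
    · exact ⟨1, one_pos, by simp⟩
    · exact ⟨C.inf' hne δ, (Finset.lt_inf'_iff _).2 fun c _ => hδ c, fun c hc => Finset.inf'_le _ hc⟩
  obtain ⟨P, Q, hP, hQ, hPQ, ψ, hψ, hψc⟩ := hZ (C.biUnion G) η hη N
  refine ⟨P, Q, hP, hQ, hPQ, fun f => β (ψ f), ⟨by simp only [hψ.1, map_one], fun f g hf hg => ?_⟩,
    fun c hc f hf hf1 => ?_⟩
  · obtain ⟨ha, hm, hs, hst⟩ := hψ.2 f g hf hg
    exact ⟨by simp only [ha, map_add], by simp only [hm, map_mul],
      fun r => by simp only [hs r, map_smul], by simp only [hst, map_star]⟩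
  · refine hG c _ (by rwa [NonUnitalStarAlgHom.norm_map β hinj] at hf1) fun g hg => ?_
    exact (hψc g (Finset.mem_biUnion.2 ⟨c, hc, hg⟩) f hf
      (by rwa [NonUnitalStarAlgHom.norm_map β hinj] at hf1)).trans (hηle c hc)

end Vale.Agent.P095.Uni.FromZ

namespace Vale.Agent.P095.Uni

/-- A unital C⋆-algebra `A ≅ A ⊗ Z` has central dimension drop maps. -/
theorem hasCentralDropMaps_of_isZStable {A : Type u} [CStarAlgebra A]
    (h : P101.IsZStable A P101.Limit.JS) : HasCentralDropMaps A := by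
  rcases subsingleton_or_nontrivial A with hA | hA
  · intro C ε hε N
    obtain ⟨p, q, hp, hq, hpq, -⟩ := FromZ.hasCentralDropMaps_JS ∅ ε hε N
    exact ⟨p, q, hp, hq, hpq, fun _ => 0, ⟨Subsingleton.elim _ _, fun _ _ _ _ =>
      ⟨Subsingleton.elim _ _, Subsingleton.elim _ _, fun _ => Subsingleton.elim _ _,
        Subsingleton.elim _ _⟩⟩, fun c _ f _ _ => by simp [hε.le]⟩
  obtain ⟨α, β, hT⟩ := h
  refine FromZ.hasCentralDropMaps_of_isTensor β α hT (fun x y hxy => ?_) FromZ.hasCentralDropMaps_JS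
  by_contra hne
  have hli : LinearIndependent ℂ ![x - y] := linearIndependent_unique_iff.2 (sub_ne_zero.2 hne)
  have := hT.2.1 1 ![1] ![x - y] hli (by simp [hxy]) 0
  exact one_ne_zero this

end Vale.Agent.P095.Uni
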