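import Vale.Agent.P095.Uni.Goals

/-!
# P095: comparison from the completely positive approximation property and slot elements

A decomposition `a ≈ ∑ xᵢ⋆ xᵢ` with `∑ xᵢ xᵢ⋆` small and under a cut of `b` is compressed by the
matrices of `MatrixGoal` into few columns, which the slot elements put orthogonally. Only quadratic
forms pass through the approximation maps.
-/

open scoped ComplexOrder
open Matrix

noncomputable section

namespace Vale.Agent.P095.Uni.Compare

section Blocks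

variable {N D : ℕ}

open scoped MatrixOrder in
/-- A block matrix with a non-negative quadratic form is a Gram matrix. -/
theorem exists_factor (Z : Fin N → Fin N → Matrix (Fin D) (Fin D) ℂ)
    (h : ∀ ξ : Fin N → Fin D → ℂ, 0 ≤ ∑ j, ∑ l, star (ξ j) ⬝ᵥ (Z j l *ᵥ ξ l)) :
    ∃ y : Fin N → Fin N → Matrix (Fin D) (Fin D) ℂ,
      ∀ j l, Z j l = ∑ r, star (y r j) * y r l := by
  set M : Matrix (Fin N × Fin D) (Fin N × Fin D) ℂ :=
    Matrix.of fun p q => Z p.1 q.1 p.2 q.2 with hM
  have hq : ∀ v : Fin N × Fin D → ℂ, 0 ≤ star v ⬝ᵥ (M *ᵥ v) := by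
    intro v
    refine (h fun j a => v (j, a)).trans_eq ?_
    simp only [dotProduct, Matrix.mulVec, Pi.star_apply, hM, Matrix.of_apply, Fintype.sum_prod_type,
      Finset.mul_sum]
    refine Finset.sum_congr rfl fun j _ => ?_
    rw [Finset.sum_comm]
  have hp : M.PosSemidef := by
    refine Matrix.PosSemidef.of_dotProduct_mulVec_nonneg ?_ hq
    rw [← Matrix.isSymmetric_toEuclideanLin_iff, LinearMap.isSymmetric_iff_inner_map_self_real]
    intro v
    rw [inner_conj_symm]
    have hv := (Complex.nonneg_iff.1 (hq v.ofLp)).2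
    have e : inner ℂ v (Matrix.toEuclideanLin M v) = star v.ofLp ⬝ᵥ (M *ᵥ v.ofLp) := by
      rw [EuclideanSpace.inner_eq_star_dotProduct, Matrix.ofLp_toEuclideanLin_apply,
        dotProduct_comm]
    rw [← inner_conj_symm (Matrix.toEuclideanLin M v) v, e, Complex.conj_eq_iff_im.2 hv.symm]
  obtain ⟨B, hB⟩ := CStarAlgebra.nonneg_iff_eq_star_mul_self.1 hp.nonneg
  refine ⟨fun r j => Matrix.of fun a b => B (r, a) (j, b), fun j l => ?_⟩
  ext a b
  have := congrFun (congrFun hB (j, a)) (l, b)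
  simp only [hM, Matrix.of_apply] at this
  rw [this, Matrix.mul_apply, Matrix.sum_apply, Fintype.sum_prod_type]
  refine Finset.sum_congr rfl fun r _ => ?_
  simp [Matrix.mul_apply, Matrix.star_apply]

end Blocks

variable {A : Type*} [CStarAlgebra A] [PartialOrder A] [StarOrderedRing A]

/-- A self-adjoint element between `-M` and `M` has norm at most `M`. -/
theorem norm_le_of_between {T : A} {M : ℝ} (hM : 0 ≤ M) (h1 : T ≤ algebraMap ℝ A M)
    (h2 : -T ≤ algebraMap ℝ A M) : ‖T‖ ≤ M := by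
  have hT : IsSelfAdjoint T := by
    simpa using ((IsSelfAdjoint.all M).algebraMap A).sub (IsSelfAdjoint.of_nonneg (sub_nonneg.2 h1))
  rw [← cfc_id' ℝ T]
  refine norm_cfc_le hM fun x hx => ?_
  rw [Real.norm_eq_abs, abs_le]
  exact ⟨(algebraMap_le_iff_le_spectrum (R := ℝ) hT).1 (by rw [map_neg]; exact neg_le.1 h2) x hx,
    (le_algebraMap_iff_spectrum_le (R := ℝ) hT).1 h1 x hx⟩

/-- A crude Cauchy-Schwarz inequality for columns. -/
theorem norm_column_le {k : ℕ} (u w : Fin k → A) {M : ℝ} (hM : 0 ≤ M)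
    (hu : ∑ s, star (u s) * u s ≤ algebraMap ℝ A M)
    (hw : ∑ s, star (w s) * w s ≤ algebraMap ℝ A M) :
    ‖∑ s, star (u s) * w s‖ ≤ 2 * M := by
  set T := ∑ s, star (u s) * w s with hT
  have key : ∀ c : ℂ, star c * c = 1 →
      c • T + star c • star T ≤ algebraMap ℝ A (2 * M) := by
    intro c hc
    have h0 : (0 : A) ≤ ∑ s, star (u s - c • w s) * (u s - c • w s) :=
      Finset.sum_nonneg fun s _ => star_mul_self_nonneg _
    have e' : ∀ s, star (u s - c • w s) * (u s - c • w s) = (star (u s) * u s + star (w s) * w s) -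
        (c • (star (u s) * w s) + star c • star (star (u s) * w s)) := fun s => by
      simp only [star_sub, star_smul, sub_mul, mul_sub, smul_mul_assoc, mul_smul_comm, star_mul,
        star_star, smul_sub, smul_smul, mul_comm c, hc, one_smul]
      abel
    have e : ∑ s, star (u s - c • w s) * (u s - c • w s) =
        (∑ s, star (u s) * u s + ∑ s, star (w s) * w s) - (c • T + star c • star T) := by
      rw [Finset.sum_congr rfl fun s _ => e' s]
      simp only [hT, Finset.sum_sub_distrib, Finset.sum_add_distrib, Finset.smul_sum, star_sum]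
    rw [e, sub_nonneg] at h0
    rw [two_mul, map_add]
    exact h0.trans (add_le_add hu hw)
  have h1 : ‖T + star T‖ ≤ 2 * M := norm_le_of_between (by positivity)
    (by simpa using key 1 (by simp)) (by simpa [add_comm] using key (-1) (by simp))
  have h2 : ‖Complex.I • (T - star T)‖ ≤ 2 * M := norm_le_of_between (by positivity)
    (by simpa [smul_sub, sub_eq_add_neg] using key Complex.I (by simp))
    (by simpa [smul_sub, sub_eq_add_neg, add_comm] using key (-Complex.I) (by simp))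
  have e : T = (1 / 2 : ℂ) • ((T + star T) + (T - star T)) := by module
  rw [norm_smul, Complex.norm_I, one_mul] at h2
  rw [e, norm_smul, show ‖(1 / 2 : ℂ)‖ = 1 / 2 by norm_num]
  linarith [norm_add_le (T + star T) (T - star T)]

/-- The cut of `b` above `η`. -/
def cut (η : ℝ) (b : A) : A := cfc (fun t => max 0 (t - η)) b

omit [PartialOrder A] [StarOrderedRing A] in
theorem cut_ne_zero {b : A} (hb : IsSelfAdjoint b) {η t : ℝ} (ht : t ∈ spectrum ℝ b) (htη : η < t) :
    cut η b ≠ 0 := fun h => by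
  have := norm_apply_le_norm_cfc (fun t : ℝ => max 0 (t - η)) b ht (by fun_prop) hb
  rw [cut] at h
  rw [h, norm_zero, Real.norm_eq_abs, abs_of_nonneg (le_max_left _ _)] at this
  linarith [le_max_right 0 (t - η)]

theorem continuous_ramp (η : ℝ) : Continuous (ramp η) := by unfold ramp; fun_prop

omit [PartialOrder A] [StarOrderedRing A] in
theorem ramp_mul_cfc (b : A) {η : ℝ} (hη : 0 < η) {f : ℝ → ℝ} (hf : Continuous f)
    (h : ∀ t, t ≤ η → f t = 0) : cfc (ramp η) b * cfc f b = cfc f b := by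
  rw [← cfc_mul (ramp η) f b (continuous_ramp η).continuousOn hf.continuousOn]
  refine cfc_congr fun t _ => ?_
  rcases le_or_gt t η with ht | ht
  · rw [h t ht, mul_zero]
  · have h1 : 1 ≤ 2 * t / η - 1 := by
      rw [le_sub_iff_add_le, le_div_iff₀ hη]; linarith
    rw [show ramp η t = 1 by rw [ramp, max_eq_right (by linarith), min_eq_left h1], one_mul]

/-- Elements whose row is below a multiple of a cut are fixed by the ramp. -/
theorem fixed_of_le {c : A} {L : ℕ} (x : Fin L → A) (h : ∑ i, x i * star (x i) ≤ c) {g : A}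
    (hg : g * c = c) (i : Fin L) : g * x i = x i := by
  have h1 : x i * star (x i) ≤ c :=
    (Finset.single_le_sum (f := fun l => x l * star (x l))
      (fun l _ => mul_star_self_nonneg (x l)) (Finset.mem_univ i)).trans h
  have h2 := star_right_conjugate_le_conjugate h1 (1 - g)
  rw [sub_mul 1 g c, one_mul, hg, sub_self, zero_mul,
    show (1 - g) * (x i * star (x i)) * star (1 - g) = ((1 - g) * x i) * star ((1 - g) * x i) by
      rw [star_mul]; simp only [mul_assoc]] at h2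
  have h3 : (1 - g) * x i = 0 :=
    CStarRing.mul_star_self_eq_zero_iff _ |>.1 (le_antisymm h2 (mul_star_self_nonneg _))
  rw [sub_mul, one_mul, sub_eq_zero] at h3
  exact h3.symm

/-- A row of norm at most `√κ` gives a block Gram matrix of norm at most `κ`. -/
theorem exists_defect {L : ℕ} (x : Fin L → A) {κ : ℝ} (hκ : 0 < κ)
    (h : ∑ i, x i * star (x i) ≤ algebraMap ℝ A κ) :
    ∃ y : Fin L → Fin L → A, ∀ i l,
      ∑ r, star (y r i) * y r l = (if i = l then (κ : ℂ) • (1 : A) else 0) - star (x i) * x l := by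
  set G := ∑ i, x i * star (x i) with hG
  have hG0 : 0 ≤ G := Finset.sum_nonneg fun i _ => mul_star_self_nonneg (x i)
  set F : ℝ → ℝ := fun t => (Real.sqrt κ + Real.sqrt (κ - t))⁻¹ with hF
  have hFc : Continuous F := Continuous.inv₀ (by fun_prop) fun t =>
    (add_pos_of_pos_of_nonneg (Real.sqrt_pos.2 hκ) (Real.sqrt_nonneg _)).ne'
  have hFG : (2 * Real.sqrt κ) • cfc F G - cfc F G * G * cfc F G = 1 := by
    conv_lhs => arg 2; arg 1; arg 2; rw [← cfc_id' ℝ G]
    rw [← cfc_smul (2 * Real.sqrt κ) F G hFc.continuousOn,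
      ← cfc_mul F (fun t => t) G hFc.continuousOn (by fun_prop),
      ← cfc_mul (fun t => F t * t) F G (hFc.fun_mul continuous_id').continuousOn hFc.continuousOn,
      ← cfc_sub _ _ G (hFc.fun_const_smul _).continuousOn
        ((hFc.fun_mul continuous_id').fun_mul hFc).continuousOn, ← cfc_const_one ℝ G]
    refine cfc_congr fun t ht => ?_
    have ht0 := spectrum_nonneg_of_nonneg hG0 ht
    have ht1 : t ≤ κ :=
      (le_algebraMap_iff_spectrum_le (R := ℝ) (IsSelfAdjoint.of_nonneg hG0)).1 h t ht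
    have hs := Real.mul_self_sqrt (sub_nonneg.2 ht1)
    have hk := Real.mul_self_sqrt hκ.le
    have hpos : 0 < Real.sqrt κ + Real.sqrt (κ - t) :=
      add_pos_of_pos_of_nonneg (Real.sqrt_pos.2 hκ) (Real.sqrt_nonneg _)
    simp only [hF, smul_eq_mul]
    field_simp
    nlinarith
  set Fg := cfc F G with hFg
  have hFs : star Fg = Fg := (cfc_predicate F G : IsSelfAdjoint (cfc F G)).star_eq
  set sq : ℂ := (Real.sqrt κ : ℂ) with hsq
  have hsq2 : sq * sq = (κ : ℂ) := by
    rw [hsq, ← Complex.ofReal_mul, Real.mul_self_sqrt hκ.le]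
  refine ⟨fun r i => (if r = i then sq • (1 : A) else 0) - star (x r) * Fg * x i, fun i l => ?_⟩
  have e : ∀ r, star ((if r = i then sq • (1 : A) else 0) - star (x r) * Fg * x i) *
      ((if r = l then sq • (1 : A) else 0) - star (x r) * Fg * x l) =
      (if r = i then (if r = l then (sq * sq) • (1 : A) else 0) else 0)
        - (if r = i then sq • (star (x r) * Fg * x l) else 0)
        - (if r = l then sq • (star (x i) * Fg * x r) else 0)
        + star (x i) * Fg * (x r * star (x r)) * Fg * x l := by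
    intro r
    have hs : star sq = sq := Complex.conj_ofReal _
    split_ifs <;>
      simp only [star_sub, star_smul, star_one, star_neg, star_mul, star_star, hFs, hs, sub_mul,
        mul_sub, smul_mul_assoc, mul_smul_comm, one_mul, mul_one, mul_assoc, sub_zero, zero_sub,
        neg_mul, mul_neg, neg_neg, smul_sub, smul_neg, smul_smul] <;> abel
  rw [Finset.sum_congr rfl fun r _ => e r]
  simp only [Finset.sum_add_distrib, Finset.sum_sub_distrib, Finset.sum_ite_eq', Finset.mem_univ,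
    if_true, ← Finset.mul_sum, ← Finset.sum_mul, ← hG, hsq2]
  have e2 : star (x i) * Fg * G * Fg * x l =
      star (x i) * ((2 * Real.sqrt κ) • Fg - 1) * x l := by
    rw [show (2 * Real.sqrt κ) • Fg - 1 = Fg * G * Fg by rw [← hFG]; abel]
    simp only [mul_assoc]
  rw [e2, mul_sub, sub_mul, mul_one, ← Complex.coe_smul, mul_smul_comm, smul_mul_assoc]
  push_cast
  rw [← hsq]
  split_ifs <;> module

omit [PartialOrder A] [StarOrderedRing A] in
theorem cp_apply {D L : ℕ} {φ : A →ₗ[ℂ] Matrix (Fin D) (Fin D) ℂ}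
    (hφ : ∀ (k : ℕ) (x : Fin k → A) (v : Fin k → Fin D → ℂ),
      0 ≤ ∑ i, ∑ j, star (v i) ⬝ᵥ (φ (star (x i) * x j) *ᵥ v j))
    {k : ℕ} (y : Fin k → Fin L → A) (v : Fin L → Fin D → ℂ) :
    0 ≤ ∑ i, ∑ l, star (v i) ⬝ᵥ (φ (∑ r, star (y r i) * y r l) *ᵥ v l) := by
  refine (Finset.sum_nonneg (s := Finset.univ) fun (r : Fin k) _ => hφ L (y r) v).trans_eq ?_
  simp only [map_sum, Matrix.sum_mulVec, dotProduct_sum]
  rw [Finset.sum_comm]
  exact Finset.sum_congr rfl fun i _ => Finset.sum_comm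

/-- Quadratic forms bounded by `β` pass through `ψ` to norms bounded by `β`. -/
theorem norm_psi_le {D N : ℕ} {ψ : Matrix (Fin D) (Fin D) ℂ →ₗ[ℂ] A}
    (hψ : ∀ (k : ℕ) (y : Fin k → Matrix (Fin D) (Fin D) ℂ) (b : Fin k → A),
      ∃ a : A, ∑ i, ∑ j, star (b i) * ψ (star (y i) * y j) * b j = star a * a)
    (hψ1 : ‖ψ 1‖ ≤ 1) {β : ℝ} (hβ : 0 ≤ β) (Z : Fin N → Fin N → Matrix (Fin D) (Fin D) ℂ)
    (hZ : ∀ ξ : Fin N → Fin D → ℂ, ∃ q : ℝ, |q| ≤ β * (∑ j, star (ξ j) ⬝ᵥ ξ j).re ∧
      ∑ j, ∑ l, star (ξ j) ⬝ᵥ (Z j l *ᵥ ξ l) = (q : ℂ))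
    (b : Fin N → A) (hb : ∑ j, star (b j) * b j = 1) :
    ‖∑ j, ∑ l, star (b j) * ψ (Z j l) * b l‖ ≤ β := by
  set T := ∑ j, ∑ l, star (b j) * ψ (Z j l) * b l with hT
  have hp1 : (0 : A) ≤ ψ 1 := by
    obtain ⟨a, ha⟩ := hψ 1 (fun _ => 1) (fun _ => 1)
    simp only [Fin.sum_univ_one, star_one, one_mul, mul_one] at ha
    rw [ha]; exact star_mul_self_nonneg a
  have hp2 : ψ 1 ≤ (1 : A) := (CStarAlgebra.norm_le_one_iff_of_nonneg _ hp1).1 hψ1
  have hW : ∑ j, star (b j) * ψ 1 * b j ≤ (1 : A) := by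
    rw [← hb]
    exact Finset.sum_le_sum fun j _ => by simpa using star_left_conjugate_le_conjugate hp2 (b j)
  have hkey : ∀ σ : ℝ, |σ| = 1 → σ • T ≤ algebraMap ℝ A β := by
    intro σ hσ
    obtain ⟨y, hy⟩ := exists_factor
      (fun j l => (if j = l then (β : ℂ) • (1 : Matrix (Fin D) (Fin D) ℂ) else 0) -
        (σ : ℂ) • Z j l) fun ξ => by
      obtain ⟨q, hq, hqe⟩ := hZ ξ
      simp only [Matrix.sub_mulVec, dotProduct_sub, Finset.sum_sub_distrib, Matrix.smul_mulVec,
        dotProduct_smul, smul_eq_mul, ← Finset.mul_sum, hqe]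
      have e : ∀ j, ∑ l, star (ξ j) ⬝ᵥ
          ((if j = l then (β : ℂ) • (1 : Matrix (Fin D) (Fin D) ℂ) else 0) *ᵥ ξ l) =
          (β : ℂ) * (star (ξ j) ⬝ᵥ ξ j) := fun j => by
        rw [Finset.sum_eq_single j]
        · simp [Matrix.smul_mulVec, dotProduct_smul]
        · intro l _ hl; simp [Ne.symm hl]
        · simp
      rw [Finset.sum_congr rfl fun j _ => e j, ← Finset.mul_sum]
      have h0 : 0 ≤ ∑ j, star (ξ j) ⬝ᵥ ξ j :=
        Finset.sum_nonneg fun j _ => dotProduct_star_self_nonneg _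
      rw [Complex.nonneg_iff] at h0 ⊢
      simp only [Complex.sub_re, Complex.sub_im, Complex.mul_re, Complex.mul_im, Complex.ofReal_re,
        Complex.ofReal_im, ← h0.2]
      refine ⟨?_, by ring⟩
      have : |σ * q| ≤ β * (∑ j, star (ξ j) ⬝ᵥ ξ j).re := by rwa [abs_mul, hσ, one_mul]
      linarith [le_abs_self (σ * q)]
    choose a ha using fun r => hψ N (y r) b
    have h0 : (0 : A) ≤ ∑ r, star (a r) * a r :=
      Finset.sum_nonneg fun r _ => star_mul_self_nonneg (a r)
    have e : ∑ r, star (a r) * a r =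
        (β : ℂ) • ∑ j, star (b j) * ψ 1 * b j - (σ : ℂ) • T := by
      have hy' : ∀ j l, ∑ r, star (b j) * ψ (star (y r j) * y r l) * b l =
          star (b j) * ψ (if j = l then (β : ℂ) • (1 : Matrix (Fin D) (Fin D) ℂ) else 0) * b l -
            (σ : ℂ) • (star (b j) * ψ (Z j l) * b l) := fun j l => by
        rw [← Finset.sum_mul, ← Finset.mul_sum, ← map_sum, ← hy j l, map_sub, map_smul, mul_sub,
          sub_mul, mul_smul_comm, smul_mul_assoc]
      rw [← Finset.sum_congr rfl fun r _ => ha r, Finset.sum_comm,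
        Finset.sum_congr rfl fun j _ => Finset.sum_comm]
      simp only [hy', Finset.sum_sub_distrib, hT, Finset.smul_sum]
      congr 1
      refine Finset.sum_congr rfl fun j _ => ?_
      rw [Finset.sum_eq_single j]
      · simp
      · intro l _ hl; simp [Ne.symm hl]
      · simp
    rw [e, sub_nonneg, Complex.coe_smul, Complex.coe_smul] at h0
    refine h0.trans ?_
    rw [Algebra.algebraMap_eq_smul_one]
    exact smul_le_smul_of_nonneg_left hW hβ
  exact norm_le_of_between hβ (by simpa using hkey 1 (by simp))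
    (by simpa using hkey (-1) (by simp))

/-- The columns of the compressing matrices. -/
theorem sum_column_le {N K : ℕ} (V : Matrix (Fin K) (Fin N) ℂ) {m : ℕ}
    (hV : ∀ v : Fin N → ℂ, star (V *ᵥ v) ⬝ᵥ (V *ᵥ v) ≤ (m : ℂ) * (star v ⬝ᵥ v))
    (b : Fin N → A) (hb : ∑ j, star (b j) * b j = 1) :
    ∑ s, star (∑ j, V s j • b j) * (∑ j, V s j • b j) ≤ algebraMap ℝ A (m : ℝ) := by
  open scoped MatrixOrder in
  have hp : ((m : ℂ) • (1 : Matrix (Fin N) (Fin N) ℂ) - Vᴴ * V).PosSemidef := by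
    refine Matrix.PosSemidef.of_dotProduct_mulVec_nonneg ?_ fun v => ?_
    · refine Matrix.IsHermitian.sub ?_ (Matrix.isHermitian_conjTranspose_mul_self V)
      simp [Matrix.IsHermitian, Matrix.conjTranspose_smul]
    · rw [Matrix.sub_mulVec, dotProduct_sub, sub_nonneg, Matrix.smul_mulVec, Matrix.one_mulVec,
        dotProduct_smul, smul_eq_mul, ← Matrix.mulVec_mulVec, Matrix.dotProduct_mulVec,
        ← Matrix.star_mulVec]
      exact hV v
  open scoped MatrixOrder in
  obtain ⟨W, hW⟩ := CStarAlgebra.nonneg_iff_eq_star_mul_self.1 hp.nonneg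
  have e : ∀ (Q : ℕ) (U : Matrix (Fin Q) (Fin N) ℂ),
      ∑ s, star (∑ j, U s j • b j) * (∑ j, U s j • b j) =
        ∑ j, ∑ l, (Uᴴ * U) j l • (star (b j) * b l) := fun Q U => by
    simp only [star_sum, star_smul, Finset.sum_mul, Finset.mul_sum, smul_mul_smul_comm,
      Matrix.mul_apply, Matrix.conjTranspose_apply, Finset.sum_smul]
    rw [Finset.sum_comm (γ := Fin Q)]
    refine (Finset.sum_congr rfl fun l _ => Finset.sum_comm).trans ?_
    rw [Finset.sum_comm]
  have h1 : (0 : A) ≤ ∑ j, ∑ l, ((m : ℂ) • (1 : Matrix (Fin N) (Fin N) ℂ) - Vᴴ * V) j l •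
      (star (b j) * b l) := by
    rw [hW, Matrix.star_eq_conjTranspose, ← e N W]
    exact Finset.sum_nonneg fun s _ => star_mul_self_nonneg _
  simp only [Matrix.sub_apply, Matrix.smul_apply, Matrix.one_apply, smul_eq_mul, mul_ite, mul_one,
    mul_zero, sub_smul, ite_smul, zero_smul, Finset.sum_sub_distrib, Finset.sum_ite_eq,
    Finset.mem_univ, if_true, ← Finset.smul_sum, hb] at h1
  rw [sub_nonneg] at h1
  rw [e K V, Algebra.algebraMap_eq_smul_one, ← Complex.coe_smul, Complex.ofReal_natCast]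
  exact h1

/-- Approximation errors, column by column. -/
theorem norm_error_le {k : ℕ} (u v : Fin k → A) {M : ℝ} (hM : 0 ≤ M)
    (hu : ∑ s, star (u s) * u s ≤ algebraMap ℝ A M) (hv : ∑ s, star (v s) * v s ≤ algebraMap ℝ A M)
    (e : A) {θ : ℝ} (hθ : 0 < θ) (he : ‖e‖ ≤ θ) :
    ‖∑ s, star (u s) * e * v s‖ ≤ θ * (2 * M) := by
  set e' : A := ((θ⁻¹ : ℝ) : ℂ) • e with he'
  have hn : ‖e'‖ ≤ 1 := by
    rw [he', norm_smul, Complex.norm_real, Real.norm_of_nonneg (by positivity), inv_mul_le_iff₀ hθ,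
      mul_one]
    exact he
  have hw : ∑ s, star (e' * v s) * (e' * v s) ≤ algebraMap ℝ A M := by
    refine le_trans (Finset.sum_le_sum fun s _ => ?_) hv
    have h1 : star e' * e' ≤ 1 := by
      refine (CStarAlgebra.norm_le_one_iff_of_nonneg _ (star_mul_self_nonneg e')).1 ?_
      rw [CStarRing.norm_star_mul_self]
      nlinarith [norm_nonneg e']
    have := star_left_conjugate_le_conjugate h1 (v s)
    simpa [mul_assoc] using this
  have e1 : ∑ s, star (u s) * e * v s = (θ : ℂ) • ∑ s, star (u s) * (e' * v s) := by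
    simp only [he', Finset.smul_sum, smul_mul_assoc, mul_smul_comm, smul_smul, ← mul_assoc,
      ← Complex.ofReal_mul, mul_inv_cancel₀ hθ.ne', Complex.ofReal_one, one_smul]
  rw [e1, norm_smul, Complex.norm_real, Real.norm_of_nonneg hθ.le]
  exact mul_le_mul_of_nonneg_left (norm_column_le _ _ hM hu hw) hθ.le

omit [PartialOrder A] [StarOrderedRing A] in
theorem norm_sandwich_sub (u w : A) {B θ : ℝ} (hu : ‖u‖ ≤ B) (hw : ‖w‖ ≤ B) (h : ‖u - w‖ ≤ θ) :
    ‖star u * u - star w * w‖ ≤ 2 * B * θ := by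
  rw [show star u * u - star w * w = star (u - w) * u + star w * (u - w) by
    rw [star_sub]; noncomm_ring]
  refine (norm_add_le _ _).trans ?_
  have h1 := (norm_mul_le (star (u - w)) u).trans (mul_le_mul ((norm_star _).trans_le h) hu
    (norm_nonneg _) ((norm_nonneg _).trans h))
  have h2 := (norm_mul_le (star w) (u - w)).trans (mul_le_mul ((norm_star _).trans_le hw) h
    (norm_nonneg _) ((norm_nonneg _).trans hw))
  linarith

/-- Compression: a column whose Gram matrix is close to `a` becomes one element. The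
approximation maps and the slot elements are asked only on elements of `J`. -/
theorem compressOn {J : Set A}
    (hsum : ∀ {k : ℕ} (c : Fin k → ℂ) (z : Fin k → A), (∀ i, z i ∈ J) → ∑ i, c i • z i ∈ J)
    (hmul : ∀ (a : A) {z : A}, z ∈ J → a * z ∈ J) (hstar : ∀ {z : A}, z ∈ J → star z ∈ J)
    (hn : ∀ C : Finset A, (↑C : Set A) ⊆ J → ∀ ε : ℝ, 0 < ε →
      ∃ (D : ℕ) (φ : A →ₗ[ℂ] Matrix (Fin D) (Fin D) ℂ) (ψ : Matrix (Fin D) (Fin D) ℂ →ₗ[ℂ] A),
      (∀ (k : ℕ) (x : Fin k → A) (v : Fin k → Fin D → ℂ),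
        0 ≤ ∑ i, ∑ j, star (v i) ⬝ᵥ (φ (star (x i) * x j) *ᵥ v j)) ∧
      (∀ v : Fin D → ℂ, star v ⬝ᵥ (φ 1 *ᵥ v) ≤ star v ⬝ᵥ v) ∧
      (∀ (k : ℕ) (y : Fin k → Matrix (Fin D) (Fin D) ℂ) (b : Fin k → A),
        ∃ a : A, ∑ i, ∑ j, star (b i) * ψ (star (y i) * y j) * b j = star a * a) ∧
      ‖ψ 1‖ ≤ 1 ∧ ∀ c ∈ C, ‖ψ (φ c) - c‖ ≤ ε)
    (hs : ∀ (n k : ℕ), 0 < k → 4 * k ≤ n → ∀ C : Finset A, (↑C : Set A) ⊆ J → ∀ (ε : ℝ), 0 < ε →
      ∃ R : Fin k → Fin n → A,
        (∀ s t, s ≠ t → ∀ j l, star (R s j) * R t l = 0) ∧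
        (∀ s t j l, star (R s j) * R s l = star (R t j) * R t l) ∧
        (∀ s, ∑ j, star (R s j) * R s j = 1) ∧
        ∀ c ∈ C, ∀ s j, ‖c * R s j - R s j * c‖ ≤ ε)
    (hm : MatrixGoal) {κ θ : ℝ} (hκ : 0 < κ) (hκ1 : 8 * κ ≤ 1) (hθ : 0 < θ) {L : ℕ}
    (x : Fin L → A) (hxJ : ∀ i, x i ∈ J) (hrow : ∑ i, x i * star (x i) ≤ algebraMap ℝ A κ)
    (hS : ‖∑ i, star (x i) * x i‖ ≤ 1) {g : A} (hgJ : g ∈ J) (hg : ‖g‖ ≤ 1)
    (hgx : ∀ i, g * x i = x i) :
    ∃ x' : A, ‖star (g * x') * (g * x') - ∑ i, star (x i) * x i‖ ≤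
      8 * Real.sqrt (8 * κ) + θ := by
  classical
  set S := ∑ i, star (x i) * x i with hSdef
  set θ₂ := θ / (2 * (16 * (L : ℝ) ^ 2 + 2)) with hθ₂
  have hθ₂0 : 0 < θ₂ := by positivity
  have hSJ : S ∈ J := by
    rw [hSdef]
    simpa using hsum (fun _ => (1 : ℂ)) (fun i => star (x i) * x i) fun i => hmul _ (hxJ i)
  obtain ⟨D, φ, ψ, hφ, hφ1, hψ, hψ1, hψφ⟩ := hn
    (insert S (Finset.univ.image fun p : Fin L × Fin L => star (x p.1) * x p.2)) (by
      simp only [Finset.coe_insert, Finset.coe_image, Set.insert_subset_iff, Set.image_subset_iff]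
      exact ⟨hSJ, fun p _ => hmul _ (hxJ p.2)⟩) θ₂ hθ₂0
  obtain ⟨y, hy⟩ := exists_defect x hκ hrow
  set c : Fin L → Fin L → Matrix (Fin D) (Fin D) ℂ := fun i l => φ (star (x i) * x l) with hc
  have hc1 : ∀ v : Fin L → Fin D → ℂ, 0 ≤ ∑ i, ∑ j, star (v i) ⬝ᵥ (c i j *ᵥ v j) ∧
      ∑ i, ∑ j, star (v i) ⬝ᵥ (c i j *ᵥ v j) ≤ (κ : ℂ) * ∑ i, star (v i) ⬝ᵥ v i := by
    intro v
    refine ⟨hφ L x v, ?_⟩
    have h := cp_apply hφ y v
    simp only [hy, map_sub, Matrix.sub_mulVec, dotProduct_sub, Finset.sum_sub_distrib] at h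
    rw [sub_nonneg] at h
    refine h.trans ?_
    rw [Finset.mul_sum]
    refine Finset.sum_le_sum fun i _ => ?_
    rw [Finset.sum_eq_single i]
    · rw [if_pos rfl, map_smul, Matrix.smul_mulVec, dotProduct_smul, smul_eq_mul]
      exact mul_le_mul_of_nonneg_left (hφ1 (v i)) (by simpa using hκ.le)
    · intro l _ hl; simp [Ne.symm hl]
    · simp
  have hS0 : 0 ≤ S := Finset.sum_nonneg fun i _ => star_mul_self_nonneg (x i)
  have hSsum : ∑ i, c i i = φ S := by rw [hSdef, map_sum]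
  have hc2 : ∀ v : Fin D → ℂ, star v ⬝ᵥ ((∑ i, c i i) *ᵥ v) ≤ star v ⬝ᵥ v := by
    intro v
    rw [hSsum]
    refine le_trans ?_ (hφ1 v)
    obtain ⟨z, hz⟩ := CStarAlgebra.nonneg_iff_eq_star_mul_self.1
      (sub_nonneg.2 ((CStarAlgebra.norm_le_one_iff_of_nonneg _ hS0).1 hS))
    have h := hφ 1 (fun _ => z) (fun _ => v)
    simp only [Fin.sum_univ_one, ← hz, map_sub, Matrix.sub_mulVec, dotProduct_sub] at h
    exact sub_nonneg.1 h
  obtain ⟨N, K, V, hN, hKN, hV, hVZ⟩ := hm 8 L D c κ (by norm_num) hκ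
    (by exact_mod_cast hκ1) hc1 hc2
  set X : Fin K → Fin N → A := fun s j => ∑ i, V i s j • x i with hX
  set P : Fin N → Fin N → A := fun j l => ∑ s, star (X s j) * X s l with hP
  have hPV : ∀ j l, P j l = ∑ i, ∑ i', ((V i)ᴴ * V i') j l • (star (x i) * x i') := by
    intro j l
    simp only [hP, hX, star_sum, star_smul, Finset.sum_mul, Finset.mul_sum, smul_mul_smul_comm,
      Matrix.mul_apply, Matrix.conjTranspose_apply, Finset.sum_smul]
    rw [Finset.sum_comm (γ := Fin K)]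
    refine (Finset.sum_congr rfl fun l _ => Finset.sum_comm).trans ?_
    rw [Finset.sum_comm]
  set Z : Fin N → Fin N → Matrix (Fin D) (Fin D) ℂ := fun j l =>
    φ (P j l) - (if j = l then φ S else 0) with hZdef
  set β := 8 * Real.sqrt (8 * κ)
  have hZ : ∀ ξ : Fin N → Fin D → ℂ, ∃ q : ℝ, |q| ≤ β * (∑ j, star (ξ j) ⬝ᵥ ξ j).re ∧
      ∑ j, ∑ l, star (ξ j) ⬝ᵥ (Z j l *ᵥ ξ l) = (q : ℂ) := by
    intro ξ
    have e1 : ∑ j, ∑ l, star (ξ j) ⬝ᵥ (Z j l *ᵥ ξ l) =
        (∑ j, ∑ l, star (ξ j) ⬝ᵥ (φ (P j l) *ᵥ ξ l)) - ∑ j, star (ξ j) ⬝ᵥ (φ S *ᵥ ξ j) := by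
      simp only [hZdef, Matrix.sub_mulVec, dotProduct_sub, Finset.sum_sub_distrib]
      congr 1
      refine Finset.sum_congr rfl fun j _ => ?_
      rw [Finset.sum_eq_single j]
      · simp
      · intro l _ hl; simp [Ne.symm hl]
      · simp
    have h1 : 0 ≤ ∑ j, ∑ l, star (ξ j) ⬝ᵥ (φ (P j l) *ᵥ ξ l) := cp_apply hφ X ξ
    have h2 : 0 ≤ ∑ j, star (ξ j) ⬝ᵥ (φ S *ᵥ ξ j) := by
      refine Finset.sum_nonneg fun j _ => ?_
      rw [hSdef, map_sum, Matrix.sum_mulVec, dotProduct_sum]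
      refine Finset.sum_nonneg fun i _ => ?_
      simpa using hφ 1 (fun _ => x i) (fun _ => ξ j)
    rw [Complex.nonneg_iff] at h1 h2
    set u := (∑ j, ∑ l, star (ξ j) ⬝ᵥ (φ (P j l) *ᵥ ξ l)) - ∑ j, star (ξ j) ⬝ᵥ (φ S *ᵥ ξ j)
      with hu
    have him : u.im = 0 := by rw [hu, Complex.sub_im, ← h1.2, ← h2.2, sub_zero]
    refine ⟨u.re, ?_, e1.trans (Complex.ext (by simp) (by simp [him]))⟩
    refine (Complex.abs_re_le_norm u).trans ?_
    have h3 : ‖u‖ ≤ β * ‖∑ j, star (ξ j) ⬝ᵥ ξ j‖ := by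
      have h4 := hVZ ξ
      have e2 : ∀ j l, φ (P j l) = ∑ i, ∑ i', ((V i)ᴴ * V i') j l • c i i' := fun j l => by
        simp only [hPV, hc, map_sum, map_smul]
      rw [hu]
      simp only [e2, ← hSsum]
      exact_mod_cast h4
    refine h3.trans (le_of_eq ?_)
    have h5 : 0 ≤ ∑ j, star (ξ j) ⬝ᵥ ξ j :=
      Finset.sum_nonneg fun j _ => dotProduct_star_self_nonneg _
    rw [Complex.re_eq_norm.2 h5]
  have main : ∀ b : Fin N → A, ∑ j, star (b j) * b j = 1 →
      ‖(∑ j, ∑ l, star (b j) * P j l * b l) - ∑ j, star (b j) * S * b j‖ ≤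
        β + θ₂ * (16 * (L : ℝ) ^ 2 + 2) := by
    intro b hb
    have hT := norm_psi_le hψ hψ1 (by positivity : 0 ≤ β) Z hZ b hb
    set d : A → A := fun z => ψ (φ z) - z with hd
    have hdS : ‖d S‖ ≤ θ₂ := hψφ S (Finset.mem_insert_self _ _)
    have hdx : ∀ i i', ‖d (star (x i) * x i')‖ ≤ θ₂ := fun i i' => hψφ _
      (Finset.mem_insert_of_mem (Finset.mem_image_of_mem _ (Finset.mem_univ (i, i'))))
    have e1 : (∑ j, ∑ l, star (b j) * P j l * b l) - ∑ j, star (b j) * S * b j =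
        (∑ j, ∑ l, star (b j) * ψ (Z j l) * b l) - (∑ j, ∑ l, star (b j) * d (P j l) * b l)
          + ∑ j, star (b j) * d S * b j := by
      have e2 : ∀ j, ∑ l, star (b j) * ψ (Z j l) * b l =
          (∑ l, star (b j) * ψ (φ (P j l)) * b l) - star (b j) * ψ (φ S) * b j := fun j => by
        simp only [hZdef, map_sub, mul_sub, sub_mul, Finset.sum_sub_distrib]
        congr 1
        rw [Finset.sum_eq_single j]
        · simp
        · intro l _ hl; simp [Ne.symm hl]
        · simp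
      simp only [e2, hd, mul_sub, sub_mul, Finset.sum_sub_distrib]
      abel
    have e3 : ∑ j, ∑ l, star (b j) * d (P j l) * b l = ∑ i, ∑ i', ∑ s,
        star (∑ j, V i s j • b j) * d (star (x i) * x i') * (∑ j, V i' s j • b j) := by
      have hdlin : ∀ j l, d (P j l) =
          ∑ i, ∑ i', ((V i)ᴴ * V i') j l • d (star (x i) * x i') := fun j l => by
        simp only [hd, hPV, map_sum, map_smul, smul_sub, Finset.sum_sub_distrib]
      have e10 : ∀ i i', ∑ s, star (∑ j, V i s j • b j) * d (star (x i) * x i') *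
          (∑ l, V i' s l • b l) =
          ∑ j, ∑ l, ((V i)ᴴ * V i') j l • (star (b j) * d (star (x i) * x i') * b l) := by
        intro i i'
        simp only [star_sum, star_smul, Finset.sum_mul]
        simp only [Finset.mul_sum, smul_mul_assoc, mul_smul_comm, smul_smul, Matrix.mul_apply,
          Matrix.conjTranspose_apply, Finset.sum_smul]
        rw [Finset.sum_comm]
        refine Finset.sum_congr rfl fun j _ => ?_
        rw [Finset.sum_comm]
        exact Finset.sum_congr rfl fun l _ => Finset.sum_congr rfl fun s _ => by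
          first | rfl | rw [mul_comm]
      rw [Finset.sum_congr rfl fun i _ => Finset.sum_congr rfl fun i' _ => e10 i i']
      simp only [hdlin, Finset.mul_sum, Finset.sum_mul, mul_smul_comm, smul_mul_assoc]
      rw [Finset.sum_congr rfl fun j _ => Finset.sum_comm, Finset.sum_comm]
      refine Finset.sum_congr rfl fun i _ => ?_
      rw [Finset.sum_congr rfl fun j _ => Finset.sum_comm, Finset.sum_comm]
    have hcol : ∀ i, ∑ s, star (∑ j, V i s j • b j) * (∑ j, V i s j • b j) ≤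
        algebraMap ℝ A ((8 : ℕ) : ℝ) := fun i => sum_column_le (V i) (hV i) b hb
    have h2 : ‖∑ j, ∑ l, star (b j) * d (P j l) * b l‖ ≤ θ₂ * (16 * (L : ℝ) ^ 2) := by
      rw [e3]
      refine (norm_sum_le_of_le _ fun i _ => norm_sum_le_of_le _ fun i' _ =>
        norm_error_le _ _ (Nat.cast_nonneg 8) (hcol i) (hcol i') _ hθ₂0 (hdx i i')).trans_eq ?_
      simp only [Finset.sum_const, Finset.card_univ, Fintype.card_fin, nsmul_eq_mul]
      push_cast
      ring
    have h3 : ‖∑ j, star (b j) * d S * b j‖ ≤ θ₂ * (2 * 1) :=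
      norm_error_le b b zero_le_one (by rw [hb, map_one]) (by rw [hb, map_one]) _ hθ₂0 hdS
    rw [e1]
    refine (norm_add_le _ _).trans ?_
    linarith [norm_sub_le (∑ j, ∑ l, star (b j) * ψ (Z j l) * b l)
      (∑ j, ∑ l, star (b j) * d (P j l) * b l)]
  have hθ₂' : θ₂ * (16 * (L : ℝ) ^ 2 + 2) = θ / 2 := by rw [hθ₂]; field_simp
  rcases Nat.eq_zero_or_pos K with hK | hK
  · refine ⟨0, ?_⟩
    subst hK
    set b : Fin N → A := fun j => if j = ⟨0, hN⟩ then 1 else 0 with hbdef
    have hb : ∑ j, star (b j) * b j = 1 := by simp [hbdef]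
    have h := main b hb
    simp only [hP, Finset.univ_eq_empty, Finset.sum_empty, mul_zero, zero_mul,
      Finset.sum_const_zero, zero_sub, norm_neg] at h
    rw [show ∑ j, star (b j) * S * b j = S by simp [hbdef]] at h
    rw [mul_zero, star_zero, mul_zero, zero_sub, norm_neg]
    linarith
  · set B : ℝ := 1 + ∑ s, ∑ j, ‖X s j‖ with hBdef
    have hB : ∀ s j, ‖X s j‖ ≤ B := fun s j => by
      have h1 := Finset.single_le_sum (f := fun s => ∑ j, ‖X s j‖)
        (fun s _ => Finset.sum_nonneg fun j _ => norm_nonneg (X s j)) (Finset.mem_univ s)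
      have h2 := Finset.single_le_sum (f := fun j => ‖X s j‖)
        (fun j _ => norm_nonneg (X s j)) (Finset.mem_univ j)
      linarith
    have hB0 : 0 < B := lt_of_lt_of_le one_pos (le_add_of_nonneg_right
      (Finset.sum_nonneg fun s _ => Finset.sum_nonneg fun j _ => norm_nonneg _))
    set kk : ℝ := (K : ℝ) * N * B with hkk
    set W : ℝ := 2 * kk * kk + 4 * (K * N * N) * B + N with hW
    have hW0 : 0 ≤ W := by positivity
    set θ₃ := θ / (2 * (W + 1)) with hθ₃
    have hθ₃0 : 0 < θ₃ := by positivity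
    have hXJ : ∀ s j, X s j ∈ J := fun s j => hsum (fun i => V i s j) x hxJ
    obtain ⟨R, hR1, hR2, hR3, hR4⟩ := hs N K hK (by omega)
      (insert g (insert S ((Finset.univ.image fun p : Fin K × Fin N => X p.1 p.2) ∪
        Finset.univ.image fun p : Fin K × Fin N => star (X p.1 p.2)))) (by
      simp only [Finset.coe_insert, Finset.coe_union, Finset.coe_image, Set.insert_subset_iff,
        Set.union_subset_iff, Set.image_subset_iff]
      exact ⟨hgJ, hSJ, fun p _ => hXJ p.1 p.2, fun p _ => hstar (hXJ p.1 p.2)⟩) θ₃ hθ₃0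
    set s₀ : Fin K := ⟨0, hK⟩
    have hRn : ∀ s j, ‖R s j‖ ≤ 1 := fun s j => by
      have h1 : star (R s j) * R s j ≤ 1 := by
        rw [← hR3 s]
        exact Finset.single_le_sum (f := fun l => star (R s l) * R s l)
          (fun l _ => star_mul_self_nonneg _) (Finset.mem_univ j)
      have h2 := (CStarAlgebra.norm_le_one_iff_of_nonneg _ (star_mul_self_nonneg (R s j))).2 h1
      rw [CStarRing.norm_star_mul_self] at h2
      nlinarith [norm_nonneg (R s j)]
    have hgX : ∀ s j, g * X s j = X s j := fun s j => by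
      simp only [hX, Finset.mul_sum, mul_smul_comm, hgx]
    set x' := ∑ s, ∑ j, R s j * X s j with hx'
    refine ⟨x', ?_⟩
    have hx'n : ‖x'‖ ≤ kk := by
      refine (norm_sum_le_of_le _ fun s _ => norm_sum_le_of_le _ fun j _ =>
        (norm_mul_le _ _).trans (mul_le_mul (hRn s j) (hB s j) (norm_nonneg _) zero_le_one)).trans_eq ?_
      simp [hkk]; ring
    have hgx' : ‖g * x' - x'‖ ≤ kk * θ₃ := by
      have e : g * x' - x' = ∑ s, ∑ j, (g * R s j - R s j * g) * X s j := by
        simp only [hx', Finset.mul_sum, sub_mul, Finset.sum_sub_distrib, mul_assoc, hgX]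
      rw [e]
      refine (norm_sum_le_of_le _ fun s _ => norm_sum_le_of_le _ fun j _ =>
        (norm_mul_le _ _).trans (mul_le_mul (hR4 g (Finset.mem_insert_self _ _) s j) (hB s j)
          (norm_nonneg _) hθ₃0.le)).trans_eq ?_
      simp [hkk]; ring
    have h1 : ‖star (g * x') * (g * x') - star x' * x'‖ ≤ 2 * kk * (kk * θ₃) :=
      norm_sandwich_sub _ _ ((norm_mul_le _ _).trans ((mul_le_of_le_one_left (norm_nonneg _) hg).trans
        hx'n)) hx'n hgx'
    have e4 : star x' * x' =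
        ∑ s, ∑ j, ∑ l, star (X s j) * (star (R s₀ j) * R s₀ l) * X s l := by
      simp only [hx', star_sum, star_mul, Finset.sum_mul, Finset.mul_sum]
      refine Finset.sum_congr rfl fun s _ => ?_
      rw [Finset.sum_comm]
      rw [Finset.sum_eq_single s]
      · rw [Finset.sum_comm]
        refine Finset.sum_congr rfl fun j _ => Finset.sum_congr rfl fun l _ => ?_
        rw [← hR2 s s₀ j l]; simp only [mul_assoc]
      · intro t _ ht
        refine Finset.sum_eq_zero fun j _ => Finset.sum_eq_zero fun l _ => ?_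
        rw [mul_assoc, ← mul_assoc (star (R _ _)), hR1 _ _ ht, zero_mul, mul_zero]
      · simp
    have hXm : ∀ s j, X s j ∈ insert g (insert S
        ((Finset.univ.image fun p : Fin K × Fin N => X p.1 p.2) ∪
        Finset.univ.image fun p : Fin K × Fin N => star (X p.1 p.2))) := fun s j =>
      Finset.mem_insert_of_mem (Finset.mem_insert_of_mem (Finset.mem_union_left _
        (Finset.mem_image_of_mem _ (Finset.mem_univ (s, j)))))
    have h2 : ‖star x' * x' - ∑ j, ∑ l, star (R s₀ j) * P j l * R s₀ l‖ ≤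
        K * N * N * (2 * B * θ₃) := by
      have e5 : ∑ j, ∑ l, star (R s₀ j) * P j l * R s₀ l =
          ∑ s, ∑ j, ∑ l, star (R s₀ j) * (star (X s j) * X s l) * R s₀ l := by
        simp only [hP, Finset.mul_sum, Finset.sum_mul]
        rw [Finset.sum_congr rfl fun j _ => Finset.sum_comm, Finset.sum_comm]
      rw [e4, e5]
      simp only [← Finset.sum_sub_distrib]
      refine (norm_sum_le_of_le _ fun s _ => norm_sum_le_of_le _ fun j _ =>
        norm_sum_le_of_le _ fun l _ => (?_ : _ ≤ 2 * B * θ₃)).trans_eq ?_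
      · set r := R s₀ j
        set q := R s₀ l
        have c1 : ‖X s j * r - r * X s j‖ ≤ θ₃ := hR4 _ (hXm s j) s₀ j
        have c2 : ‖X s l * q - q * X s l‖ ≤ θ₃ := hR4 _ (hXm s l) s₀ l
        have e6 : star (X s j) * (star r * q) * X s l - star r * (star (X s j) * X s l) * q =
            star (r * X s j - X s j * r) * (q * X s l) +
              star (X s j * r) * (q * X s l - X s l * q) := by
          simp only [star_sub, star_mul, mul_sub, sub_mul, mul_assoc]; abel
        rw [e6]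
        refine (norm_add_le _ _).trans ?_
        have a1 : ‖q * X s l‖ ≤ B := (norm_mul_le _ _).trans
          ((mul_le_of_le_one_left (norm_nonneg _) (hRn _ _)).trans (hB s l))
        have a2 : ‖X s j * r‖ ≤ B := (norm_mul_le _ _).trans
          ((mul_le_of_le_one_right (norm_nonneg _) (hRn _ _)).trans (hB s j))
        rw [norm_sub_rev] at c1 c2
        have b1 := (norm_mul_le (star (r * X s j - X s j * r)) (q * X s l)).trans
          (mul_le_mul ((norm_star _).trans_le c1) a1 (norm_nonneg _) hθ₃0.le)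
        have b2 := (norm_mul_le (star (X s j * r)) (q * X s l - X s l * q)).trans
          (mul_le_mul ((norm_star _).trans_le a2) c2 (norm_nonneg _) hB0.le)
        linarith
      · simp; ring
    have h3 := main (R s₀) (hR3 s₀)
    have h4 : ‖(∑ j, star (R s₀ j) * S * R s₀ j) - S‖ ≤ N * θ₃ := by
      have e7 : (∑ j, star (R s₀ j) * S * R s₀ j) - S =
          ∑ j, star (R s₀ j) * (S * R s₀ j - R s₀ j * S) := by
        simp only [mul_sub, Finset.sum_sub_distrib, ← mul_assoc, ← Finset.sum_mul, hR3, one_mul]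
      rw [e7]
      refine (norm_sum_le_of_le _ fun j _ => (norm_mul_le _ _).trans (mul_le_mul
        ((norm_star _).trans_le (hRn s₀ j))
        (hR4 S (Finset.mem_insert_of_mem (Finset.mem_insert_self _ _)) s₀ j)
        (norm_nonneg _) zero_le_one)).trans_eq ?_
      simp
    have h5 : θ₃ * W ≤ θ / 2 := by
      rw [hθ₃, div_mul_eq_mul_div, div_le_div_iff₀ (by positivity) two_pos]
      nlinarith
    rw [hW] at h5
    have h6 : (0 : ℝ) ≤ K * N * N * B * θ₃ := by positivity
    calc ‖star (g * x') * (g * x') - S‖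
        ≤ ‖star (g * x') * (g * x') - star x' * x'‖ +
          ‖star x' * x' - ∑ j, ∑ l, star (R s₀ j) * P j l * R s₀ l‖ +
          ‖(∑ j, ∑ l, star (R s₀ j) * P j l * R s₀ l) - ∑ j, star (R s₀ j) * S * R s₀ j‖ +
          ‖(∑ j, star (R s₀ j) * S * R s₀ j) - S‖ := by
          refine le_trans (le_of_eq ?_) ((norm_add_le _ _).trans (add_le_add
            ((norm_add_le _ _).trans (add_le_add (norm_add_le _ _) le_rfl)) le_rfl))
          congr 1; abel
      _ ≤ _ := by linarith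

/-- Compression in the whole algebra. -/
theorem compress (hn : IsNuclear A) (hs : SlotsGoal A) (hm : MatrixGoal) {κ θ : ℝ} (hκ : 0 < κ)
    (hκ1 : 8 * κ ≤ 1) (hθ : 0 < θ) {L : ℕ} (x : Fin L → A)
    (hrow : ∑ i, x i * star (x i) ≤ algebraMap ℝ A κ) (hS : ‖∑ i, star (x i) * x i‖ ≤ 1)
    {g : A} (hg : ‖g‖ ≤ 1) (hgx : ∀ i, g * x i = x i) :
    ∃ x' : A, ‖star (g * x') * (g * x') - ∑ i, star (x i) * x i‖ ≤
      8 * Real.sqrt (8 * κ) + θ :=
  compressOn (J := Set.univ) (fun _ _ _ => trivial) (fun _ _ _ => trivial) (fun _ => trivial)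
    (fun C _ => hn C) (fun n k hk hkn C _ => hs n k hk hkn C) hm hκ hκ1 hθ x (fun _ => trivial)
    hrow hS trivial hg hgx

/-- Comparison without any hypothesis on the existence of traces. -/
theorem core (hn : IsNuclear A) (hs : SlotsGoal A) (hd : DecompGoal A) (hm : MatrixGoal) {ε : ℝ}
    (hε : 0 < ε) :
    ∃ κ : ℝ, 0 < κ ∧ ∀ (a b : A) (η : ℝ), 0 ≤ a → ‖a‖ ≤ 1 → 0 ≤ b → ‖b‖ ≤ 1 → 0 < η →
      cut (2 * η) b ≠ 0 →
      (∀ τ : A →ₗ[ℂ] ℂ, IsTracial τ → (τ a).re < κ * (τ (cut (2 * η) b)).re) →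
      ∃ x : A, ‖star x * x - a‖ ≤ ε ∧ cfc (ramp η) b * x = x := by
  refine ⟨min (1 / 8) ((ε / 32) ^ 2 / 8), lt_min (by norm_num) (by positivity), ?_⟩
  intro a b η ha ha1 hb hb1 hη hne htr
  set κ : ℝ := min (1 / 8) ((ε / 32) ^ 2 / 8)
  have hκ : 0 < κ := lt_min (by norm_num) (by positivity)
  have hβ : 8 * Real.sqrt (8 * κ) ≤ ε / 4 := by
    have : Real.sqrt (8 * κ) ≤ ε / 32 := by
      refine (Real.sqrt_le_sqrt (by linarith [min_le_right (1 / 8 : ℝ) ((ε / 32) ^ 2 / 8)] :
        8 * κ ≤ (ε / 32) ^ 2)).trans_eq (Real.sqrt_sq (by positivity))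
    linarith
  set b' := cut (2 * η) b with hb'
  have hb'0 : 0 ≤ b' := cfc_nonneg fun t _ => le_max_left _ _
  set θ := min (ε / 8) (1 / 2)
  have hθ : 0 < θ := lt_min (by positivity) (by norm_num)
  have hθ1 : θ ≤ 1 / 2 := min_le_right _ _
  have hθ2 : θ ≤ ε / 8 := min_le_left _ _
  set a' : A := (1 - θ) • a with ha'
  have ha'0 : 0 ≤ a' := smul_nonneg (by linarith) ha
  have htr' : ∀ τ : A →ₗ[ℂ] ℂ, IsTracial τ → (τ a').re < κ * (τ b').re := by
    intro τ hτ
    refine lt_of_le_of_lt ?_ (htr τ hτ)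
    obtain ⟨s, hs'⟩ := CStarAlgebra.nonneg_iff_eq_star_mul_self.1 ha
    have h0 : 0 ≤ (τ a).re := by rw [hs']; exact (Complex.nonneg_iff.1 (hτ.2.1 s)).1
    rw [ha', ← Complex.coe_smul, map_smul, smul_eq_mul, Complex.re_ofReal_mul]
    nlinarith
  obtain ⟨L, x, hx1, hx2⟩ := hd a' b' κ θ ha'0 hb'0 hne hκ hθ htr'
  have hb'1 : b' ≤ 1 := by
    refine (CStarAlgebra.norm_le_one_iff_of_nonneg _ hb'0).1 (norm_cfc_le zero_le_one fun t ht => ?_)
    have ht1 : t ≤ 1 := (le_algebraMap_iff_spectrum_le (R := ℝ) (r := (1 : ℝ))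
      (IsSelfAdjoint.of_nonneg hb)).1
      (by simpa using (CStarAlgebra.norm_le_one_iff_of_nonneg _ hb).1 hb1) t ht
    rw [Real.norm_eq_abs, abs_of_nonneg (le_max_left _ _)]
    exact max_le zero_le_one (by linarith)
  have hrow : ∑ i, x i * star (x i) ≤ algebraMap ℝ A κ := by
    refine hx2.trans ?_
    rw [Algebra.algebraMap_eq_smul_one]
    exact smul_le_smul_of_nonneg_left hb'1 hκ.le
  have hna' : ‖a'‖ ≤ 1 - θ := by
    rw [ha', norm_smul, Real.norm_of_nonneg (by linarith)]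
    exact mul_le_of_le_one_right (by linarith) ha1
  have hS : ‖∑ i, star (x i) * x i‖ ≤ 1 := by
    linarith [norm_le_norm_add_norm_sub' (∑ i, star (x i) * x i) a']
  set g := cfc (ramp (2 * η)) b
  have hgn : ‖g‖ ≤ 1 := norm_cfc_le zero_le_one fun t _ => by
    have h0 : 0 ≤ ramp (2 * η) t := le_min zero_le_one (le_max_left _ _)
    rw [Real.norm_of_nonneg h0]; exact min_le_left _ _
  have hgb : g * b' = b' := ramp_mul_cfc b (by positivity) (by fun_prop) fun t ht =>
    max_eq_left (by linarith)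
  have hgx : ∀ i, g * x i = x i := fixed_of_le x hx2 (by rw [mul_smul_comm, hgb])
  obtain ⟨x', hx'⟩ := compress hn hs hm hκ
    (by linarith [min_le_left (1 / 8 : ℝ) ((ε / 32) ^ 2 / 8)]) hθ x hrow hS hgn hgx
  refine ⟨g * x', ?_, ?_⟩
  · have h1 : ‖a' - a‖ ≤ θ := by
      rw [ha', show (1 - θ) • a - a = (-θ) • a by module, norm_smul, norm_neg,
        Real.norm_of_nonneg hθ.le]
      exact mul_le_of_le_one_right hθ.le ha1
    have h2 := norm_sub_le_norm_sub_add_norm_sub (star (g * x') * (g * x'))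
      (∑ i, star (x i) * x i) a
    have h3 := norm_sub_le_norm_sub_add_norm_sub (∑ i, star (x i) * x i) a' a
    linarith
  · rw [← mul_assoc, ramp_mul_cfc b hη (continuous_ramp _) fun t ht => ?_]
    have : 2 * t / (2 * η) - 1 ≤ 0 := by
      rw [sub_nonpos, div_le_one (by positivity)]; linarith
    rw [ramp, max_eq_left this, min_eq_right zero_le_one]

/-- Comparison of an element of small trace with one of trace bounded below. -/
theorem compare_goal (hn : IsNuclear A) (hs : SlotsGoal A) (hd : DecompGoal A) (hm : MatrixGoal)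
    (hne : ∃ τ : A →ₗ[ℂ] ℂ, IsTracial τ) : CompareGoal A := by
  intro c ε hc hε
  obtain ⟨κ, hκ, hcore⟩ := core hn hs hd hm hε
  refine ⟨κ * c / 4, c / 4, by positivity, by positivity, fun a b ha ha1 hb hb1 htr => ?_⟩
  have hlow : ∀ τ : A →ₗ[ℂ] ℂ, IsTracial τ → c / 2 ≤ (τ (cut (2 * (c / 4)) b)).re := by
    intro τ hτ
    have hle : b - algebraMap ℝ A (2 * (c / 4)) ≤ cut (2 * (c / 4)) b := by
      conv_lhs => arg 1; rw [← cfc_id' ℝ b]
      rw [← cfc_const (2 * (c / 4)) b, ← cfc_sub _ _ b]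
      exact cfc_mono fun t _ => le_max_right _ _
    obtain ⟨s, hs'⟩ := CStarAlgebra.nonneg_iff_eq_star_mul_self.1 (sub_nonneg.2 hle)
    have h0 := (Complex.nonneg_iff.1 (hτ.2.1 s)).1
    rw [← hs', map_sub, map_sub, Algebra.algebraMap_eq_smul_one, ← Complex.coe_smul, map_smul,
      hτ.1, smul_eq_mul, mul_one] at h0
    simp only [Complex.sub_re, Complex.ofReal_re] at h0
    linarith [(htr τ hτ).1]
  refine hcore a b (c / 4) ha ha1 hb hb1 (by positivity) (fun h0 => ?_) fun τ hτ => ?_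
  · obtain ⟨τ, hτ⟩ := hne
    have := hlow τ hτ
    rw [h0, map_zero, Complex.zero_re] at this
    linarith
  · have h1 := hlow τ hτ
    have h2 := (htr τ hτ).2
    nlinarith

end Vale.Agent.P095.Uni.Compare
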