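import Vale.Agent.P095.Uni.Goals

/-!
# P095: domination in every trace gives a decomposition

After Cuntz and Pedersen: if `a` is not approximately a sum `∑ xᵢ⋆ xᵢ` with `∑ xᵢ xᵢ⋆ ≤ B`, a
separating positive functional `f` yields the tracial functional
`v ↦ sup {f (∑ xᵢ⋆ xᵢ) | ∑ xᵢ xᵢ⋆ ≤ v}`, which is finite as `B` is full.
-/

open scoped ComplexOrder
open Filter Topology

noncomputable section

namespace Vale.Agent.P095.Uni.Decomp

variable {A : Type*} [CStarAlgebra A] [PartialOrder A] [StarOrderedRing A]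

/-- An inverse square root of a regularised positive element. -/
theorem exists_regularizer {z : A} (hz : 0 ≤ z) {δ : ℝ} (hδ : 0 < δ) :
    ∃ w : A, IsSelfAdjoint w ∧ w * (z + δ • (1 : A)) * w = 1 ∧
      w * z * w = 1 - δ • (w * w) := by
  set g : ℝ → ℝ := fun t => (Real.sqrt (t + δ))⁻¹ with hg
  have hpos : ∀ t ∈ spectrum ℝ z, 0 < t + δ := fun t ht => by
    have := spectrum_nonneg_of_nonneg hz ht
    linarith
  have hc : ContinuousOn g (spectrum ℝ z) :=
    ContinuousOn.inv₀ (by fun_prop) fun t ht => (Real.sqrt_pos.2 (hpos t ht)).ne'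
  have hzs : IsSelfAdjoint z := .of_nonneg hz
  have h1 : z + δ • (1 : A) = cfc (fun t : ℝ => t + δ) z := by
    rw [cfc_add (a := z) (fun t : ℝ => t) (fun _ => δ), cfc_id' ℝ z, cfc_const δ z,
      Algebra.algebraMap_eq_smul_one]
  have h2 : cfc g z * (z + δ • (1 : A)) * cfc g z = 1 := by
    rw [h1, ← cfc_mul g _ z hc (by fun_prop),
      ← cfc_mul (fun t => g t * (t + δ)) g z (hc.mul (by fun_prop)) hc, ← cfc_one ℝ z]
    refine cfc_congr fun t ht => ?_
    have h := hpos t ht
    have hs : Real.sqrt (t + δ) ≠ 0 := (Real.sqrt_pos.2 h).ne'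
    simp only [hg, Pi.one_apply]
    field_simp
    rw [Real.sq_sqrt h.le]
  refine ⟨cfc g z, cfc_predicate g z, h2, eq_sub_of_add_eq ?_⟩
  rw [← h2]
  simp [mul_add, add_mul]

/-- Splitting of a family below a sum into families below the summands. -/
theorem split {M L : ℕ} (c : Fin M → A) (x : Fin L → A)
    (hx : ∑ i, x i * star (x i) ≤ ∑ j, star (c j) * c j) {δ : ℝ} (hδ : 0 < δ) :
    ∃ w : A, (∀ j, ∑ i, c j * w * x i * star (c j * w * x i) ≤ c j * star (c j)) ∧
      ‖∑ j, ∑ i, star (c j * w * x i) * (c j * w * x i) - ∑ i, star (x i) * x i‖ ≤ δ * L := by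
  obtain ⟨w, hw, -, hV⟩ :=
    exists_regularizer (Finset.sum_nonneg fun j _ => star_mul_self_nonneg (c j)) hδ
  set V := ∑ j, star (c j) * c j with hVdef
  have hww : 0 ≤ w * w := hw.mul_self_nonneg
  have hV1 : w * V * w ≤ 1 := by
    rw [hV]
    exact sub_le_self _ (smul_nonneg hδ.le hww)
  refine ⟨w, fun j => ?_, ?_⟩
  · have e : ∑ i, c j * w * x i * star (c j * w * x i) =
        c j * w * (∑ i, x i * star (x i)) * star (c j * w) := by
      simp only [Finset.mul_sum, Finset.sum_mul, star_mul, mul_assoc]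
    rw [e]
    refine (star_right_conjugate_le_conjugate hx _).trans ?_
    have e' : c j * w * V * star (c j * w) = c j * (w * V * w) * star (c j) := by
      simp only [star_mul, hw.star_eq, mul_assoc]
    rw [e']
    simpa using star_right_conjugate_le_conjugate hV1 (c j)
  · have e : ∑ j, ∑ i, star (c j * w * x i) * (c j * w * x i) -
        ∑ i, star (x i) * x i = -(δ • ∑ i, star (w * x i) * (w * x i)) := by
      rw [Finset.sum_comm, ← Finset.sum_sub_distrib, Finset.smul_sum, ← Finset.sum_neg_distrib]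
      refine Finset.sum_congr rfl fun i _ => ?_
      have e1 : ∑ j, star (c j * w * x i) * (c j * w * x i) = star (x i) * (w * V * w) * x i := by
        simp only [hVdef, Finset.mul_sum, Finset.sum_mul, star_mul, hw.star_eq, mul_assoc]
      rw [e1, hV]
      simp only [star_mul, hw.star_eq, mul_sub, sub_mul, mul_one, mul_smul_comm, smul_mul_assoc,
        mul_assoc]
      abel
    have hb : ∀ i, ‖star (w * x i) * (w * x i)‖ ≤ 1 := fun i => by
      rw [CStarRing.norm_star_mul_self, ← CStarRing.norm_self_mul_star,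
        CStarAlgebra.norm_le_one_iff_of_nonneg _ (mul_star_self_nonneg _)]
      have h : x i * star (x i) ≤ V :=
        (Finset.single_le_sum (f := fun l => x l * star (x l))
          (fun l _ => mul_star_self_nonneg (x l)) (Finset.mem_univ i)).trans hx
      refine le_trans ?_ hV1
      have := hw.conjugate_le_conjugate h
      simpa [star_mul, hw.star_eq, mul_assoc] using this
    rw [e, norm_neg, norm_smul, Real.norm_of_nonneg hδ.le]
    refine mul_le_mul_of_nonneg_left ((norm_sum_le_of_le _ fun i _ => hb i).trans ?_) hδ.le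
    simp

/-- The values `f (∑ xᵢ⋆ xᵢ)` with `∑ xᵢ xᵢ⋆ ≤ v`. -/
def vals (f : StrongDual ℝ A) (v : A) : Set ℝ :=
  {r | ∃ (L : ℕ) (x : Fin L → A), ∑ i, x i * star (x i) ≤ v ∧ r = f (∑ i, star (x i) * x i)}

/-- The supremum of `vals`. -/
def top (f : StrongDual ℝ A) (v : A) : ℝ := sSup (vals f v)

variable {f : StrongDual ℝ A}

omit [StarOrderedRing A] in
theorem zero_mem_vals {v : A} (hv : 0 ≤ v) : (0 : ℝ) ∈ vals f v :=
  ⟨0, Fin.elim0, by simpa using hv, by simp⟩

omit [StarOrderedRing A] in
theorem vals_mono {u v : A} (h : u ≤ v) : vals f u ⊆ vals f v :=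
  fun _ ⟨L, x, hx, hr⟩ => ⟨L, x, hx.trans h, hr⟩

theorem add_mem_vals {u v : A} {r s : ℝ} (hr : r ∈ vals f u) (hs : s ∈ vals f v) :
    r + s ∈ vals f (u + v) := by
  obtain ⟨L, x, hx, rfl⟩ := hr
  obtain ⟨M, y, hy, rfl⟩ := hs
  refine ⟨L + M, Fin.append x y, ?_, ?_⟩
  · simpa [Fin.sum_univ_add] using add_le_add hx hy
  · simp [Fin.sum_univ_add]

theorem smul_mem_vals {v : A} {r t : ℝ} (ht : 0 ≤ t) (hr : r ∈ vals f v) :
    t * r ∈ vals f (t • v) := by
  obtain ⟨L, x, hx, rfl⟩ := hr
  refine ⟨L, fun i => Real.sqrt t • x i, ?_, ?_⟩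
  · simp only [star_smul, star_trivial, smul_mul_smul_comm, Real.mul_self_sqrt ht]
    rw [← Finset.smul_sum]
    exact smul_le_smul_of_nonneg_left hx ht
  · simp only [star_smul, star_trivial, smul_mul_smul_comm, Real.mul_self_sqrt ht]
    rw [← Finset.smul_sum, map_smul, smul_eq_mul]

/-- The values on a sum of squares are bounded by bounds on the reversed squares. -/
theorem vals_le_sum {M : ℕ} (c : Fin M → A) (m : Fin M → ℝ)
    (hm : ∀ j, ∀ r ∈ vals f (c j * star (c j)), r ≤ m j) {r : ℝ}
    (hr : r ∈ vals f (∑ j, star (c j) * c j)) : r ≤ ∑ j, m j := by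
  obtain ⟨L, x, hx, rfl⟩ := hr
  refine le_of_forall_pos_le_add fun ε hε => ?_
  obtain ⟨w, hy1, hy2⟩ := split c x hx (show 0 < ε / (‖f‖ * L + 1) by positivity)
  have h1 : f (∑ j, ∑ i, star (c j * w * x i) * (c j * w * x i)) ≤ ∑ j, m j := by
    rw [map_sum]
    exact Finset.sum_le_sum fun j _ => hm j _ ⟨L, fun i => c j * w * x i, hy1 j, rfl⟩
  have h2 := (le_abs_self _).trans
    ((Real.norm_eq_abs _).symm.le.trans ((f.le_opNorm _).trans
      (mul_le_mul_of_nonneg_left ((norm_sub_rev _ _).le.trans hy2) (norm_nonneg f))))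
  rw [map_sub] at h2
  have h3 : ‖f‖ * (ε / (‖f‖ * L + 1) * L) ≤ ε := by
    rw [div_mul_eq_mul_div, mul_div_assoc', div_le_iff₀ (by positivity)]
    nlinarith [norm_nonneg f]
  linarith

section Top

variable (hb : ∀ v : A, 0 ≤ v → BddAbove (vals f v))

include hb

omit [StarOrderedRing A] in
theorem le_top {v : A} (hv : 0 ≤ v) {r : ℝ} (hr : r ∈ vals f v) : r ≤ top f v :=
  le_csSup (hb v hv) hr

omit [StarOrderedRing A] in
theorem top_nonneg {v : A} (hv : 0 ≤ v) : 0 ≤ top f v := le_top hb hv (zero_mem_vals hv)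

omit [StarOrderedRing A] in
theorem top_mono {u v : A} (hu : 0 ≤ u) (h : u ≤ v) : top f u ≤ top f v :=
  csSup_le_csSup (hb v (hu.trans h)) ⟨_, zero_mem_vals hu⟩ (vals_mono h)

theorem top_add {u v : A} (hu : 0 ≤ u) (hv : 0 ≤ v) : top f (u + v) = top f u + top f v := by
  refine le_antisymm (csSup_le ⟨_, zero_mem_vals (add_nonneg hu hv)⟩ fun r hr => ?_) ?_
  · have hs : ∀ w : A, 0 ≤ w → CFC.sqrt w * star (CFC.sqrt w) = w ∧
        star (CFC.sqrt w) * CFC.sqrt w = w := fun w hw => by
      rw [(IsSelfAdjoint.of_nonneg (CFC.sqrt_nonneg w)).star_eq]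
      exact ⟨CFC.sqrt_mul_sqrt_self w hw, CFC.sqrt_mul_sqrt_self w hw⟩
    refine (vals_le_sum (f := f) ![CFC.sqrt u, CFC.sqrt v] ![top f u, top f v] ?_ ?_).trans_eq ?_
    · intro j s h
      fin_cases j
      · exact le_top hb hu (by simpa [(hs u hu).1] using h)
      · exact le_top hb hv (by simpa [(hs v hv).1] using h)
    · simpa [Fin.sum_univ_two, (hs u hu).2, (hs v hv).2] using hr
    · simp [Fin.sum_univ_two]
  · rw [← le_sub_iff_add_le]
    refine csSup_le ⟨_, zero_mem_vals hu⟩ fun r hr => ?_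
    rw [le_sub_comm]
    refine csSup_le ⟨_, zero_mem_vals hv⟩ fun s hs => ?_
    rw [le_sub_iff_add_le, add_comm]
    exact le_top hb (add_nonneg hu hv) (add_mem_vals hr hs)

theorem top_zero : top f (0 : A) = 0 := by
  have := top_add hb (le_refl (0 : A)) le_rfl
  simp only [add_zero] at this
  linarith

theorem top_smul {v : A} (hv : 0 ≤ v) {t : ℝ} (ht : 0 ≤ t) : top f (t • v) = t * top f v := by
  rcases ht.eq_or_lt with rfl | ht'
  · simp [top_zero hb]
  refine le_antisymm (csSup_le ⟨_, zero_mem_vals (smul_nonneg ht hv)⟩ fun r hr => ?_) ?_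
  · have := le_top hb hv (r := t⁻¹ * r) (by
      simpa [inv_smul_smul₀ ht'.ne'] using smul_mem_vals (inv_nonneg.2 ht) hr)
    rwa [inv_mul_le_iff₀ ht'] at this
  · rw [mul_comm, ← le_div_iff₀ ht']
    refine csSup_le ⟨_, zero_mem_vals hv⟩ fun r hr => ?_
    rw [le_div_iff₀ ht', mul_comm]
    exact le_top hb (smul_nonneg ht hv) (smul_mem_vals ht hr)

theorem top_comm (c : A) : top f (star c * c) = top f (c * star c) := by
  have key : ∀ d : A, top f (star d * d) ≤ top f (d * star d) := fun d => by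
    refine csSup_le ⟨_, zero_mem_vals (star_mul_self_nonneg d)⟩ fun r hr => ?_
    refine (vals_le_sum (f := f) ![d] ![top f (d * star d)] ?_ (by simpa using hr)).trans_eq (by simp)
    intro j s h
    fin_cases j
    exact le_top hb (mul_star_self_nonneg d) (by simpa using h)
  exact le_antisymm (key c) (by simpa using key (star c))

/-- The supremum extends to a tracial state. -/
theorem exists_tracial (h1 : 0 < top f (1 : A)) :
    ∃ τ : A →ₗ[ℂ] ℂ, IsTracial τ ∧ ∀ p, 0 ≤ p → (τ p).re = top f p / top f 1 := by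
  let re' : A →ₗ[ℝ] A :=
    { toFun := fun x => (2⁻¹ : ℝ) • (x + star x)
      map_add' := fun x y => by simp only [star_add]; module
      map_smul' := fun t x => by simp only [star_smul, star_trivial, RingHom.id_apply]; module }
  have hre_norm : ∀ x, ‖re' x‖ ≤ ‖x‖ := fun x => by
    show ‖(2⁻¹ : ℝ) • (x + star x)‖ ≤ ‖x‖
    rw [norm_smul, Real.norm_of_nonneg (by norm_num)]
    have := norm_add_le x (star x)
    rw [norm_star] at this
    linarith
  have hre_sa : ∀ x, IsSelfAdjoint (re' x) := fun x => by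
    show star ((2⁻¹ : ℝ) • (x + star x)) = _
    rw [star_smul, star_trivial, star_add, star_star, add_comm]
    rfl
  have hval : ∀ x, 0 ≤ re' x + ‖x‖ • (1 : A) := fun x => by
    have h := (hre_sa x).neg_algebraMap_norm_le_self
    rw [neg_le_iff_add_nonneg', Algebra.algebraMap_eq_smul_one] at h
    refine h.trans ?_
    have := smul_le_smul_of_nonneg_right (hre_norm x) (zero_le_one (α := A))
    exact (add_le_add this le_rfl).trans_eq (add_comm _ _)
  set g : A → ℝ := fun x => top f (re' x + ‖x‖ • (1 : A)) - ‖x‖ * top f (1 : A) with hgdef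
  have hind : ∀ x (k : ℝ), 0 ≤ k → 0 ≤ re' x + k • (1 : A) →
      g x = top f (re' x + k • (1 : A)) - k * top f (1 : A) := by
    intro x k hk hxk
    have e1 := top_add hb (hval x) (smul_nonneg hk (zero_le_one (α := A)))
    have e2 := top_add hb hxk (smul_nonneg (norm_nonneg x) (zero_le_one (α := A)))
    rw [top_smul hb zero_le_one hk] at e1
    rw [top_smul hb zero_le_one (norm_nonneg x)] at e2
    rw [add_right_comm] at e2
    simp only [hgdef]
    linarith
  have hadd : ∀ x y, g (x + y) = g x + g y := fun x y => by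
    have e : re' (x + y) + (‖x‖ + ‖y‖) • (1 : A) =
        (re' x + ‖x‖ • (1 : A)) + (re' y + ‖y‖ • (1 : A)) := by
      rw [map_add, add_smul]; abel
    rw [hind (x + y) (‖x‖ + ‖y‖) (by positivity) (by rw [e]; exact add_nonneg (hval x) (hval y)), e,
      top_add hb (hval x) (hval y)]
    simp only [hgdef]
    ring
  have hpos : ∀ p, 0 ≤ p → g p = top f p := fun p hp => by
    have e : re' p = p := by
      show (2⁻¹ : ℝ) • (p + star p) = p
      rw [(IsSelfAdjoint.of_nonneg hp).star_eq]
      module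
    rw [hind p 0 le_rfl (by simpa [e] using hp)]
    simp [e]
  have hzero : ∀ q, re' q = 0 → g q = 0 := fun q hq => by
    rw [hind q 0 le_rfl (by simp [hq])]
    simp [hq, top_zero hb]
  have hnn : ∀ (t : ℝ) x, 0 ≤ t → g (t • x) = t * g x := fun t x ht => by
    have e : re' (t • x) + (t * ‖x‖) • (1 : A) = t • (re' x + ‖x‖ • (1 : A)) := by
      rw [map_smul, mul_smul, smul_add]
    rw [hind (t • x) (t * ‖x‖) (by positivity) (by rw [e]; exact smul_nonneg ht (hval x)), e,
      top_smul hb (hval x) ht]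
    simp only [hgdef]
    ring
  have hneg : ∀ x, g (-x) = -g x := fun x => by
    have := hadd x (-x)
    rw [add_neg_cancel, hzero 0 (map_zero _)] at this
    linarith
  let gl : Module.Dual ℝ A :=
    { toFun := fun x => (top f (1 : A))⁻¹ * g x
      map_add' := fun x y => by rw [hadd, mul_add]
      map_smul' := fun t x => by
        rw [RingHom.id_apply, smul_eq_mul, mul_left_comm t]
        congr 1
        rcases le_total 0 t with ht | ht
        · exact hnn t x ht
        · have := hnn (-t) x (neg_nonneg.2 ht)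
          rw [neg_smul, hneg] at this
          linarith }
  let τ : A →ₗ[ℂ] ℂ := Module.Dual.extendRCLike (𝕜 := ℂ) gl
  have hτ : ∀ p, 0 ≤ p → τ p = ((top f p / top f 1 : ℝ) : ℂ) := fun p hp => by
    have hI : gl ((Complex.I : ℂ) • p) = 0 := by
      show (top f (1 : A))⁻¹ * g (Complex.I • p) = 0
      rw [hzero, mul_zero]
      show (2⁻¹ : ℝ) • (Complex.I • p + star (Complex.I • p)) = 0
      rw [star_smul, (IsSelfAdjoint.of_nonneg hp).star_eq, Complex.star_def, Complex.conj_I]
      simp
    show ((gl p : ℝ) : ℂ) - Complex.I * ((gl ((Complex.I : ℂ) • p) : ℝ) : ℂ) = _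
    rw [hI, Complex.ofReal_zero, mul_zero, sub_zero]
    show (((top f (1 : A))⁻¹ * g p : ℝ) : ℂ) = _
    rw [hpos p hp, inv_mul_eq_div]
  have hsq : ∀ z, τ (star z * z) = τ (z * star z) := fun z => by
    rw [hτ _ (star_mul_self_nonneg z), hτ _ (mul_star_self_nonneg z), top_comm hb]
  refine ⟨τ, ⟨?_, fun a => ?_, fun a b => ?_⟩, fun p hp => by rw [hτ p hp, Complex.ofReal_re]⟩
  · rw [hτ 1 zero_le_one, div_self h1.ne', Complex.ofReal_one]
  · rw [hτ _ (star_mul_self_nonneg a)]
    exact Complex.zero_le_real.2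
      (div_nonneg (top_nonneg hb (star_mul_self_nonneg a)) h1.le)
  · have e1 := hsq (b + star a)
    have e2 := hsq (b + Complex.I • star a)
    have e3 := hsq b
    have e4 := hsq (star a)
    simp only [star_add, star_smul, star_star, Complex.star_def, Complex.conj_I, add_mul, mul_add,
      smul_mul_assoc, mul_smul_comm, map_add, map_smul, smul_eq_mul] at e1 e2
    rw [star_star] at e4
    linear_combination (norm := (ring_nf; simp only [Complex.I_sq, Complex.I_pow_three]; ring))
      (1 / 2 : ℂ) * e1 + (Complex.I / 2) * e2 + (-(1 + Complex.I) / 2) * e3 +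
        (-(1 + Complex.I) / 2) * e4

end Top

omit [PartialOrder A] [StarOrderedRing A] in
theorem one_mem_closure_ideal [IsSimpleRing A] {p : A} (hp : p ≠ 0) :
    (1 : A) ∈ AddSubgroup.closure {x | ∃ w z, x = w * p * z} := by
  have h : TwoSidedIdeal.span ({p} : Set A) = ⊤ := by
    refine (eq_bot_or_eq_top _).resolve_left fun hb => hp ?_
    have := TwoSidedIdeal.subset_span (Set.mem_singleton p)
    rw [hb] at this
    exact (TwoSidedIdeal.mem_bot A).1 this
  have h1 : (1 : A) ∈ TwoSidedIdeal.span ({p} : Set A) := by rw [h]; trivial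
  refine AddSubgroup.closure_mono ?_ (TwoSidedIdeal.mem_span_iff_mem_addSubgroup_closure.1 h1)
  rintro x ⟨a, ⟨w, -, q, rfl, rfl⟩, z, -, rfl⟩
  exact ⟨w, z, rfl⟩

/-- A nonzero positive element of a simple algebra is full. -/
theorem exists_full [IsSimpleRing A] {p : A} (hp : 0 ≤ p) (hp0 : p ≠ 0) :
    ∃ (M : ℕ) (s : Fin M → A), 1 ≤ ∑ j, star (s j) * p * s j := by
  set r := CFC.sqrt p
  have hr : star r = r := (IsSelfAdjoint.of_nonneg (CFC.sqrt_nonneg p)).star_eq
  have hrr : r * r = p := CFC.sqrt_mul_sqrt_self p hp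
  have key : ∀ z ∈ AddSubgroup.closure {x | ∃ w y, x = w * p * y}, ∃ (M : ℕ) (s : Fin M → A),
      z + star z ≤ ∑ j, star (s j) * p * s j ∧ -(z + star z) ≤ ∑ j, star (s j) * p * s j := by
    intro z hz
    induction hz using AddSubgroup.closure_induction with
    | mem x hx =>
      obtain ⟨w, y, rfl⟩ := hx
      have e : ∀ σ : A, σ = r * star w - r * y ∨ σ = r * star w + r * y →
          0 ≤ star σ * σ := fun σ _ => star_mul_self_nonneg σ
      have hm := e _ (Or.inl rfl)
      have hp' := e _ (Or.inr rfl)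
      simp only [star_sub, star_add, star_mul, star_star, hr, sub_mul, mul_sub, add_mul, mul_add,
        mul_assoc, ← mul_assoc r r, hrr] at hm hp'
      have hsa : star (w * p * y) = star y * (p * star w) := by
        rw [star_mul, star_mul, (IsSelfAdjoint.of_nonneg hp).star_eq, ← mul_assoc]
      refine ⟨2, ![star w, y], ?_, ?_⟩
      · rw [Fin.sum_univ_two, hsa, ← sub_nonneg]
        simp only [Matrix.cons_val_zero, Matrix.cons_val_one, star_star, mul_assoc]
        exact hm.trans_eq (by abel)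
      · rw [Fin.sum_univ_two, hsa, ← sub_nonneg]
        simp only [Matrix.cons_val_zero, Matrix.cons_val_one, star_star, mul_assoc]
        exact hp'.trans_eq (by abel)
    | zero => exact ⟨0, Fin.elim0, by simp, by simp⟩
    | add x y _ _ hx hy =>
      obtain ⟨M, s, h1, h2⟩ := hx
      obtain ⟨N, t, h3, h4⟩ := hy
      refine ⟨M + N, Fin.append s t, ?_, ?_⟩
      · simp only [Fin.sum_univ_add, Fin.append_left, Fin.append_right, star_add]
        exact (le_of_eq (by abel)).trans (add_le_add h1 h3)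
      · simp only [Fin.sum_univ_add, Fin.append_left, Fin.append_right, star_add]
        exact (le_of_eq (by abel)).trans (add_le_add h2 h4)
    | neg x _ hx =>
      obtain ⟨M, s, h1, h2⟩ := hx
      exact ⟨M, s, by simpa [add_comm] using h2, by simpa [add_comm] using h1⟩
  obtain ⟨M, s, h, -⟩ := key 1 (one_mem_closure_ideal hp0)
  rw [star_one] at h
  exact ⟨M, s, (le_add_of_nonneg_left zero_le_one).trans h⟩

/-- A decomposition from approximate domination by a sum of squares. -/
theorem decomp_aux {a B : A} (ha : 0 ≤ a) {δ : ℝ} (hδ : 0 < δ) {L : ℕ} (x : Fin L → A)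
    (h : a ≤ ∑ i, star (x i) * x i + δ • (1 : A)) (hx : ∑ i, x i * star (x i) ≤ B) :
    ∃ r : A, ‖∑ i, star (x i * r) * (x i * r) - a‖ ≤ δ ∧
      ∑ i, x i * r * star (x i * r) ≤ B := by
  set z := ∑ i, star (x i) * x i
  obtain ⟨w, hw, h1, h2⟩ := exists_regularizer (z := z)
    (Finset.sum_nonneg fun i _ => star_mul_self_nonneg (x i)) hδ
  set q := CFC.sqrt a
  have hq : star q = q := (IsSelfAdjoint.of_nonneg (CFC.sqrt_nonneg a)).star_eq
  have hqq : q * q = a := CFC.sqrt_mul_sqrt_self a ha
  set r := w * q with hrdef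
  have hr : r * star r ≤ 1 := by
    have := hw.conjugate_le_conjugate h
    rw [h1] at this
    rwa [hrdef, star_mul, hq, hw.star_eq, mul_assoc, ← mul_assoc q, hqq, ← mul_assoc]
  refine ⟨r, ?_, ?_⟩
  · have e : ∑ i, star (x i * r) * (x i * r) - a = -(δ • (star r * r)) := by
      have e1 : ∑ i, star (x i * r) * (x i * r) = q * (w * z * w) * q := by
        simp only [hrdef, z, Finset.mul_sum, Finset.sum_mul, star_mul, hq, hw.star_eq, mul_assoc]
      rw [e1, h2, hrdef, star_mul, hq, hw.star_eq]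
      simp only [mul_sub, sub_mul, mul_one, hqq, mul_smul_comm, smul_mul_assoc, mul_assoc]
      abel
    rw [e, norm_neg, norm_smul, Real.norm_of_nonneg hδ.le, CStarRing.norm_star_mul_self,
      ← CStarRing.norm_self_mul_star]
    exact mul_le_of_le_one_right hδ.le
      ((CStarAlgebra.norm_le_one_iff_of_nonneg _ (mul_star_self_nonneg r)).2 hr)
  · refine le_trans (Finset.sum_le_sum fun i _ => ?_) hx
    have := star_right_conjugate_le_conjugate hr (x i)
    simpa [star_mul, mul_assoc] using this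

/-- Domination in every trace gives a decomposition. -/
theorem decomp_goal [IsSimpleRing A] : DecompGoal A := by
  intro a b κ ε ha hb hb0 hκ hε htr
  set B := κ • b with hBdef
  have hB : 0 ≤ B := smul_nonneg hκ.le hb
  set C : Set A := {c | ∃ (L : ℕ) (x : Fin L → A),
    ∑ i, x i * star (x i) ≤ B ∧ c ≤ ∑ i, star (x i) * x i} with hC
  by_cases hcl : a ∈ closure C
  · obtain ⟨c, ⟨L, x, hx, hcx⟩, hac⟩ := Metric.mem_closure_iff.1 hcl ε hε
    suffices h : a ≤ ∑ i, star (x i) * x i + ε • (1 : A) by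
      obtain ⟨r, hy1, hy2⟩ := decomp_aux ha hε x h hx
      exact ⟨L, fun i => x i * r, hy1, hy2⟩
    rw [dist_eq_norm] at hac
    have hsa : IsSelfAdjoint (a - c) := by
      refine (IsSelfAdjoint.of_nonneg ha).sub ?_
      have h1 := IsSelfAdjoint.of_nonneg (sub_nonneg.2 hcx)
      have h2 : IsSelfAdjoint (∑ i, star (x i) * x i) :=
        IsSelfAdjoint.of_nonneg (Finset.sum_nonneg fun i _ => star_mul_self_nonneg (x i))
      simpa using h2.sub h1
    have h3 := hsa.le_algebraMap_norm_self
    rw [Algebra.algebraMap_eq_smul_one] at h3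
    calc a = c + (a - c) := by abel
      _ ≤ _ := add_le_add hcx (h3.trans (smul_le_smul_of_nonneg_right hac.le zero_le_one))
  have hconv : Convex ℝ C := by
    rintro c ⟨L, x, hx, hcx⟩ d ⟨M, y, hy, hdy⟩ s t hs ht hst
    refine ⟨L + M, Fin.append (fun i => Real.sqrt s • x i) (fun i => Real.sqrt t • y i), ?_, ?_⟩
    · simp only [Fin.sum_univ_add, Fin.append_left, Fin.append_right, star_smul, star_trivial,
        smul_mul_smul_comm, Real.mul_self_sqrt hs, Real.mul_self_sqrt ht, ← Finset.smul_sum]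
      exact (add_le_add (smul_le_smul_of_nonneg_left hx hs)
        (smul_le_smul_of_nonneg_left hy ht)).trans_eq (by rw [← add_smul, hst, one_smul])
    · simp only [Fin.sum_univ_add, Fin.append_left, Fin.append_right, star_smul, star_trivial,
        smul_mul_smul_comm, Real.mul_self_sqrt hs, Real.mul_self_sqrt ht, ← Finset.smul_sum]
      exact add_le_add (smul_le_smul_of_nonneg_left hcx hs) (smul_le_smul_of_nonneg_left hdy ht)
  obtain ⟨f, u, hfu, hua⟩ :=
    geometric_hahn_banach_closed_point hconv.closure isClosed_closure hcl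
  have hCu : ∀ c ∈ C, f c < u := fun c hc => hfu c (subset_closure hc)
  have h0C : ∀ p : A, 0 ≤ p → -p ∈ C := fun p hp =>
    ⟨0, Fin.elim0, by simpa using hB, by simpa using hp⟩
  have hu : 0 < u := by simpa using hCu _ (h0C 0 le_rfl)
  have hf : ∀ p : A, 0 ≤ p → 0 ≤ f p := fun p hp => by
    by_contra hlt
    push Not at hlt
    have h := hCu _ (h0C ((u / -f p) • p) (smul_nonneg (div_nonneg hu.le (by linarith)) hp))
    rw [map_neg, map_smul, smul_eq_mul, div_mul_eq_mul_div, lt_iff_not_ge] at h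
    exact h (le_of_eq (by rw [div_neg, neg_neg, mul_div_assoc, div_self hlt.ne, mul_one]))
  have hvB : ∀ r ∈ vals f B, r ≤ u := by
    rintro r ⟨L, x, hx, rfl⟩
    exact (hCu _ ⟨L, x, hx, le_rfl⟩).le
  obtain ⟨M, s, hs⟩ := exists_full hB (by simp [hBdef, hκ.ne', hb0])
  have hv1 : ∀ r ∈ vals f (1 : A), r ≤ ∑ j, (‖s j‖ ^ 2 + 1) * u := by
    intro r hr
    set q := CFC.sqrt B
    have hq : star q = q := (IsSelfAdjoint.of_nonneg (CFC.sqrt_nonneg B)).star_eq
    have hqq : q * q = B := CFC.sqrt_mul_sqrt_self B hB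
    refine vals_le_sum (fun j => q * s j) _ (fun j r hr => ?_) (vals_mono (hs.trans_eq ?_) hr)
    · have hN : 0 < ‖s j‖ ^ 2 + 1 := by positivity
      have h1 : q * s j * star (q * s j) ≤ (‖s j‖ ^ 2 + 1) • B := by
        have h2 : s j * star (s j) ≤ (‖s j‖ ^ 2 + 1) • (1 : A) := by
          refine (IsSelfAdjoint.le_algebraMap_norm_self (IsSelfAdjoint.mul_star_self _)).trans ?_
          rw [Algebra.algebraMap_eq_smul_one, CStarRing.norm_self_mul_star, ← sq]
          exact smul_le_smul_of_nonneg_right (by linarith) zero_le_one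
        have := star_right_conjugate_le_conjugate h2 q
        simpa [star_mul, hq, mul_assoc, hqq] using this
      have hm := smul_mem_vals (inv_nonneg.2 hN.le) (vals_mono h1 hr)
      rw [inv_smul_smul₀ hN.ne'] at hm
      have := hvB _ hm
      rwa [inv_mul_le_iff₀ hN] at this
    · exact Finset.sum_congr rfl fun j _ => by
        rw [star_mul, hq, mul_assoc (star (s j)) q, ← mul_assoc q, hqq, ← mul_assoc]
  have hbdd : ∀ v : A, 0 ≤ v → BddAbove (vals f v) := by
    intro v hv
    refine ⟨(‖v‖ + 1) * ∑ j, (‖s j‖ ^ 2 + 1) * u, fun r hr => ?_⟩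
    have hN : 0 < ‖v‖ + 1 := by positivity
    have h1 : v ≤ (‖v‖ + 1) • (1 : A) := by
      refine (IsSelfAdjoint.le_algebraMap_norm_self (IsSelfAdjoint.of_nonneg hv)).trans ?_
      rw [Algebra.algebraMap_eq_smul_one]
      exact smul_le_smul_of_nonneg_right (by linarith) zero_le_one
    have hm := smul_mem_vals (inv_nonneg.2 hN.le) (vals_mono h1 hr)
    rw [inv_smul_smul₀ hN.ne'] at hm
    have := hv1 _ hm
    rwa [inv_mul_le_iff₀ hN] at this
  have hfa : f a ≤ top f a := by
    refine le_top hbdd ha ⟨1, fun _ => CFC.sqrt a, ?_, ?_⟩ <;>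
      simp [(IsSelfAdjoint.of_nonneg (CFC.sqrt_nonneg a)).star_eq, CFC.sqrt_mul_sqrt_self a ha]
  have hT1 : 0 < top f (1 : A) := by
    have h1 : a ≤ (‖a‖ + 1) • (1 : A) := by
      refine (IsSelfAdjoint.le_algebraMap_norm_self (IsSelfAdjoint.of_nonneg ha)).trans ?_
      rw [Algebra.algebraMap_eq_smul_one]
      exact smul_le_smul_of_nonneg_right (by linarith) zero_le_one
    have h2 := top_mono hbdd ha h1
    rw [top_smul hbdd zero_le_one (by positivity)] at h2
    nlinarith [norm_nonneg a]
  obtain ⟨τ, hτ, hτp⟩ := exists_tracial hbdd hT1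
  have h := htr τ hτ
  rw [hτp a ha, hτp b hb, mul_div_assoc', div_lt_div_iff_of_pos_right hT1,
    ← top_smul hbdd hb hκ.le] at h
  have : top f B ≤ u := csSup_le ⟨_, zero_mem_vals hB⟩ hvB
  linarith

end Vale.Agent.P095.Uni.Decomp
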