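import Vale.Agent.P095.Uni.Goals

/-!
# P095: nested excision of a state, moved by the automorphisms which are not centrally trivial

A decreasing chain of pairs `(top, b)` with `top * b = b` is refined so that for every element of a
dense sequence `top y top` becomes close to a multiple of `top²`, and, for every automorphism which
is not trivial on central sequences, the limit state `φ` detects a fixed proportion of a central
witness. A state detecting this differs from `φ ∘ σ⁻¹` on central sequences, and a monotone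
convergence argument in the semi-inner product of `φ ∘ σ⁻¹` gives `h_j z σ h_j → 0`.
-/

open scoped ComplexOrder
open Filter Topology

noncomputable section

namespace Vale.Agent.P095.Uni

namespace Exc

variable {A : Type*} [CStarAlgebra A] [PartialOrder A] [StarOrderedRing A]

/-! ### States -/

/-- A positive unital functional. -/
structure St (A : Type*) [CStarAlgebra A] [PartialOrder A] [StarOrderedRing A] where
  f : A →ₚ[ℂ] ℂ
  map_one' : f 1 = 1

namespace St

variable (ω : St A)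

/-- The seminorm of a state. -/
def nrm (x : A) : ℝ := ‖ω.f.toPreGNS x‖

theorem nrm_nonneg (x : A) : 0 ≤ ω.nrm x := norm_nonneg _

theorem nrm_sq (x : A) : ω.nrm x ^ 2 = (ω.f (star x * x)).re := by
  have h := ω.f.preGNS_norm_sq (ω.f.toPreGNS x)
  rw [PositiveLinearMap.ofPreGNS_toPreGNS] at h
  rw [nrm, ← h]
  norm_cast

theorem apply_star_mul (x y : A) : ‖ω.f (star x * y)‖ ≤ ω.nrm x * ω.nrm y := by
  have h := norm_inner_le_norm (𝕜 := ℂ) (ω.f.toPreGNS x) (ω.f.toPreGNS y)
  rw [PositiveLinearMap.preGNS_inner_def, PositiveLinearMap.ofPreGNS_toPreGNS,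
    PositiveLinearMap.ofPreGNS_toPreGNS] at h
  exact h

theorem re_mono {x y : A} (h : x ≤ y) : (ω.f x).re ≤ (ω.f y).re :=
  (Complex.le_def.1 (OrderHomClass.mono ω.f h)).1

theorem nrm_le_norm (x : A) : ω.nrm x ≤ ‖x‖ := by
  refine (sq_le_sq₀ (norm_nonneg _) (norm_nonneg _)).1 ((ω.nrm_sq x).trans_le ?_)
  refine (ω.re_mono (IsSelfAdjoint.le_algebraMap_norm_self (IsSelfAdjoint.star_mul_self x))).trans ?_
  rw [CStarRing.norm_star_mul_self, Algebra.algebraMap_eq_smul_one, ← Complex.coe_smul, map_smul,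
    ω.map_one', smul_eq_mul, mul_one, Complex.ofReal_re, sq]

theorem norm_apply_le (x : A) : ‖ω.f x‖ ≤ ‖x‖ := by
  have h := ω.apply_star_mul 1 x
  rw [star_one, one_mul] at h
  have h1 : ω.nrm 1 ≤ 1 := (ω.nrm_le_norm 1).trans (le_of_eq (by
    rcases subsingleton_or_nontrivial A with hA | hA
    · have h' := ω.map_one'
      rw [Subsingleton.elim (1 : A) 0, map_zero] at h'
      exact absurd h' zero_ne_one
    · exact CStarRing.norm_one))
  exact h.trans ((mul_le_of_le_one_left (ω.nrm_nonneg _) h1).trans (ω.nrm_le_norm x))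

theorem nrm_mul_left (a x : A) : ω.nrm (a * x) ≤ ‖a‖ * ω.nrm x := by
  have h := (ω.f.leftMulMapPreGNS a).le_opNorm (ω.f.toPreGNS x)
  have h2 : ‖ω.f.leftMulMapPreGNS a‖ ≤ ‖a‖ := by
    rw [PositiveLinearMap.leftMulMapPreGNS]
    exact LinearMap.mkContinuous_norm_le _ (norm_nonneg _) _
  have he : ω.f.leftMulMapPreGNS a (ω.f.toPreGNS x) = ω.f.toPreGNS (a * x) := by simp
  rw [he] at h
  exact h.trans (mul_le_mul_of_nonneg_right h2 (norm_nonneg _))

theorem nrm_sub_le (x y : A) : |ω.nrm x - ω.nrm y| ≤ ω.nrm (x - y) := by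
  unfold nrm; rw [map_sub]; exact abs_norm_sub_norm_le _ _

/-- Replacing the vector in `ω (x⋆ v x)`. -/
theorem form_sub_le (v x y : A) :
    ‖ω.f (star x * v * x) - ω.f (star y * v * y)‖ ≤
      ‖v‖ * (ω.nrm x + ω.nrm y) * ω.nrm (x - y) := by
  have e : star x * v * x - star y * v * y = star x * (v * (x - y)) + star (x - y) * (v * y) := by
    rw [star_sub]; noncomm_ring
  rw [← map_sub, e, map_add]
  refine (norm_add_le _ _).trans ?_
  nlinarith [ω.apply_star_mul x (v * (x - y)), ω.apply_star_mul (x - y) (v * y),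
    mul_le_mul_of_nonneg_left (ω.nrm_mul_left v (x - y)) (ω.nrm_nonneg x),
    mul_le_mul_of_nonneg_left (ω.nrm_mul_left v y) (ω.nrm_nonneg (x - y))]

/-- The state moved by an automorphism. -/
def move (σ : A ≃⋆ₐ[ℂ] A) : St A where
  f := PositiveLinearMap.mk₀ (ω.f.toLinearMap.comp σ.symm.toAlgEquiv.toLinearMap) fun x hx => by
    show 0 ≤ ω.f (σ.symm x)
    obtain ⟨y, rfl⟩ := CStarAlgebra.nonneg_iff_eq_star_mul_self.1 hx
    rw [map_mul, map_star]
    exact map_nonneg ω.f (star_mul_self_nonneg _)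
  map_one' := by
    show ω.f (σ.symm 1) = 1
    rw [map_one, ω.map_one']

theorem move_apply (σ : A ≃⋆ₐ[ℂ] A) (x : A) : (ω.move σ).f x = ω.f (σ.symm x) := rfl

end St

/-! ### Levels -/

/-- A pair of positive elements, the second of norm one and fixed by the first. -/
structure Lev (A : Type*) [CStarAlgebra A] [PartialOrder A] [StarOrderedRing A] where
  top : A
  b : A
  top_nonneg : 0 ≤ top
  top_le : ‖top‖ ≤ 1
  b_nonneg : 0 ≤ b
  norm_b : ‖b‖ = 1
  top_mul : top * b = b

theorem Lev.sa (L : Lev A) : star L.top = L.top := (IsSelfAdjoint.of_nonneg L.top_nonneg).star_eq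

theorem Lev.norm_top (L : Lev A) : ‖L.top‖ = 1 := by
  refine le_antisymm L.top_le ?_
  have h := norm_mul_le L.top L.b
  rw [L.top_mul, L.norm_b, mul_one] at h
  exact h

/-- `M` lies where the top of `L` acts as one. -/
def Lev.Below (M L : Lev A) : Prop := L.top * M.top = M.top

theorem Lev.Below.comm {M L : Lev A} (h : M.Below L) : M.top * L.top = M.top := by
  have h' := congrArg star h
  rwa [star_mul, M.sa, L.sa] at h'

theorem Lev.Below.trans {N M L : Lev A} (h : N.Below M) (h' : M.Below L) : N.Below L := by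
  show L.top * N.top = N.top
  rw [← h, ← mul_assoc, h']

theorem Lev.norm_conj_le (L : Lev A) (x : A) : ‖L.top * x * L.top‖ ≤ ‖x‖ := by
  refine norm_mul₃_le.trans ?_
  rw [L.norm_top, one_mul, mul_one]

theorem Lev.norm_sq_top (L : Lev A) : ‖L.top * L.top‖ = 1 := by
  conv_lhs => rw [← congrArg (· * L.top) L.sa]
  rw [CStarRing.norm_star_mul_self, L.norm_top, one_mul]

/-- A bump at a nonzero point of the spectrum. -/
theorem exists_bump [Nontrivial A] {z : A} (hz : IsSelfAdjoint z) {s r : ℝ}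
    (hs : s ∈ spectrum ℝ z) (hr : 0 < r) (hrs : r < |s|) :
    ∃ L : Lev A, (∀ t, t * z = z → t * L.top = L.top) ∧ ‖(z - s • 1) * L.top‖ ≤ r := by
  set f1 : ℝ → ℝ := fun x => max 0 (min 1 (2 - 2 * |x - s| / r)) with hf1
  set f2 : ℝ → ℝ := fun x => max 0 (1 - 2 * |x - s| / r) with hf2
  set c := |s| - r with hc
  have hc0 : 0 < c := sub_pos.2 hrs
  set g : ℝ → ℝ := fun x => f1 x * x / max (x ^ 2) (c ^ 2) with hg
  have hm : ∀ x : ℝ, 0 < max (x ^ 2) (c ^ 2) := fun x => lt_max_of_lt_right (by positivity)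
  have hc1 : Continuous f1 := by fun_prop
  have hc2 : Continuous f2 := by fun_prop
  have hcg : Continuous g :=
    Continuous.div (by fun_prop) (by fun_prop) fun x => (hm x).ne'
  have hz0 : ∀ x, r ≤ |x - s| → f1 x = 0 := fun x hx => by
    have : 2 ≤ 2 * |x - s| / r := by rw [le_div_iff₀ hr]; linarith
    exact max_eq_left (min_le_of_right_le (by linarith))
  have hfac : ∀ x, x * g x = f1 x := by
    intro x
    rcases le_or_gt c |x| with hx | hx
    · have : c ^ 2 ≤ x ^ 2 := by rw [← sq_abs x]; exact pow_le_pow_left₀ hc0.le hx 2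
      have hx0 : x ≠ 0 := fun h => by rw [h, abs_zero] at hx; linarith
      rw [hg]; simp only [max_eq_left this]; field_simp
    · have : r ≤ |x - s| := by
        have := abs_sub_abs_le_abs_sub s x
        rw [abs_sub_comm s x] at this
        linarith
      rw [hg]; simp [hz0 x this]
  have hfix : ∀ x, f1 x * f2 x = f2 x := by
    intro x
    rcases le_or_gt (2 * |x - s| / r) 1 with h | h
    · rw [hf1]; simp only
      rw [min_eq_left (by linarith), max_eq_right zero_le_one, one_mul]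
    · rw [hf2]; simp only
      rw [max_eq_left (by linarith), mul_zero]
  have hle : ∀ x, ‖f2 x‖ ≤ 1 := fun x => by
    have : 0 ≤ 2 * |x - s| / r := by positivity
    rw [Real.norm_of_nonneg (le_max_left _ _)]
    exact max_le zero_le_one (by linarith)
  refine ⟨⟨cfc f1 z, cfc f2 z, cfc_nonneg fun x _ => le_max_left _ _, norm_cfc_le zero_le_one
    fun x _ => ?_, cfc_nonneg fun x _ => le_max_left _ _, le_antisymm
      (norm_cfc_le zero_le_one fun x _ => hle x) ?_, ?_⟩, fun t ht => ?_, ?_⟩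
  · rw [Real.norm_of_nonneg (le_max_left _ _)]
    exact max_le zero_le_one (min_le_left _ _)
  · have h := norm_apply_le_norm_cfc f2 z hs hc2.continuousOn
    have : f2 s = 1 := by simp [hf2]
    rwa [this, norm_one] at h
  · rw [← cfc_mul f1 f2 z hc1.continuousOn hc2.continuousOn]
    exact cfc_congr fun x _ => hfix x
  · show t * cfc f1 z = cfc f1 z
    have e : cfc f1 z = z * cfc g z := by
      conv_rhs => rw [← congrArg (· * cfc g z) (cfc_id' ℝ z)]
      rw [← cfc_mul (fun x => x) g z continuousOn_id hcg.continuousOn]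
      exact (cfc_congr fun x _ => hfac x).symm
    rw [e, ← mul_assoc, ht]
  · show ‖(z - s • 1) * cfc f1 z‖ ≤ r
    have e : z - s • 1 = cfc (fun x : ℝ => x - s) z := by
      rw [cfc_sub (fun x : ℝ => x) (fun _ => s) z, cfc_id' ℝ z, cfc_const s z,
        Algebra.algebraMap_eq_smul_one]
    rw [e, ← cfc_mul (fun x : ℝ => x - s) f1 z (by fun_prop) hc1.continuousOn]
    refine norm_cfc_le hr.le fun x _ => ?_
    rcases le_or_gt r |x - s| with h | h
    · simp [hz0 x h, hr.le]
    · rw [Real.norm_eq_abs, abs_mul]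
      refine (mul_le_of_le_one_right (abs_nonneg _) ?_).trans h.le
      rw [abs_of_nonneg (le_max_left _ _)]
      exact max_le zero_le_one (min_le_left _ _)

/-- A level strictly inside. -/
theorem exists_down [Nontrivial A] (L : Lev A) : ∃ M : Lev A, M.Below L := by
  have hs : (1 : ℝ) ∈ spectrum ℝ L.b := L.norm_b ▸ CStarAlgebra.norm_mem_spectrum_of_nonneg L.b_nonneg
  obtain ⟨M, hM, -⟩ := exists_bump (IsSelfAdjoint.of_nonneg L.b_nonneg) hs (r := 1 / 2)
    (by norm_num) (by norm_num)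
  exact ⟨M, hM _ L.top_mul⟩

theorem Lev.le_one (L : Lev A) : L.top ≤ 1 :=
  (CStarAlgebra.norm_le_one_iff_of_nonneg L.top L.top_nonneg).1 L.top_le

theorem Lev.sq_le (L : Lev A) : L.top * L.top ≤ L.top := by
  have h := CStarAlgebra.pow_antitone L.top_nonneg L.le_one (show 1 ≤ 2 by norm_num)
  simpa [sq] using h

/-- `(1 - x)² ≤ 1 - x²` for the top of a level. -/
theorem Lev.one_sub_sq_le (L : Lev A) :
    (1 - L.top) * (1 - L.top) ≤ 1 - L.top * L.top := by
  rw [← sub_nonneg]
  have e : 1 - L.top * L.top - (1 - L.top) * (1 - L.top) =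
      (L.top - L.top * L.top) + (L.top - L.top * L.top) := by noncomm_ring
  rw [e]
  exact add_nonneg (sub_nonneg.2 L.sq_le) (sub_nonneg.2 L.sq_le)

/-- The top of a lower level is below the square of the upper one. -/
theorem Lev.Below.le_sq {M L : Lev A} (h : M.Below L) :
    M.top ≤ L.top * L.top ∧ M.top * M.top ≤ L.top * L.top := by
  have h1 := conjugate_le_conjugate_of_nonneg M.le_one L.top_nonneg
  rw [h, h.comm, mul_one] at h1
  exact ⟨h1, M.sq_le.trans h1⟩

/-! ### One step of excision -/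

theorem one_le_shift {y : A} (hy : IsSelfAdjoint y) : 1 ≤ y + (‖y‖ + 1) • (1 : A) := by
  have h := IsSelfAdjoint.neg_algebraMap_norm_le_self hy
  rw [Algebra.algebraMap_eq_smul_one, neg_le_iff_add_nonneg] at h
  rw [add_smul, one_smul, ← add_assoc]
  exact le_add_of_nonneg_left h

theorem exists_excise_sa [Nontrivial A] (L : Lev A) {y : A} (hy : IsSelfAdjoint y) {ε : ℝ}
    (hε : 0 < ε) : ∃ D : Lev A, D.Below L ∧
      ∃ c : ℝ, ‖D.top * y * D.top - c • (D.top * D.top)‖ ≤ ε := by
  set C := ‖y‖ + 1 with hC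
  set y' := y + C • (1 : A) with hy'
  have h1 : 1 ≤ y' := one_le_shift hy
  have hy'0 : 0 ≤ y' := zero_le_one.trans h1
  have hsa' : IsSelfAdjoint y' := IsSelfAdjoint.of_nonneg hy'0
  have hge : ∀ M : Lev A, 1 ≤ ‖M.top * y' * M.top‖ := fun M => by
    have h2 := conjugate_le_conjugate_of_nonneg h1 M.top_nonneg
    rw [mul_one] at h2
    rw [← M.norm_sq_top]
    refine CStarAlgebra.norm_le_norm_of_nonneg_of_le ?_ h2
    have := star_mul_self_nonneg M.top
    rwa [M.sa] at this
  set Y := ‖y'‖ + 1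
  set δ := min (1 / 2) (min (ε / 4) ((ε / (4 * Y)) ^ 2 / 2)) with hδ
  have hY : 0 < Y := by positivity
  have hδ0 : 0 < δ := lt_min one_half_pos (lt_min (by positivity) (by positivity))
  -- the infimum over the levels below
  set S := (fun M : Lev A => ‖M.top * y' * M.top‖) '' {M | M.Below L}
  obtain ⟨M₀, hM₀⟩ := exists_down L
  have hne : S.Nonempty := ⟨_, M₀, hM₀, rfl⟩
  have hbdd : BddBelow S := ⟨1, by rintro _ ⟨M, -, rfl⟩; exact hge M⟩
  obtain ⟨_, ⟨M, hM, rfl⟩, hlt⟩ := exists_lt_of_csInf_lt hne (lt_add_of_pos_right (sInf S) hδ0)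
  obtain ⟨K, hK⟩ := exists_down M
  set z := K.top * y' * K.top with hz
  set s := ‖z‖ with hs
  set s' := ‖M.top * y' * M.top‖ with hs'
  have hzs : sInf S ≤ s := csInf_le hbdd ⟨K, hK.trans hM, rfl⟩
  have hs1 : 1 ≤ s := hge K
  have hz0 : 0 ≤ z := conjugate_nonneg_of_nonneg hy'0 K.top_nonneg
  obtain ⟨D, hD, hDz⟩ := exists_bump (IsSelfAdjoint.of_nonneg hz0)
    (CStarAlgebra.norm_mem_spectrum_of_nonneg hz0) hδ0 (by
      rw [abs_of_nonneg (norm_nonneg _)]; linarith [min_le_left (1 / 2 : ℝ) (min (ε / 4)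
        ((ε / (4 * Y)) ^ 2 / 2)), hδ])
  have hDL : D.Below L := by
    refine hD _ ?_
    rw [hz, ← mul_assoc, ← mul_assoc, hK.trans hM]
  -- `d z d` is almost `s d²`
  set d := D.top with hd
  set k := K.top with hk
  have hdd : ‖d * z * d - s • (d * d)‖ ≤ δ := by
    have e : d * z * d - s • (d * d) = d * ((z - s • 1) * d) := by
      rw [sub_mul, smul_one_mul, mul_sub, mul_smul_comm, mul_assoc]
    rw [e]
    exact (norm_mul_le _ _).trans ((mul_le_of_le_one_left (norm_nonneg _) D.top_le).trans hDz)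
  -- so `k` is almost one on it
  have hzle : z ≤ s' • (k * k) := by
    have hsa : IsSelfAdjoint (M.top * y' * M.top) :=
      hsa'.conjugate_self (IsSelfAdjoint.of_nonneg M.top_nonneg)
    have h2 := conjugate_le_conjugate_of_nonneg
      (IsSelfAdjoint.le_algebraMap_norm_self hsa) K.top_nonneg
    rw [Algebra.algebraMap_eq_smul_one, mul_smul_comm, mul_one, smul_mul_assoc] at h2
    have e : K.top * (M.top * y' * M.top) * K.top = z := by
      rw [← mul_assoc, ← mul_assoc, hK.comm, mul_assoc _ M.top, hK]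
    rwa [e] at h2
  have hdef : d * (1 - k * k) * d ≥ 0 := by
    refine conjugate_nonneg_of_nonneg ?_ D.top_nonneg
    exact sub_nonneg.2 (K.sq_le.trans K.le_one)
  have hdefn : ‖d * (1 - k * k) * d‖ ≤ δ + δ := by
    have h2 : s' • (d * (1 - k * k) * d) ≤ s' • (d * d) - d * z * d := by
      have h3 := conjugate_le_conjugate_of_nonneg hzle D.top_nonneg
      rw [mul_smul_comm, smul_mul_assoc] at h3
      rw [mul_sub, mul_one, sub_mul, smul_sub]
      exact sub_le_sub_left h3 _
    have h4 : (1 : ℝ) ≤ s' := hge M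
    have h5 : ‖s' • (d * d) - d * z * d‖ ≤ δ + δ := by
      have e : s' • (d * d) - d * z * d = (s' - s) • (d * d) - (d * z * d - s • (d * d)) := by
        rw [sub_smul]; abel
      rw [e]
      refine (norm_sub_le _ _).trans (add_le_add ?_ hdd)
      rw [norm_smul, D.norm_sq_top, mul_one, Real.norm_eq_abs, abs_le]
      have hss : s ≤ s' := by
        have e : z = k * (M.top * y' * M.top) * k := by
          rw [hz, hk, ← mul_assoc, ← mul_assoc, hK.comm, mul_assoc _ M.top, hK]
        rw [hs, e]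
        exact K.norm_conj_le _
      constructor <;> linarith
    calc ‖d * (1 - k * k) * d‖ ≤ s' * ‖d * (1 - k * k) * d‖ :=
          le_mul_of_one_le_left (norm_nonneg _) h4
      _ = ‖s' • (d * (1 - k * k) * d)‖ := by
          rw [norm_smul, Real.norm_of_nonneg (by linarith)]
      _ ≤ δ + δ := (CStarAlgebra.norm_le_norm_of_nonneg_of_le
          (smul_nonneg (by linarith) hdef) h2).trans h5
  have hkd : ‖(1 - k) * d‖ ≤ ε / (4 * Y) := by
    refine (sq_le_sq₀ (norm_nonneg _) (by positivity)).1 ?_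
    have hsk : star (1 - k) = 1 - k := by rw [star_sub, star_one, hk, K.sa]
    rw [sq, ← CStarRing.norm_star_mul_self, star_mul, hsk, hd, D.sa, ← mul_assoc,
      mul_assoc d (1 - k), ← hd]
    refine (CStarAlgebra.norm_le_norm_of_nonneg_of_le ?_
      (conjugate_le_conjugate_of_nonneg K.one_sub_sq_le D.top_nonneg)).trans
        (hdefn.trans (by linarith [min_le_right (1 / 2 : ℝ) (min (ε / 4)
          ((ε / (4 * Y)) ^ 2 / 2)), min_le_right (ε / 4) ((ε / (4 * Y)) ^ 2 / 2), hδ]))
    refine conjugate_nonneg_of_nonneg ?_ D.top_nonneg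
    have := star_mul_self_nonneg (1 - k)
    rwa [hsk] at this
  refine ⟨D, hDL, s - C, ?_⟩
  have e : d * y * d - (s - C) • (d * d) =
      d * ((1 - k) * (y' * d)) + d * k * (y' * ((1 - k) * d)) + (d * z * d - s • (d * d)) := by
    have e1 : d * y' * d = d * y * d + C • (d * d) := by
      rw [hy', mul_add, add_mul, mul_smul_comm, mul_one, smul_mul_assoc]
    have e2 : d * ((1 - k) * (y' * d)) + d * k * (y' * ((1 - k) * d)) + d * z * d = d * y' * d := by
      rw [hz]; noncomm_ring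
    rw [add_sub, e2, e1, sub_smul]
    abel
  rw [e]
  have hdk : ‖d * (1 - k)‖ ≤ ε / (4 * Y) := by
    rw [← norm_star, star_mul, star_sub, star_one, hk, K.sa, hd, D.sa]
    exact hkd
  have hyY : ‖y'‖ ≤ Y := (le_add_iff_nonneg_right _).2 zero_le_one
  have t1 : ‖d * ((1 - k) * (y' * d))‖ ≤ ε / 4 := by
    rw [← mul_assoc]
    calc ‖d * (1 - k) * (y' * d)‖ ≤ (ε / (4 * Y)) * (Y * 1) :=
          (norm_mul_le _ _).trans (mul_le_mul hdk ((norm_mul_le _ _).trans
            (mul_le_mul hyY D.top_le (norm_nonneg _) hY.le)) (norm_nonneg _) (by positivity))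
      _ = ε / 4 := by field_simp
  have t2 : ‖d * k * (y' * ((1 - k) * d))‖ ≤ ε / 4 := by
    calc ‖d * k * (y' * ((1 - k) * d))‖ ≤ (1 * 1) * (Y * (ε / (4 * Y))) :=
          (norm_mul_le _ _).trans (mul_le_mul ((norm_mul_le _ _).trans
            (mul_le_mul D.top_le K.top_le (norm_nonneg _) zero_le_one))
            ((norm_mul_le _ _).trans (mul_le_mul hyY hkd (norm_nonneg _) hY.le))
            (norm_nonneg _) (by norm_num))
      _ = ε / 4 := by field_simp
  have h6 : δ ≤ ε / 4 := (min_le_right _ _).trans (min_le_left _ _)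
  refine (norm_add_le _ _).trans ?_
  linarith [norm_add_le (d * ((1 - k) * (y' * d))) (d * k * (y' * ((1 - k) * d))), hdd]

omit [PartialOrder A] [StarOrderedRing A] in
theorem conj_fixed {e d : A} (h : d * e = e) (h' : e * d = e) (x : A) (c : ℂ) :
    e * (d * x * d - c • (d * d)) * e = e * x * e - c • (e * e) := by
  have e1 : e * (d * x * d) * e = (e * d) * x * (d * e) := by simp only [mul_assoc]
  have e2 : e * (d * d) * e = (e * d) * (d * e) := by simp only [mul_assoc]
  rw [mul_sub, sub_mul, mul_smul_comm, smul_mul_assoc, e1, e2, h, h']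

theorem Lev.Below.conj_le {D' D : Lev A} (h : D'.Below D) {x : A} {c : ℂ} {ε : ℝ}
    (hx : ‖D.top * x * D.top - c • (D.top * D.top)‖ ≤ ε) :
    ‖D'.top * x * D'.top - c • (D'.top * D'.top)‖ ≤ ε := by
  rw [← conj_fixed h h.comm]
  exact (D'.norm_conj_le _).trans hx

theorem exists_excise [Nontrivial A] (L : Lev A) (y : A) {ε : ℝ} (hε : 0 < ε) :
    ∃ D : Lev A, D.Below L ∧ ∀ E : Lev A, E.Below D →
      ∃ c : ℂ, ‖E.top * y * E.top - c • (E.top * E.top)‖ ≤ ε := by
  set a : A := (1 / 2 : ℂ) • (y + star y) with ha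
  set b : A := (Complex.I / 2) • (star y - y) with hb
  have hsa : IsSelfAdjoint a := by
    rw [ha, IsSelfAdjoint, star_smul, star_add, star_star, add_comm (star y)]
    congr 1
    rw [Complex.star_def, map_div₀, map_one, map_ofNat]
  have hsb : IsSelfAdjoint b := by
    rw [hb, IsSelfAdjoint, star_smul, star_sub, star_star, Complex.star_def, map_div₀,
      Complex.conj_I, map_ofNat, ← neg_sub (star y) y, smul_neg, ← neg_smul]
    congr 1
    ring
  have hy : y = a + Complex.I • b := by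
    rw [ha, hb, smul_smul, ← mul_div_assoc, Complex.I_mul_I, smul_add, smul_sub]
    module
  obtain ⟨D₁, h₁, s, hs⟩ := exists_excise_sa L hsa (half_pos hε)
  obtain ⟨D₂, h₂, t, ht⟩ := exists_excise_sa D₁ hsb (half_pos hε)
  refine ⟨D₂, h₂.trans h₁, fun E hE => ⟨(s : ℂ) + Complex.I * t, ?_⟩⟩
  rw [← Complex.coe_smul] at hs ht
  have e : E.top * y * E.top - ((s : ℂ) + Complex.I * t) • (E.top * E.top) =
      (E.top * a * E.top - (s : ℂ) • (E.top * E.top)) +
        Complex.I • (E.top * b * E.top - (t : ℂ) • (E.top * E.top)) := by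
    rw [hy]
    simp only [mul_add, add_mul, mul_smul_comm, smul_mul_assoc, smul_sub, add_smul, smul_smul]
    abel
  rw [e]
  refine (norm_add_le _ _).trans ?_
  have h3 := (hE.trans h₂).conj_le hs
  have h4 := hE.conj_le ht
  rw [norm_smul, Complex.norm_I, one_mul]
  linarith

/-! ### Central sequences -/

/-- A bounded central sequence. -/
def Cen (u : ℕ → A) : Prop :=
  (∃ C, ∀ n, ‖u n‖ ≤ C) ∧ ∀ c, Tendsto (fun n => c * u n - u n * c) atTop (𝓝 0)

omit [PartialOrder A] [StarOrderedRing A] in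
theorem Cen.mul {u v : ℕ → A} (hu : Cen u) (hv : Cen v) : Cen fun n => u n * v n := by
  obtain ⟨C, hC⟩ := hu.1
  obtain ⟨C', hC'⟩ := hv.1
  refine ⟨⟨C * C', fun n => (norm_mul_le _ _).trans
    (mul_le_mul (hC n) (hC' n) (norm_nonneg _) ((norm_nonneg _).trans (hC n)))⟩, fun c => ?_⟩
  have h1 : Tendsto (fun n => (c * u n - u n * c) * v n) atTop (𝓝 0) :=
    squeeze_zero_norm (fun n => (norm_mul_le _ _).trans
      (mul_le_mul_of_nonneg_left (hC' n) (norm_nonneg _))) (by simpa using ((hu.2 c).norm.mul_const C'))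
  have h2 : Tendsto (fun n => u n * (c * v n - v n * c)) atTop (𝓝 0) :=
    squeeze_zero_norm (fun n => (norm_mul_le _ _).trans
      (mul_le_mul_of_nonneg_right (hC n) (norm_nonneg _))) (by simpa using ((hv.2 c).norm.const_mul C))
  have h := h1.add h2
  rw [add_zero] at h
  exact h.congr fun n => by noncomm_ring

omit [PartialOrder A] [StarOrderedRing A] in
theorem Cen.pow {u : ℕ → A} (hu : Cen u) : ∀ j : ℕ, Cen fun n => u n ^ j
  | 0 => ⟨⟨‖(1 : A)‖, fun n => by simp⟩, fun c => by simp⟩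
  | j + 1 => by simpa [pow_succ] using (Cen.pow hu j).mul hu

omit [PartialOrder A] [StarOrderedRing A] in
theorem tendsto_bdd_mul {u x : ℕ → A} {C : ℝ} (hu : ∀ n, ‖u n‖ ≤ C)
    (hx : Tendsto x atTop (𝓝 0)) : Tendsto (fun n => u n * x n) atTop (𝓝 0) :=
  squeeze_zero_norm (fun n => (norm_mul_le _ _).trans
    (mul_le_mul_of_nonneg_right (hu n) (norm_nonneg _))) (by simpa using hx.norm.const_mul C)

omit [PartialOrder A] [StarOrderedRing A] in
theorem tendsto_mul_bdd {u x : ℕ → A} {C : ℝ} (hu : ∀ n, ‖u n‖ ≤ C)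
    (hx : Tendsto x atTop (𝓝 0)) : Tendsto (fun n => x n * u n) atTop (𝓝 0) :=
  squeeze_zero_norm (fun n => (norm_mul_le _ _).trans
    (mul_le_mul_of_nonneg_left (hu n) (norm_nonneg _))) (by simpa using hx.norm.mul_const C)

omit [PartialOrder A] [StarOrderedRing A] in
/-- In a simple algebra a nonzero element sees the norm of central sequences. -/
theorem exists_full [IsSimpleRing A] {e : A} (he : e * e ≠ 0) :
    ∃ K : ℝ, 0 ≤ K ∧ ∀ u : ℕ → A, Cen u → ∀ ε : ℝ, 0 < ε →
      ∀ᶠ n in atTop, ‖u n‖ ≤ K * ‖e * u n * e‖ + ε := by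
  have h : TwoSidedIdeal.span ({e * e} : Set A) = ⊤ := by
    refine (eq_bot_or_eq_top _).resolve_left fun hb => he ?_
    have := TwoSidedIdeal.subset_span (Set.mem_singleton (e * e))
    rw [hb] at this
    exact (TwoSidedIdeal.mem_bot A).1 this
  have h1 : (1 : A) ∈ TwoSidedIdeal.span ({e * e} : Set A) := by rw [h]; trivial
  suffices key : ∀ z ∈ AddSubgroup.closure {x | ∃ w q, x = w * (e * e) * q},
      ∃ K : ℝ, 0 ≤ K ∧ ∀ u : ℕ → A, Cen u → ∀ ε : ℝ, 0 < ε →
        ∀ᶠ n in atTop, ‖z * u n‖ ≤ K * ‖e * u n * e‖ + ε by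
    have h2 : (1 : A) ∈ AddSubgroup.closure {x | ∃ w q, x = w * (e * e) * q} := by
      refine AddSubgroup.closure_mono ?_ (TwoSidedIdeal.mem_span_iff_mem_addSubgroup_closure.1 h1)
      rintro x ⟨a, ⟨w, -, q, rfl, rfl⟩, z, -, rfl⟩
      exact ⟨w, z, rfl⟩
    obtain ⟨K, hK, hK'⟩ := key 1 h2
    exact ⟨K, hK, fun u hu ε hε => by simpa using hK' u hu ε hε⟩
  intro z hz
  induction hz using AddSubgroup.closure_induction with
  | mem x hx =>
    obtain ⟨w, q, rfl⟩ := hx
    refine ⟨‖w‖ * ‖q‖, by positivity, fun u hu ε hε => ?_⟩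
    have hT : Tendsto (fun n => w * (e * e) * q * u n - w * (e * u n * e) * q) atTop (𝓝 0) := by
      have h1 := ((hu.2 q).const_mul (w * (e * e))).add
        (((hu.2 e).const_mul (w * e)).mul_const q)
      simp only [mul_zero, zero_mul, add_zero] at h1
      exact h1.congr fun n => by noncomm_ring
    filter_upwards [hT.norm.eventually (eventually_le_nhds (by rwa [norm_zero]))] with n hn
    have h3 := norm_add_le (w * (e * e) * q * u n - w * (e * u n * e) * q) (w * (e * u n * e) * q)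
    rw [sub_add_cancel] at h3
    refine h3.trans ?_
    linarith [norm_mul₃_le (a := w) (b := e * u n * e) (c := q)]
  | zero => exact ⟨0, le_rfl, fun u _ ε hε => Eventually.of_forall fun n => by simp [hε.le]⟩
  | add x y _ _ hx hy =>
    obtain ⟨K, hK, hx⟩ := hx
    obtain ⟨K', hK', hy⟩ := hy
    refine ⟨K + K', add_nonneg hK hK', fun u hu ε hε => ?_⟩
    filter_upwards [hx u hu (ε / 2) (half_pos hε), hy u hu (ε / 2) (half_pos hε)] with n h1 h2
    rw [add_mul x y]
    exact (norm_add_le _ _).trans (by linarith)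
  | neg x _ hx => simpa [neg_mul] using hx

/-! ### One step against an automorphism -/

theorem exists_detect [IsSimpleRing A] (L : Lev A) {w : ℕ → A} (hw : Cen w)
    (hws : ∀ n, IsSelfAdjoint (w n)) {c₀ : ℝ} (hc₀ : 0 < c₀) (hwc : ∀ n, c₀ ≤ ‖w n‖) (N : ℕ) :
    ∃ (D : Lev A) (n : ℕ), N ≤ n ∧ D.Below L ∧
      ∀ ω : St A, (∀ a, ω.f (D.top * a * D.top) = ω.f a) → c₀ / 2 ≤ ‖ω.f (w n)‖ := by
  obtain ⟨G, hG⟩ := exists_down L
  obtain ⟨E, hE⟩ := exists_down G
  set g := G.top with hg
  set e := E.top with he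
  have he2 : e * e ≠ 0 := fun h => by
    have := E.norm_sq_top
    rw [← he, h, norm_zero] at this
    exact zero_ne_one this
  obtain ⟨K, hK0, hK⟩ := exists_full he2
  obtain ⟨C, hC⟩ := hw.1
  -- the number of squarings
  obtain ⟨r, hr⟩ : ∃ r : ℕ, K * (99 / 100 : ℝ) ^ (2 ^ r) ≤ 1 / 2 := by
    obtain ⟨r, hr⟩ := exists_pow_lt_of_lt_one (show (0 : ℝ) < 1 / (2 * (K + 1)) by positivity)
      (show (99 / 100 : ℝ) < 1 by norm_num)
    refine ⟨r, ?_⟩
    calc K * (99 / 100 : ℝ) ^ (2 ^ r) ≤ (K + 1) * (1 / (2 * (K + 1))) :=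
          mul_le_mul (by linarith) ((pow_le_pow_of_le_one (by norm_num) (by norm_num)
            Nat.lt_two_pow_self.le).trans hr.le) (by positivity) (by linarith)
      _ = 1 / 2 := by field_simp
  -- `(g w g)ʲ e` is close to `wʲ e`
  have hgwg : ∀ n, ‖g * w n * g‖ ≤ C := fun n => (G.norm_conj_le _).trans (hC n)
  have hpow : ∀ j, Tendsto (fun n => (g * w n * g) ^ j * e - w n ^ j * e) atTop (𝓝 0) := by
    intro j
    induction j with
    | zero => simp
    | succ j ih =>
      obtain ⟨C', hC'⟩ := (hw.pow j).1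
      have t1 := tendsto_bdd_mul hgwg ih
      have t2 : Tendsto (fun n => (g * w n - w n * g) * g * (w n ^ j * e)) atTop (𝓝 0) :=
        tendsto_mul_bdd (C := C' * ‖e‖) (fun n => (norm_mul_le _ _).trans
            (mul_le_mul_of_nonneg_right (hC' n) (norm_nonneg _)))
          (by simpa using (hw.2 g).mul_const g)
      have t3 : Tendsto (fun n => w n * ((g * g * w n ^ j - w n ^ j * (g * g)) * e)) atTop (𝓝 0) :=
        tendsto_bdd_mul hC (by simpa using ((hw.pow j).2 (g * g)).mul_const e)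
      have h := (t1.add t2).add t3
      rw [add_zero, add_zero] at h
      refine h.congr fun n => ?_
      have e1 : g * g * e = e := by rw [mul_assoc, hE, hE]
      simp only [sub_mul, mul_sub, mul_assoc (w n ^ j) (g * g) e, e1, pow_succ' (g * w n * g),
        pow_succ' (w n)]
      noncomm_ring
  have hlim := (hpow (2 ^ r)).norm
  rw [norm_zero] at hlim
  set δ := c₀ ^ 2 ^ r / (4 * (K + 1)) with hδ
  have hδ0 : 0 < δ := by positivity
  obtain ⟨n, ⟨hn1, hn2⟩, hnN⟩ :=
    ((hK _ (hw.pow (2 ^ r)) δ hδ0).and (hlim.eventually (eventually_le_nhds hδ0))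
      |>.and (eventually_ge_atTop N)).exists
  have hwn : 0 < ‖w n‖ := hc₀.trans_le (hwc n)
  set z := g * w n * g with hz
  have hS : 99 / 100 * ‖w n‖ ≤ ‖z‖ := by
    by_contra hlt
    push Not at hlt
    have h1 : ‖e * w n ^ 2 ^ r * e‖ ≤ ‖z‖ ^ 2 ^ r + δ := by
      have e1 : e * w n ^ 2 ^ r * e = e * (z ^ 2 ^ r * e) -
          e * (z ^ 2 ^ r * e - w n ^ 2 ^ r * e) := by noncomm_ring
      rw [e1]
      refine (norm_sub_le _ _).trans (add_le_add ?_ ?_)
      · exact (norm_mul_le _ _).trans ((mul_le_of_le_one_left (norm_nonneg _) E.top_le).trans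
          ((norm_mul_le _ _).trans ((mul_le_of_le_one_right (norm_nonneg _) E.top_le).trans
            (norm_pow_le' _ (pow_pos two_pos r)))))
      · exact (norm_mul_le _ _).trans ((mul_le_of_le_one_left (norm_nonneg _) E.top_le).trans hn2)
    rw [(hws n).norm_pow_two_pow] at hn1
    have hzp : ‖z‖ ^ 2 ^ r ≤ (99 / 100 : ℝ) ^ 2 ^ r * ‖w n‖ ^ 2 ^ r := by
      rw [← mul_pow]; exact pow_le_pow_left₀ (norm_nonneg _) hlt.le _
    have h2 := mul_le_mul_of_nonneg_left (h1.trans (add_le_add hzp le_rfl)) hK0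
    have h3 : c₀ ^ 2 ^ r ≤ ‖w n‖ ^ 2 ^ r := pow_le_pow_left₀ hc₀.le (hwc n) _
    have h4 : (K + 1) * δ = c₀ ^ 2 ^ r / 4 := by rw [hδ]; field_simp
    nlinarith [mul_le_mul_of_nonneg_right hr (pow_nonneg hwn.le (2 ^ r)),
      pow_pos hc₀ (2 ^ r)]
  have hzsa : IsSelfAdjoint z := (hws n).conjugate_self (IsSelfAdjoint.of_nonneg G.top_nonneg)
  obtain ⟨s, hs, hsn⟩ : ∃ s ∈ spectrum ℝ z, |s| = ‖z‖ := by
    rcases CStarAlgebra.norm_or_neg_norm_mem_spectrum hzsa with h | h
    · exact ⟨_, h, abs_of_nonneg (norm_nonneg _)⟩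
    · exact ⟨_, h, by rw [abs_neg, abs_of_nonneg (norm_nonneg _)]⟩
  obtain ⟨D, hD, hDz⟩ := exists_bump hzsa hs (show (0 : ℝ) < ‖w n‖ / 100 by positivity) (by
    rw [hsn]; linarith)
  refine ⟨D, n, hnN, hD _ (by rw [hz, hg, ← mul_assoc, ← mul_assoc, hG]), fun ω hω => ?_⟩
  -- the state of `z`
  have hdd : ω.f (D.top * D.top) = 1 := by
    have := hω 1
    rwa [mul_one, ω.map_one'] at this
  have hφz : ‖ω.f z - s‖ ≤ ‖w n‖ / 100 := by
    have e1 : ω.f z - s = ω.f (D.top * ((z - s • 1) * D.top)) := by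
      rw [sub_mul, smul_one_mul, mul_sub, mul_smul_comm, ← mul_assoc, map_sub, hω,
        ← Complex.coe_smul, map_smul, hdd, smul_eq_mul, mul_one]
    rw [e1]
    exact (ω.norm_apply_le _).trans ((norm_mul_le _ _).trans
      ((mul_le_of_le_one_left (norm_nonneg _) D.top_le).trans hDz))
  have hz1 : 98 / 100 * ‖w n‖ ≤ ‖ω.f z‖ := by
    have := norm_sub_norm_le (s : ℂ) (ω.f z)
    rw [Complex.norm_real, Real.norm_eq_abs, hsn, norm_sub_rev] at this
    linarith
  have hgn : 98 / 100 ≤ ω.nrm g := by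
    have h1 := ω.apply_star_mul g (w n * g)
    rw [hg, G.sa, ← hg, ← mul_assoc] at h1
    have h2 : ω.nrm (w n * g) ≤ ‖w n‖ :=
      (ω.nrm_le_norm _).trans ((norm_mul_le _ _).trans
        (mul_le_of_le_one_right (norm_nonneg _) G.top_le))
    have h3 := hz1.trans (h1.trans (mul_le_mul_of_nonneg_left h2 (ω.nrm_nonneg g)))
    exact le_of_mul_le_mul_right h3 hwn
  have hg1 : ω.nrm (1 - g) ≤ 1 / 5 := by
    refine (sq_le_sq₀ (ω.nrm_nonneg _) (by norm_num)).1 ?_
    rw [ω.nrm_sq, hg, star_sub, star_one, G.sa]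
    refine (ω.re_mono G.one_sub_sq_le).trans ?_
    have h1 : (ω.f (g * g)).re = ω.nrm g ^ 2 := by rw [ω.nrm_sq, hg, G.sa]
    rw [map_sub, Complex.sub_re, ω.map_one', Complex.one_re, ← hg, h1]
    nlinarith
  have e2 : w n = z + ((1 - g) * w n + g * w n * (1 - g)) := by rw [hz]; noncomm_ring
  have hb1 : ‖ω.f ((1 - g) * w n)‖ ≤ ‖w n‖ / 5 := by
    have h1 := ω.apply_star_mul (1 - g) (w n)
    rw [star_sub, star_one, hg, G.sa, ← hg] at h1
    nlinarith [ω.nrm_le_norm (w n), ω.nrm_nonneg (w n), ω.nrm_nonneg (1 - g)]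
  have hb2 : ‖ω.f (g * w n * (1 - g))‖ ≤ ‖w n‖ / 5 := by
    have h1 := ω.apply_star_mul g (w n * (1 - g))
    rw [hg, G.sa, ← hg, ← mul_assoc] at h1
    nlinarith [ω.nrm_mul_left (w n) (1 - g), (ω.nrm_le_norm g).trans G.top_le, ω.nrm_nonneg g,
      ω.nrm_nonneg (w n * (1 - g)), ω.nrm_nonneg (1 - g)]
  have h3 : ‖ω.f z‖ ≤ ‖ω.f (w n)‖ + (‖w n‖ / 5 + ‖w n‖ / 5) := by
    have e3 : ω.f z = ω.f (w n) - (ω.f ((1 - g) * w n) + ω.f (g * w n * (1 - g))) := by
      conv_rhs => arg 1; rw [e2, map_add, map_add]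
      ring
    rw [e3]
    exact (norm_sub_le _ _).trans (add_le_add le_rfl ((norm_add_le _ _).trans (add_le_add hb1 hb2)))
  linarith [hwc n]

/-! ### Witnesses -/

omit [PartialOrder A] [StarOrderedRing A] in
theorem cen_of_dense {q : ℕ → A} (hq : DenseRange q) {x : ℕ → A} (hx : ∀ n, ‖x n‖ ≤ 1)
    (h : ∀ i, Tendsto (fun n => q i * x n - x n * q i) atTop (𝓝 0)) : Cen x := by
  refine ⟨⟨1, hx⟩, fun c => Metric.tendsto_nhds.2 fun ε hε => ?_⟩
  obtain ⟨i, hi⟩ := hq.exists_dist_lt c (show (0 : ℝ) < ε / 4 by linarith)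
  rw [dist_eq_norm] at hi
  filter_upwards [Metric.tendsto_nhds.1 (h i) (ε / 4) (by linarith)] with n hn
  rw [dist_zero_right] at hn ⊢
  have e : c * x n - x n * c =
      (c - q i) * x n - x n * (c - q i) + (q i * x n - x n * q i) := by noncomm_ring
  rw [e]
  have h1 := (norm_mul_le (c - q i) (x n)).trans (mul_le_of_le_one_right (norm_nonneg _) (hx n))
  have h2 := (norm_mul_le (x n) (c - q i)).trans (mul_le_of_le_one_left (norm_nonneg _) (hx n))
  linarith [norm_add_le ((c - q i) * x n - x n * (c - q i)) (q i * x n - x n * q i),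
    norm_sub_le ((c - q i) * x n) (x n * (c - q i))]

/-- An automorphism which is not centrally trivial moves a central sequence of selfadjoints. -/
theorem exists_witness [TopologicalSpace.SeparableSpace A] {σ : A ≃⋆ₐ[ℂ] A}
    (hσ : ¬CentrallyTrivial σ) :
    ∃ (c₀ : ℝ) (a : ℕ → A), 0 < c₀ ∧ Cen a ∧ Cen (fun n => σ (a n)) ∧
      (∀ n, IsSelfAdjoint (a n - σ (a n))) ∧ ∀ n, c₀ ≤ ‖a n - σ (a n)‖ := by
  obtain ⟨ε, hε, hσ⟩ : ∃ ε : ℝ, 0 < ε ∧ ∀ (F : Finset A) (δ : ℝ), 0 < δ →
      ∃ x : A, ‖x‖ ≤ 1 ∧ (∀ c ∈ F, ‖c * x - x * c‖ ≤ δ) ∧ ε < ‖σ x - x‖ := by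
    unfold CentrallyTrivial at hσ
    push Not at hσ
    exact hσ
  classical
  obtain ⟨q, hq⟩ := TopologicalSpace.exists_dense_seq A
  choose x hx hxc hxσ using fun n : ℕ =>
    hσ ((Finset.range (n + 1)).image q) (1 / ((n : ℝ) + 1)) (by positivity)
  have hxC : Cen x := cen_of_dense hq hx fun i => squeeze_zero_norm' (by
    filter_upwards [eventually_ge_atTop i] with n hn
    exact hxc n _ (Finset.mem_image_of_mem q (Finset.mem_range.2 (by omega))))
    tendsto_one_div_add_atTop_nhds_zero_nat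
  have hxs : Cen fun n => star (x n) := by
    refine ⟨⟨1, fun n => (norm_star _).trans_le (hx n)⟩, fun c => ?_⟩
    have h := ((hxC.2 (star c)).star).neg
    rw [star_zero, neg_zero] at h
    exact h.congr fun n => by simp [star_sub]
  have hchoice : ∀ n, ∃ a : A, IsSelfAdjoint a ∧ ε / 2 ≤ ‖a - σ a‖ ∧
      (a = (1 / 2 : ℂ) • (x n + star (x n)) ∨
        a = (Complex.I / 2) • (star (x n) - x n)) := by
    intro n
    set a : A := (1 / 2 : ℂ) • (x n + star (x n))
    set b : A := (Complex.I / 2) • (star (x n) - x n)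
    have hsa : IsSelfAdjoint a := by
      rw [IsSelfAdjoint, star_smul, star_add, star_star, add_comm (star (x n))]
      congr 1
      rw [Complex.star_def, map_div₀, map_one, map_ofNat]
    have hsb : IsSelfAdjoint b := by
      rw [IsSelfAdjoint, star_smul, star_sub, star_star, Complex.star_def, map_div₀,
        Complex.conj_I, map_ofNat, ← neg_sub (star (x n)) (x n), smul_neg, ← neg_smul]
      congr 1
      ring
    by_cases h : ε / 2 ≤ ‖a - σ a‖
    · exact ⟨a, hsa, h, Or.inl rfl⟩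
    refine ⟨b, hsb, ?_, Or.inr rfl⟩
    have e : x n - σ (x n) = (a - σ a) + Complex.I • (b - σ b) := by
      have e1 : x n = a + Complex.I • b := by
        simp only [a, b, smul_smul, ← mul_div_assoc, Complex.I_mul_I, smul_add, smul_sub]
        module
      conv_lhs => rw [e1]
      simp only [map_add, map_smul, smul_sub]
      abel
    have h1 := norm_add_le (a - σ a) (Complex.I • (b - σ b))
    rw [← e, norm_sub_rev, norm_smul, Complex.norm_I, one_mul] at h1
    linarith [hxσ n, not_le.1 h]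
  choose a hsa hab hor using hchoice
  have ha : Cen a := by
    refine ⟨⟨1, fun n => ?_⟩, fun c => squeeze_zero_norm (fun n => ?_)
      (a := fun n => ‖c * x n - x n * c‖ + ‖c * star (x n) - star (x n) * c‖) ?_⟩
    · have h2 := (norm_star (x n)).trans_le (hx n)
      rcases hor n with h | h <;> rw [h, norm_smul]
      · norm_num; linarith [norm_add_le (x n) (star (x n)), hx n]
      · norm_num; linarith [norm_sub_le (star (x n)) (x n), hx n]
    · rcases hor n with h | h <;> rw [h, mul_smul_comm, smul_mul_assoc, ← smul_sub, norm_smul]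
      · rw [mul_add, add_mul, add_sub_add_comm]
        norm_num
        linarith [norm_add_le (c * x n - x n * c) (c * star (x n) - star (x n) * c),
          norm_nonneg (c * x n - x n * c + (c * star (x n) - star (x n) * c))]
      · rw [mul_sub, sub_mul, sub_sub_sub_comm]
        norm_num
        linarith [norm_sub_le (c * star (x n) - star (x n) * c) (c * x n - x n * c),
          norm_nonneg (c * star (x n) - star (x n) * c - (c * x n - x n * c))]
    · simpa using (hxC.2 c).norm.add (hxs.2 c).norm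
  refine ⟨ε / 2, a, half_pos hε, ha, ⟨⟨1, fun n => ?_⟩, fun c => ?_⟩, fun n => ?_, hab⟩
  · rw [StarAlgEquiv.norm_map]
    rcases hor n with h | h <;> rw [h, norm_smul]
    · norm_num; linarith [norm_add_le (x n) (star (x n)), hx n, (norm_star (x n)).trans_le (hx n)]
    · norm_num; linarith [norm_sub_le (star (x n)) (x n), hx n, (norm_star (x n)).trans_le (hx n)]
  · refine squeeze_zero_norm (fun n => le_of_eq ?_) (by simpa using (ha.2 (σ.symm c)).norm)
    rw [← StarAlgEquiv.norm_map σ (σ.symm c * a n - a n * σ.symm c), map_sub, map_mul, map_mul,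
      StarAlgEquiv.apply_symm_apply]
  · exact (hsa n).sub ((hsa n).map σ)

/-! ### The chain -/

section chain

variable {G : Type*} [Countable G] [IsSimpleRing A] [TopologicalSpace.SeparableSpace A]
  (α : G → A ≃⋆ₐ[ℂ] A)

/-- All requirements along one chain. -/
theorem exists_chain :
    ∃ h : ℕ → Lev A, (∀ i j, i < j → (h j).Below (h i)) ∧
      (∀ y : A, ∀ ε : ℝ, 0 < ε → ∃ c : ℂ, ∀ᶠ m in atTop,
        ‖(h m).top * y * (h m).top - c • ((h m).top * (h m).top)‖ ≤ ε) ∧
      ∀ g, ¬CentrallyTrivial (α g) → ∃ (c₀ : ℝ) (a : ℕ → A), 0 < c₀ ∧ Cen a ∧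
        Cen (fun n => α g (a n)) ∧ ∀ N, ∃ n, N ≤ n ∧ ∃ m, ∀ ω : St A,
          (∀ x, ω.f ((h m).top * x * (h m).top) = ω.f x) →
            c₀ ≤ ‖ω.f (a n - α g (a n))‖ := by
  classical
  have : Nontrivial A := inferInstance
  obtain ⟨q, hq⟩ := TopologicalSpace.exists_dense_seq A
  let _ : Encodable G := Encodable.ofCountable G
  choose c₀ a hc₀ ha hσa hwsa hwc using fun (g : G) (hg : ¬CentrallyTrivial (α g)) =>
    exists_witness hg
  have step : ∀ (j : ℕ) (L : Lev A), ∃ M : Lev A, M.Below L ∧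
      (∀ E : Lev A, E.Below M → ∃ c : ℂ,
        ‖E.top * q j.unpair.1 * E.top - c • (E.top * E.top)‖ ≤ 1 / ((j : ℝ) + 1)) ∧
      ∀ g, Encodable.decode (α := G) j.unpair.1 = some g → ∀ hg : ¬CentrallyTrivial (α g),
        ∃ n, j ≤ n ∧ ∀ ω : St A, (∀ x, ω.f (M.top * x * M.top) = ω.f x) →
          c₀ g hg / 2 ≤ ‖ω.f (a g hg n - α g (a g hg n))‖ := by
    intro j L
    obtain ⟨D, hD, hD'⟩ := exists_excise L (q j.unpair.1)
      (show (0 : ℝ) < 1 / ((j : ℝ) + 1) by positivity)
    by_cases hg : ∃ g, Encodable.decode (α := G) j.unpair.1 = some g ∧ ¬CentrallyTrivial (α g)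
    · obtain ⟨g, hg, hgc⟩ := hg
      have hw : Cen fun n => a g hgc n - α g (a g hgc n) := by
        obtain ⟨C, hC⟩ := (ha g hgc).1
        obtain ⟨C', hC'⟩ := (hσa g hgc).1
        refine ⟨⟨C + C', fun n => (norm_sub_le _ _).trans (add_le_add (hC n) (hC' n))⟩, fun c => ?_⟩
        have h := ((ha g hgc).2 c).sub ((hσa g hgc).2 c)
        rw [sub_zero] at h
        exact h.congr fun n => by rw [mul_sub, sub_mul]; abel
      obtain ⟨M, n, hn, hM, hdet⟩ :=
        exists_detect D hw (hwsa g hgc) (hc₀ g hgc) (hwc g hgc) j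
      refine ⟨M, hM.trans hD, fun E hE => hD' E (hE.trans hM), fun g' hg' hgc' => ?_⟩
      obtain rfl : g = g' := Option.some.inj (hg.symm.trans hg')
      exact ⟨n, hn, hdet⟩
    · exact ⟨D, hD, hD', fun g hg' hgc => absurd ⟨g, hg', hgc⟩ hg⟩
  choose nx hnx hex hdet using step
  let L₀ : Lev A := ⟨1, 1, zero_le_one, le_of_eq CStarRing.norm_one, zero_le_one,
    CStarRing.norm_one, one_mul 1⟩
  let h : ℕ → Lev A := fun k => Nat.rec L₀ (fun j L => nx j L) k
  have hsucc : ∀ j, h (j + 1) = nx j (h j) := fun j => rfl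
  have hbel : ∀ i j, i < j → (h j).Below (h i) := by
    intro i j hij
    induction j, hij using Nat.le_induction with
    | base => rw [hsucc]; exact hnx _ _
    | succ j _ ih => exact (show (h (j + 1)).Below (h j) by rw [hsucc]; exact hnx _ _).trans ih
  refine ⟨h, hbel, fun y ε hε => ?_, fun g hg => ⟨c₀ g hg / 2, a g hg, half_pos (hc₀ g hg),
    ha g hg, hσa g hg, fun N => ?_⟩⟩
  · obtain ⟨i, hi⟩ := hq.exists_dist_lt y (show (0 : ℝ) < ε / 4 by linarith)
    rw [dist_eq_norm] at hi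
    obtain ⟨k, hk⟩ := exists_nat_gt (4 / ε)
    set j := Nat.pair i k with hj
    have hjk : 1 / ((j : ℝ) + 1) ≤ ε / 4 := by
      have h1 : (k : ℝ) ≤ j := by exact_mod_cast Nat.right_le_pair i k
      rw [div_lt_iff₀ hε] at hk
      rw [div_le_iff₀ (by positivity)]
      nlinarith
    -- all later constants are near the one for the next index
    have hc : ∀ m, j + 1 < m → ∃ c : ℂ,
        ‖(h m).top * q i * (h m).top - c • ((h m).top * (h m).top)‖ ≤ ε / 4 := fun m hm => by
      obtain ⟨c, hc⟩ := hex j (h j) (h m) (hsucc j ▸ hbel _ _ hm)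
      rw [hj, Nat.unpair_pair] at hc
      exact ⟨c, hc.trans hjk⟩
    obtain ⟨c, hc⟩ := hc (j + 2) (by omega)
    refine ⟨c, ?_⟩
    filter_upwards [eventually_gt_atTop (j + 2)] with m hm
    have h1 := (hbel _ _ hm).conj_le hc
    have e : (h m).top * y * (h m).top - c • ((h m).top * (h m).top) =
        (h m).top * (y - q i) * (h m).top +
          ((h m).top * q i * (h m).top - c • ((h m).top * (h m).top)) := by noncomm_ring
    rw [e]
    refine (norm_add_le _ _).trans (le_trans (add_le_add ((h m).norm_conj_le _) h1) ?_)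
    linarith
  · set j := Nat.pair (Encodable.encode g) N with hj
    obtain ⟨n, hn, hω⟩ := hdet j (h j) g
      (by rw [hj, Nat.unpair_pair]; exact Encodable.encodek g) hg
    refine ⟨n, (Nat.right_le_pair _ N).trans hn, j + 1, fun ω h1 => hω ω fun x => ?_⟩
    rw [← hsucc]
    exact h1 x

end chain

/-! ### The limit state -/

theorem norm_smul_top (L : Lev A) (c : ℂ) : ‖c • (L.top * L.top)‖ = ‖c‖ := by
  rw [norm_smul, L.norm_sq_top, mul_one]

theorem exists_state [Nontrivial A] {h : ℕ → Lev A} (hb : ∀ i j, i < j → (h j).Below (h i))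
    (hy : ∀ y : A, ∀ ε : ℝ, 0 < ε → ∃ c : ℂ, ∀ᶠ m in atTop,
      ‖(h m).top * y * (h m).top - c • ((h m).top * (h m).top)‖ ≤ ε) :
    ∃ ω : St A, (∀ y, Tendsto (fun m =>
        (h m).top * y * (h m).top - ω.f y • ((h m).top * (h m).top)) atTop (𝓝 0)) ∧
      ∀ m x, ω.f ((h m).top * x * (h m).top) = ω.f x := by
  set T : A → ℂ → Prop := fun y c =>
    Tendsto (fun m => (h m).top * y * (h m).top - c • ((h m).top * (h m).top)) atTop (𝓝 0) with hT
  have uniq : ∀ {y c c'}, T y c → T y c' → c = c' := by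
    intro y c c' h1 h2
    have h3 := (h2.sub h1).norm
    rw [sub_zero, norm_zero] at h3
    have h4 : ∀ m, ‖((h m).top * y * (h m).top - c' • ((h m).top * (h m).top)) -
        ((h m).top * y * (h m).top - c • ((h m).top * (h m).top))‖ = ‖c - c'‖ := fun m => by
      rw [sub_sub_sub_cancel_left, ← sub_smul, norm_smul_top]
    simp only [h4] at h3
    exact sub_eq_zero.1 (norm_eq_zero.1 (tendsto_nhds_unique tendsto_const_nhds h3))
  have ex : ∀ y, ∃ c, T y c := by
    intro y
    choose c hc using fun k : ℕ => hy y (1 / ((k : ℝ) + 1)) (by positivity)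
    have hd : ∀ k l, ‖c k - c l‖ ≤ 1 / ((k : ℝ) + 1) + 1 / ((l : ℝ) + 1) := fun k l => by
      obtain ⟨m, h1, h2⟩ := ((hc k).and (hc l)).exists
      rw [← norm_smul_top (h m), sub_smul]
      rw [show c k • ((h m).top * (h m).top) - c l • ((h m).top * (h m).top) =
        ((h m).top * y * (h m).top - c l • ((h m).top * (h m).top)) -
          ((h m).top * y * (h m).top - c k • ((h m).top * (h m).top)) by abel]
      exact (norm_sub_le _ _).trans (by linarith)
    have hC : CauchySeq c := Metric.cauchySeq_iff.2 fun ε hε => by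
      obtain ⟨N, hN⟩ := exists_nat_gt (2 / ε)
      refine ⟨N, fun k hk l hl => ?_⟩
      rw [div_lt_iff₀ hε] at hN
      have hb : ∀ p : ℕ, N ≤ p → 1 / ((p : ℝ) + 1) < ε / 2 := fun p hp => by
        have hp' : (N : ℝ) ≤ p := Nat.cast_le.2 hp
        rw [div_lt_iff₀ (by positivity)]
        nlinarith
      rw [dist_eq_norm]
      linarith [hd k l, hb k hk, hb l hl]
    obtain ⟨L, hL⟩ := cauchySeq_tendsto_of_complete hC
    refine ⟨L, Metric.tendsto_nhds.2 fun ε hε => ?_⟩
    obtain ⟨k, hk1, hk2⟩ := ((Metric.tendsto_nhds.1 hL (ε / 4) (by linarith)).and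
      ((tendsto_one_div_add_atTop_nhds_zero_nat (𝕜 := ℝ)).eventually
        (eventually_lt_nhds (show (0 : ℝ) < ε / 4 by linarith)))).exists
    rw [dist_eq_norm] at hk1
    filter_upwards [hc k] with m hm
    rw [dist_zero_right]
    have e : (h m).top * y * (h m).top - L • ((h m).top * (h m).top) =
        ((h m).top * y * (h m).top - c k • ((h m).top * (h m).top)) +
          (c k - L) • ((h m).top * (h m).top) := by rw [sub_smul]; abel
    rw [e]
    refine (norm_add_le _ _).trans_lt ?_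
    rw [norm_smul_top]
    linarith
  choose φ hφ using ex
  let f : A →ₗ[ℂ] ℂ :=
    { toFun := φ
      map_add' := fun x y => uniq (hφ (x + y)) (by
        have h1 := (hφ x).add (hφ y)
        rw [add_zero] at h1
        exact h1.congr fun m => by rw [mul_add, add_mul, add_smul]; abel)
      map_smul' := fun c x => uniq (hφ (c • x)) (by
        have h1 := (hφ x).const_smul c
        rw [smul_zero] at h1
        exact h1.congr fun m => by
          simp only [RingHom.id_apply, mul_smul_comm, smul_mul_assoc, smul_sub, smul_smul,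
            smul_eq_mul]) }
  have hpos : ∀ x : A, 0 ≤ x → 0 ≤ f x := by
    intro x hx
    show 0 ≤ φ x
    have hst : T x (star (φ x)) := by
      have h1 := (hφ x).star
      rw [star_zero] at h1
      exact h1.congr fun m => by
        simp only [star_sub, star_mul, star_smul, (h m).sa,
          (IsSelfAdjoint.of_nonneg hx).star_eq, mul_assoc]
    have him : (φ x).im = 0 := Complex.conj_eq_iff_im.1 (uniq hst (hφ x))
    have hre : φ x = ((φ x).re : ℂ) := Complex.ext rfl (by simp [him])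
    refine Complex.le_def.2 ⟨?_, by simp [him]⟩
    simp only [Complex.zero_re]
    by_contra hneg
    push Not at hneg
    obtain ⟨m, hm⟩ := (Metric.tendsto_nhds.1 (hφ x) (-(φ x).re) (by linarith)).exists
    rw [dist_zero_right] at hm
    have h1 : 0 ≤ (h m).top * x * (h m).top := conjugate_nonneg_of_nonneg hx (h m).top_nonneg
    have h2 : ((-(φ x).re) • ((h m).top * (h m).top)) ≤
        (h m).top * x * (h m).top - φ x • ((h m).top * (h m).top) := by
      conv_rhs => arg 2; rw [hre, Complex.coe_smul]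
      rw [neg_smul, sub_eq_add_neg]
      exact le_add_of_nonneg_left h1
    have h3 : (0 : A) ≤ (h m).top * (h m).top := by
      have := star_mul_self_nonneg (h m).top
      rwa [(h m).sa] at this
    have h4 := CStarAlgebra.norm_le_norm_of_nonneg_of_le (smul_nonneg (by linarith) h3) h2
    rw [norm_smul, (h m).norm_sq_top, mul_one, Real.norm_of_nonneg (by linarith)] at h4
    linarith
  refine ⟨⟨PositiveLinearMap.mk₀ f hpos, uniq (hφ 1) ?_⟩, fun y => hφ y, fun m x =>
    uniq (hφ _) ?_⟩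
  · exact tendsto_const_nhds.congr fun m => by simp
  · refine ((hφ x).congr' ?_)
    filter_upwards [eventually_gt_atTop m] with k hk
    have e : (h k).top * ((h m).top * x * (h m).top) * (h k).top = (h k).top * x * (h k).top := by
      rw [← mul_assoc, ← mul_assoc, (hb m k hk).comm, mul_assoc _ (h m).top, hb m k hk]
    rw [e]
    rfl

/-- Centrality factors through an excised state. -/
theorem tendsto_factor {ψ : St A} {k : ℕ → A} (hk : ∀ m, ‖k m‖ ≤ 1)
    (hψk : ∀ m x, ψ.f (k m * x * k m) = ψ.f x)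
    (hex : ∀ x, Tendsto (fun m => k m * x * k m - ψ.f x • (k m * k m)) atTop (𝓝 0))
    {v : ℕ → A} (hv : ∃ C, ∀ n, ‖v n‖ ≤ C)
    (hvk : ∀ m, Tendsto (fun n => k m * v n - v n * k m) atTop (𝓝 0)) (a : A) :
    Tendsto (fun n => ψ.f (v n * a) - ψ.f (v n) * ψ.f a) atTop (𝓝 0) := by
  obtain ⟨C, hC⟩ := hv
  have hC0 : 0 ≤ C := (norm_nonneg _).trans (hC 0)
  refine Metric.tendsto_nhds.2 fun ε hε => ?_
  obtain ⟨m, hm⟩ := (Metric.tendsto_nhds.1 (hex a) (ε / (4 * (C + 1))) (by positivity)).exists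
  rw [dist_zero_right] at hm
  have hδ : 0 < ε / (4 * (‖a‖ + 1)) := by positivity
  filter_upwards [Metric.tendsto_nhds.1 (hvk m) _ hδ] with n hn
  rw [dist_zero_right] at hn ⊢
  rw [← hψk m (v n * a), ← hψk m (v n)]
  have e : k m * (v n * a) * k m = (k m * v n - v n * k m) * (a * k m) +
      v n * (k m * a * k m - ψ.f a • (k m * k m)) + ψ.f a • (k m * v n * k m) -
        ψ.f a • ((k m * v n - v n * k m) * k m) := by
    rw [mul_sub, mul_smul_comm, sub_mul (k m * v n) _ (k m), smul_sub, mul_assoc (v n) (k m) (k m)]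
    noncomm_ring
  rw [e, map_sub, map_add, map_add, map_smul, map_smul, smul_eq_mul, smul_eq_mul,
    mul_comm (ψ.f (k m * v n * k m))]
  set D := k m * v n - v n * k m with hD
  have h1 : ‖ψ.f (D * (a * k m))‖ ≤ ‖D‖ * ‖a‖ :=
    (ψ.norm_apply_le _).trans ((norm_mul_le _ _).trans (mul_le_mul_of_nonneg_left
      ((norm_mul_le _ _).trans (mul_le_of_le_one_right (norm_nonneg _) (hk m))) (norm_nonneg _)))
  have h2 : ‖ψ.f (v n * (k m * a * k m - ψ.f a • (k m * k m)))‖ ≤
      C * (ε / (4 * (C + 1))) :=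
    (ψ.norm_apply_le _).trans ((norm_mul_le _ _).trans (mul_le_mul (hC n) hm.le (norm_nonneg _) hC0))
  have h3 : ‖ψ.f a * ψ.f (D * k m)‖ ≤ ‖a‖ * ‖D‖ := by
    rw [norm_mul]
    exact mul_le_mul (ψ.norm_apply_le a) ((ψ.norm_apply_le _).trans ((norm_mul_le _ _).trans
      (mul_le_of_le_one_right (norm_nonneg _) (hk m)))) (norm_nonneg _) (norm_nonneg _)
  have e2 : ∀ p q r s : ℂ, p + q + r - s - r = p + q - s := fun _ _ _ _ => by ring
  rw [e2]
  have h4 : C * (ε / (4 * (C + 1))) ≤ ε / 4 := by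
    rw [mul_div_assoc', div_le_div_iff₀ (by positivity) (by norm_num)]
    nlinarith
  have h5 : ‖D‖ * ‖a‖ ≤ ε / 4 := by
    refine (mul_le_mul_of_nonneg_right hn.le (norm_nonneg _)).trans ?_
    rw [div_mul_eq_mul_div, div_le_div_iff₀ (by positivity) (by norm_num)]
    nlinarith [norm_nonneg a]
  refine ((norm_sub_le _ _).trans (add_le_add (norm_add_le _ _) le_rfl)).trans_lt ?_
  rw [mul_comm ‖a‖] at h3
  linarith

/-- If `φ` and `φ ∘ σ⁻¹` differ on a central sequence, `h_m z σ h_m → 0`. -/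
theorem tendsto_moved {h : ℕ → Lev A} (hb : ∀ i j, i < j → (h j).Below (h i)) (ω : St A)
    (hex : ∀ y, Tendsto (fun m =>
      (h m).top * y * (h m).top - ω.f y • ((h m).top * (h m).top)) atTop (𝓝 0))
    (hfix : ∀ m x, ω.f ((h m).top * x * (h m).top) = ω.f x)
    (σ : A ≃⋆ₐ[ℂ] A) {a : ℕ → A} (hσb : ∃ C, ∀ n, ‖σ (a n)‖ ≤ C)
    (hσt : ∀ m, Tendsto (fun n => σ (h m).top * σ (a n) - σ (a n) * σ (h m).top) atTop (𝓝 0))
    {c₀ : ℝ} (hc₀ : 0 < c₀) (hdiff : ∀ N, ∃ n, N ≤ n ∧ c₀ ≤ ‖ω.f (a n - σ (a n))‖) (z : A)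
    (hσz : ∀ m, Tendsto (fun n => star ((h m).top * z) * σ (a n) -
      σ (a n) * star ((h m).top * z)) atTop (𝓝 0)) :
    Tendsto (fun m => (h m).top * z * σ (h m).top) atTop (𝓝 0) := by
  set ψ := ω.move σ with hψ
  set t : ℕ → A := fun m => (h m).top with ht
  set k : ℕ → A := fun m => σ (t m) with hk
  have hk1 : ∀ m, ‖k m‖ ≤ 1 := fun m => (StarAlgEquiv.norm_map σ _).trans_le (h m).top_le
  have hkn : ∀ m, ‖k m * k m‖ = 1 := fun m => by
    rw [hk]; simp only [← map_mul, StarAlgEquiv.norm_map]; exact (h m).norm_sq_top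
  have hψk : ∀ m x, ψ.f (k m * x * k m) = ψ.f x := fun m x => by
    rw [hψ, St.move_apply, St.move_apply]
    simp only [hk, map_mul, StarAlgEquiv.symm_apply_apply]
    exact hfix m _
  have hψex : ∀ x, Tendsto (fun m => k m * x * k m - ψ.f x • (k m * k m)) atTop (𝓝 0) := fun x => by
    refine squeeze_zero_norm (fun m => le_of_eq ?_) (by simpa using (hex (σ.symm x)).norm)
    rw [← StarAlgEquiv.norm_map σ ((h m).top * σ.symm x * (h m).top -
      ω.f (σ.symm x) • ((h m).top * (h m).top)), map_sub, map_smul, map_mul, map_mul, map_mul,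
      StarAlgEquiv.apply_symm_apply]
    rfl
  set u : ℕ → A := fun i => t i * z with hu
  set L : ℕ → ℝ := fun i => ψ.nrm (u i) ^ 2 with hL
  have hLe : ∀ i, L i = (ψ.f (star z * (t i * t i) * z)).re := fun i => by
    rw [hL]; simp only [ψ.nrm_sq, hu, star_mul, ht, (h i).sa, mul_assoc]
  set M : ℕ → ℝ := fun i => (ψ.f (star z * t i * z)).re with hM
  have hmono : ∀ {x y : A}, x ≤ y → (ψ.f (star z * x * z)).re ≤ (ψ.f (star z * y * z)).re := by
    intro x y hxy
    have h1 := ψ.re_mono (star_left_conjugate_le_conjugate hxy z)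
    exact h1
  have hdec : ∀ {i j}, i < j → L j ≤ L i ∧ M j ≤ M i ∧ ψ.nrm (u i - u j) ^ 2 ≤ M i - M j := by
    intro i j hij
    obtain ⟨h1, h2⟩ := (hb i j hij).le_sq
    refine ⟨by rw [hLe, hLe]; exact hmono h2, hmono (h1.trans (h i).sq_le), ?_⟩
    have h0 : 0 ≤ t i - t j := sub_nonneg.2 (h1.trans (h i).sq_le)
    have h3 : t i - t j ≤ 1 := (sub_le_self _ (h j).top_nonneg).trans (h i).le_one
    have h4 := CStarAlgebra.pow_antitone h0 h3 (show 1 ≤ 2 by norm_num)
    simp only [pow_one, sq] at h4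
    have h5 := hmono h4
    rw [mul_sub (star z), sub_mul (star z * t i), map_sub, Complex.sub_re] at h5
    refine le_trans (le_of_eq ?_) h5
    rw [ψ.nrm_sq, hu]
    simp only [← sub_mul, star_mul, star_sub, ht, (h i).sa, (h j).sa, mul_assoc]
  have hLanti : Antitone L := antitone_nat_of_succ_le fun n => (hdec n.lt_succ_self).1
  have hManti : Antitone M := antitone_nat_of_succ_le fun n => (hdec n.lt_succ_self).2.1
  obtain ⟨ℓ, hℓ⟩ : ∃ ℓ, Tendsto L atTop (𝓝 ℓ) :=
    ⟨_, tendsto_atTop_ciInf hLanti ⟨0, by rintro _ ⟨i, rfl⟩; exact sq_nonneg _⟩⟩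
  obtain ⟨μ, hμ⟩ : ∃ μ, Tendsto M atTop (𝓝 μ) :=
    ⟨_, tendsto_atTop_ciInf hManti ⟨0, by
      rintro _ ⟨i, rfl⟩
      have := hmono (h i).top_nonneg
      simpa using this⟩⟩
  have hℓ0 : 0 ≤ ℓ := ge_of_tendsto' hℓ fun i => sq_nonneg _
  -- the norms are dominated by every `L i`
  have hlim : ∀ i, ∀ ε : ℝ, 0 < ε → ∀ᶠ m in atTop, ‖t m * z * k m‖ ^ 2 ≤ L i + ε := by
    intro i ε hε
    filter_upwards [eventually_gt_atTop i,
      Metric.tendsto_nhds.1 (hψex (star z * (t i * t i) * z)) ε hε] with m hm hm2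
    rw [dist_zero_right] at hm2
    have h0 : 0 ≤ star z * (t i * t i) * z :=
      star_left_conjugate_nonneg (by
        have := star_mul_self_nonneg (h i).top
        rwa [(h i).sa] at this) z
    have hr : ψ.f (star z * (t i * t i) * z) = (L i : ℂ) := by
      rw [hLe]
      exact Complex.ext rfl (by
        simpa using (Complex.le_def.1 (map_nonneg ψ.f h0)).2.symm)
    have e : star (t m * z * k m) * (t m * z * k m) =
        k m * (star z * (t m * t m) * z) * k m := by
      simp only [star_mul, hk, ← map_star, ht, (h m).sa, mul_assoc]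
    rw [sq, ← CStarRing.norm_star_mul_self, e]
    have hk0 : 0 ≤ k m := by
      obtain ⟨y, hy⟩ := CStarAlgebra.nonneg_iff_eq_star_mul_self.1 (h m).top_nonneg
      rw [hk]; simp only [ht]; rw [hy, map_mul, map_star]
      exact star_mul_self_nonneg _
    refine (CStarAlgebra.norm_le_norm_of_nonneg_of_le ?_ (conjugate_le_conjugate_of_nonneg
      (star_left_conjugate_le_conjugate (hb i m hm).le_sq.2 z) hk0)).trans ?_
    · rw [← e]; exact star_mul_self_nonneg _
    calc ‖k m * (star z * (t i * t i) * z) * k m‖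
        ≤ ‖(L i : ℂ) • (k m * k m)‖ + ε := by
          rw [hr] at hm2
          linarith [norm_le_norm_add_norm_sub' (k m * (star z * (t i * t i) * z) * k m)
            ((L i : ℂ) • (k m * k m))]
      _ = L i + ε := by
          rw [norm_smul, hkn, mul_one, Complex.norm_real, Real.norm_of_nonneg (sq_nonneg _)]
  suffices hℓz : ℓ = 0 by
    refine Metric.tendsto_nhds.2 fun ε hε => ?_
    obtain ⟨i, hi⟩ := (hℓ.eventually (eventually_lt_nhds
      (show ℓ < ε ^ 2 / 2 by rw [hℓz]; positivity))).exists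
    filter_upwards [hlim i (ε ^ 2 / 4) (by positivity)] with m hm
    rw [dist_zero_right]
    exact lt_of_pow_lt_pow_left₀ 2 hε.le (by nlinarith)
  by_contra hne
  have hℓpos : 0 < ℓ := lt_of_le_of_ne hℓ0 (Ne.symm hne)
  obtain ⟨C, hC⟩ := hσb
  have hC0 : 0 ≤ C := (norm_nonneg _).trans (hC 0)
  have hnu : ∀ i, ψ.nrm (u i) ≤ ‖z‖ := fun i => (ψ.nrm_le_norm _).trans
    ((norm_mul_le _ _).trans (mul_le_of_le_one_left (norm_nonneg _) (h i).top_le))
  -- compare each `v` through the limit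
  have key : ∀ i v, ‖ψ.f (star (u i) * v * u i) - ω.f v * (ℓ : ℂ)‖ ≤
      ‖v‖ * (2 * ‖z‖) * Real.sqrt (M i - μ) := by
    intro i v
    have hj : Tendsto (fun j => ψ.f (star (u j) * v * u j)) atTop (𝓝 (ω.f v * (ℓ : ℂ))) := by
      have h1 : Tendsto (fun j => ω.f v * (L j : ℂ)) atTop (𝓝 (ω.f v * (ℓ : ℂ))) :=
        ((Complex.continuous_ofReal.tendsto _).comp hℓ).const_mul _
      have h2 : Tendsto (fun j => ψ.f (star (u j) * v * u j) - ω.f v * (L j : ℂ)) atTop (𝓝 0) := by
        refine squeeze_zero_norm (a := fun j => ‖z‖ * ‖t j * v * t j - ω.f v • (t j * t j)‖ * ‖z‖)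
          (fun j => ?_) (by simpa using ((hex v).norm.const_mul ‖z‖).mul_const ‖z‖)
        have hLc : (L j : ℂ) = ψ.f (star (u j) * u j) := by
          rw [hL]
          refine Complex.ext (by simp [ψ.nrm_sq]) ?_
          rw [Complex.ofReal_im]
          exact (Complex.le_def.1 (map_nonneg ψ.f (star_mul_self_nonneg (u j)))).2
        have e : ψ.f (star (u j) * v * u j) - ω.f v * (L j : ℂ) =
            ψ.f (star z * (t j * v * t j - ω.f v • (t j * t j)) * z) := by
          rw [hLc, ← smul_eq_mul (ω.f v), ← map_smul, ← map_sub]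
          congr 1
          simp only [hu, star_mul, ht, (h j).sa, mul_sub, sub_mul, mul_smul_comm, smul_mul_assoc,
            mul_assoc]
        rw [e]
        exact (ψ.norm_apply_le _).trans (norm_mul₃_le.trans (by rw [norm_star]))
      simpa using h2.add h1
    refine le_of_tendsto (tendsto_const_nhds.sub hj).norm ?_
    filter_upwards [eventually_gt_atTop i] with j hj
    refine (ψ.form_sub_le v _ _).trans ?_
    refine mul_le_mul (mul_le_mul_of_nonneg_left (by linarith [hnu i, hnu j]) (norm_nonneg _))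
      ?_ (ψ.nrm_nonneg _) (by positivity)
    rw [← Real.sqrt_sq (ψ.nrm_nonneg (u i - u j))]
    exact Real.sqrt_le_sqrt ((hdec hj).2.2.trans (by linarith [hManti.le_of_tendsto hμ j]))
  set η := ℓ * c₀ / (4 * (2 * C + C * (2 * ‖z‖) + 1)) with hη
  have hη0 : 0 < η := by positivity
  have hsq : Tendsto (fun i => Real.sqrt (M i - μ)) atTop (𝓝 0) := by
    simpa [Function.comp_def] using ((Real.continuous_sqrt.tendsto _).comp (hμ.sub_const μ))
  obtain ⟨i, hi1, hi2⟩ := ((hsq.eventually (eventually_lt_nhds hη0)).and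
    (hℓ.eventually (eventually_lt_nhds (show ℓ < ℓ + η by linarith)))).exists
  -- centrality for this `i`
  set v : ℕ → A := fun n => σ (a n)
  have hfac : Tendsto (fun n => ψ.f (star (u i) * v n * u i) - ψ.f (v n) * (L i : ℂ))
      atTop (𝓝 0) := by
    have hLc : (L i : ℂ) = ψ.f (star (u i) * u i) := by
      rw [hL]
      refine Complex.ext (by simp [ψ.nrm_sq]) ?_
      rw [Complex.ofReal_im]
      exact (Complex.le_def.1 (map_nonneg ψ.f (star_mul_self_nonneg (u i)))).2
    have h1 := tendsto_factor hk1 hψk hψex ⟨C, hC⟩ hσt (star (u i) * u i)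
    have h2 : Tendsto (fun n => ψ.f ((star (u i) * v n - v n * star (u i)) * u i)) atTop (𝓝 0) :=
      squeeze_zero_norm (fun n => (ψ.norm_apply_le _).trans (norm_mul_le _ _))
        (by have := (hσz i).norm.mul_const ‖u i‖; rw [norm_zero, zero_mul] at this; exact this)
    have h3 := h2.add h1
    rw [add_zero] at h3
    refine h3.congr fun n => ?_
    rw [hLc, sub_mul, map_sub, mul_assoc (v n)]
    ring
  obtain ⟨N, hN⟩ := Metric.tendsto_atTop.1 hfac η hη0
  obtain ⟨n, hn, hd⟩ := hdiff N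
  have hd' : ω.f (a n - σ (a n)) = ψ.f (v n) - ω.f (v n) := by
    rw [hψ, St.move_apply, map_sub]
    simp only [v, StarAlgEquiv.symm_apply_apply]
  rw [hd'] at hd
  have h1 := hN n hn
  rw [dist_zero_right] at h1
  have h2 := key i (v n)
  have hLi : ℓ ≤ L i := hLanti.le_of_tendsto hℓ i
  have h3 : ‖((ψ.f (v n) - ω.f (v n)) * (ℓ : ℂ))‖ ≤
      η + ‖v n‖ * (2 * ‖z‖) * Real.sqrt (M i - μ) + ‖ψ.f (v n)‖ * (L i - ℓ) := by
    have e : (ψ.f (v n) - ω.f (v n)) * (ℓ : ℂ) =
        (ψ.f (star (u i) * v n * u i) - ω.f (v n) * (ℓ : ℂ)) -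
          (ψ.f (star (u i) * v n * u i) - ψ.f (v n) * (L i : ℂ)) -
          ψ.f (v n) * ((L i - ℓ : ℝ) : ℂ) := by push_cast; ring
    rw [e]
    refine (norm_sub_le _ _).trans (add_le_add ((norm_sub_le _ _).trans (by linarith)) ?_)
    rw [norm_mul, Complex.norm_real, Real.norm_of_nonneg (by linarith)]
  rw [norm_mul, Complex.norm_real, Real.norm_of_nonneg hℓ0] at h3
  have h4 : ‖ψ.f (v n)‖ * (L i - ℓ) ≤ C * η :=
    mul_le_mul ((ψ.norm_apply_le _).trans (hC n)) (by linarith) (by linarith) hC0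
  have h5 : ‖v n‖ * (2 * ‖z‖) * Real.sqrt (M i - μ) ≤ C * (2 * ‖z‖) * η := by
    gcongr
    exact hC n
  have h6 := mul_le_mul_of_nonneg_right hd hℓ0
  have h7 : η * (4 * (2 * C + C * (2 * ‖z‖) + 1)) = ℓ * c₀ := by
    rw [hη]; field_simp
  nlinarith [mul_pos hℓpos hc₀, norm_nonneg z, mul_nonneg hC0 hη0.le]

end Exc

/-- **Nested excision.** In a separable simple unital algebra every countable family of
automorphisms has an excised state moved by all members which are not centrally trivial. -/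
theorem excise_goal {G A : Type*} [Countable G] [CStarAlgebra A] [PartialOrder A]
    [StarOrderedRing A] [IsSimpleRing A] [TopologicalSpace.SeparableSpace A]
    (α : G → A ≃⋆ₐ[ℂ] A) : ExciseGoal α := by
  obtain ⟨h, hb, hy, hg⟩ := Exc.exists_chain α
  obtain ⟨ω, hex, hfix⟩ := Exc.exists_state hb hy
  refine ⟨⟨fun m => (h m).top, ω.f.toLinearMap, fun m => (h m).top_nonneg, fun m => (h m).norm_top,
    fun m => hb m (m + 1) m.lt_succ_self, ω.map_one',
    fun a => map_nonneg ω.f (star_mul_self_nonneg a), hex, fun g hgc z => ?_⟩⟩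
  obtain ⟨c₀, a, hc₀, -, hσa, hdet⟩ := hg g hgc
  refine Exc.tendsto_moved hb ω hex hfix (α g) hσa.1 (fun m => hσa.2 _) hc₀ (fun N => ?_) z
    fun m => hσa.2 _
  obtain ⟨n, hn, m, hω⟩ := hdet N
  exact ⟨n, hn, hω ω (hfix m)⟩

end Vale.Agent.P095.Uni
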