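import Vale.Agent.P095.Uni.Goals
import Vale.Agent.P095.AF.SI

/-!
# P095: averaging over the cosets of the centrally trivial part of a Følner set

A family `s` whose translates by two representatives are almost orthogonal has averages
`∑ wᵢ α_{rᵢ} s` with the same Gram matrix, the same commutation and almost fixed by `α`.
-/

open scoped ComplexOrder
open Filter Topology

noncomputable section

namespace Vale.Agent.P095.Uni

variable {G : Type*} [Group G] {A : Type*} [CStarAlgebra A]
variable {α : G → A ≃⋆ₐ[ℂ] A}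

/-- The elements acting trivially on central sequences form a subgroup. -/
def trivialPart (hα : ∀ g h a, α (g * h) a = α g (α h a)) : Subgroup G where
  carrier := {g | CentrallyTrivial (α g)}
  one_mem' := fun ε hε => ⟨∅, 1, one_pos, fun x _ _ => by simp [AF.alpha_one hα, hε.le]⟩
  inv_mem' := by
    intro g hg ε hε
    obtain ⟨F, δ, hδ, hF⟩ := hg ε hε
    refine ⟨F, δ, hδ, fun x hx hc => ?_⟩
    rw [← StarAlgEquiv.norm_map (α g), map_sub, AF.alpha_inv hα, norm_sub_rev]
    exact hF x hx hc
  mul_mem' := by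
    classical
    intro g h hg hh ε hε
    obtain ⟨F, δ, hδ, hF⟩ := hg (ε / 2) (half_pos hε)
    obtain ⟨F', δ', hδ', hF'⟩ := hh (ε / 2) (half_pos hε)
    refine ⟨F ∪ F', min δ δ', lt_min hδ hδ', fun x hx hc => ?_⟩
    have h1 := hF x hx fun c hcF => (hc c (Finset.mem_union_left _ hcF)).trans (min_le_left _ _)
    have h2 := hF' x hx fun c hcF => (hc c (Finset.mem_union_right _ hcF)).trans (min_le_right _ _)
    have e : α (g * h) x - x = α g (α h x - x) + (α g x - x) := by rw [hα, map_sub]; abel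
    rw [e]
    refine (norm_add_le _ _).trans ?_
    rw [StarAlgEquiv.norm_map]
    linarith

/-- The bookkeeping of one Følner set: representatives of finitely many cosets, weights of square
sum one whose shifts are nearby. -/
structure Spread (α : G → A ≃⋆ₐ[ℂ] A) (K : Finset G) (ε : ℝ) where
  n : ℕ
  r : Fin n → G
  w : Fin n → ℝ
  w_sq : ∑ i, w i ^ 2 = 1
  moved : ∀ i j, i ≠ j → ¬CentrallyTrivial (α ((r i)⁻¹ * r j))
  shift : ∀ k ∈ K, ∃ σ : Fin n → Fin n,
    (∀ i, w i ≠ 0 → CentrallyTrivial (α ((r (σ i))⁻¹ * (k * r i)))) ∧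
    ∑ j, ((∑ i ∈ Finset.univ.filter (fun i => σ i = j), w i) - w j) ^ 2 ≤ ε

open Classical in
/-- Representatives and weights from a Følner set, for any subgroup. -/
theorem exists_spread_subgroup (hG : IsAmenableGroup G) (H : Subgroup G) (K : Finset G) {ε : ℝ}
    (hε : 0 < ε) :
    ∃ (n : ℕ) (r : Fin n → G) (w : Fin n → ℝ), ∑ i, w i ^ 2 = 1 ∧
      (∀ i j, i ≠ j → (r i)⁻¹ * r j ∉ H) ∧
      ∀ k ∈ K, ∃ σ : Fin n → Fin n, (∀ i, w i ≠ 0 → (r (σ i))⁻¹ * (k * r i) ∈ H) ∧
        ∑ j, ((∑ i ∈ Finset.univ.filter (fun i => σ i = j), w i) - w j) ^ 2 ≤ ε := by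
  obtain ⟨F, hF, hFK⟩ := hG K ε hε
  set mk : G → G ⧸ H := fun g => (g : G ⧸ H)
  set S : Finset (G ⧸ H) := (insert 1 K).biUnion fun k => F.image fun g => mk (k * g)
  set e := S.equivFin
  set cnt : G ⧸ H → ℝ := fun c => ((F.filter fun g => mk g = c).card : ℝ)
  have hF0 : (0 : ℝ) < F.card := Nat.cast_pos.2 hF.card_pos
  set r : Fin S.card → G := fun i => ((e.symm i : G ⧸ H)).out
  have hmk : ∀ i, mk (r i) = (e.symm i : G ⧸ H) := fun i => QuotientGroup.out_eq' _
  have hS : ∀ g ∈ F, mk g ∈ S := fun g hg => Finset.mem_biUnion.2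
    ⟨1, Finset.mem_insert_self _ _, Finset.mem_image.2 ⟨g, hg, by rw [one_mul]⟩⟩
  set w : Fin S.card → ℝ := fun i => Real.sqrt (cnt (e.symm i) / F.card)
  have hsum : ∀ f : G ⧸ H → ℝ, ∑ i, f (e.symm i) = ∑ c ∈ S, f c := fun f =>
    (e.symm.sum_comp fun c : S => f c).trans (Finset.sum_coe_sort S f)
  refine ⟨S.card, r, w, ?_, fun i j hij h => hij ?_, fun k hk => ?_⟩
  · have : ∀ i, w i ^ 2 = cnt (e.symm i) / F.card := fun i =>
      Real.sq_sqrt (div_nonneg (Nat.cast_nonneg _) hF0.le)
    simp only [this]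
    rw [hsum fun c => cnt c / F.card, ← Finset.sum_div, div_eq_one_iff_eq hF0.ne']
    simp only [cnt]
    exact_mod_cast (Finset.card_eq_sum_card_fiberwise hS).symm
  · have h1 : mk (r i) = mk (r j) := QuotientGroup.eq.2 h
    rw [hmk, hmk] at h1
    exact e.symm.injective (Subtype.ext h1)
  · -- the coset of `k * r i`, when it meets `S`
    have hmem : ∀ i, w i ≠ 0 → mk (k * r i) ∈ S := by
      intro i hi
      have hne : (F.filter fun g => mk g = (e.symm i : G ⧸ H)).Nonempty := by
        rw [Finset.nonempty_iff_ne_empty]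
        intro h0
        exact hi (by simp [w, cnt, h0])
      obtain ⟨g, hg⟩ := hne
      obtain ⟨hg, hgi⟩ := Finset.mem_filter.1 hg
      refine Finset.mem_biUnion.2 ⟨k, Finset.mem_insert_of_mem hk, Finset.mem_image.2 ⟨g, hg, ?_⟩⟩
      rw [← hmk] at hgi
      refine QuotientGroup.eq.2 ?_
      rw [mul_inv_rev, mul_assoc, inv_mul_cancel_left]
      exact QuotientGroup.eq.1 hgi
    set σ : Fin S.card → Fin S.card := fun i =>
      if h : mk (k * r i) ∈ S then e ⟨_, h⟩ else i with hσ
    refine ⟨σ, fun i hi => ?_, ?_⟩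
    · have h1 : mk (r (σ i)) = mk (k * r i) := by rw [hmk, hσ]; simp [hmem i hi]
      exact QuotientGroup.eq.1 h1
    set cnt' : G ⧸ H → ℝ := fun c => (((F.image (k * ·)).filter fun g => mk g = c).card : ℝ)
    have key : ∀ j, (∑ i ∈ Finset.univ.filter (fun i => σ i = j), w i) =
        Real.sqrt (cnt' (e.symm j) / F.card) := by
      intro j
      set c : G ⧸ H := (e.symm j : G ⧸ H) with hc
      have hcnt : ((F.image (k * ·)).filter fun g => mk g = c) =
          ((F.filter fun g => mk g = mk (k⁻¹ * r j)).image (k * ·)) := by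
        rw [Finset.filter_image]
        congr 1
        refine Finset.filter_congr fun g _ => ?_
        rw [hc, ← hmk, QuotientGroup.eq, QuotientGroup.eq, mul_inv_rev, mul_assoc]
      by_cases hex : ∃ i, mk (r i) = mk (k⁻¹ * r j)
      · obtain ⟨i₀, hi₀⟩ := hex
        have hσ0 : σ i₀ = j := by
          have h1 : mk (k * r i₀) = c := by
            rw [hc, ← hmk]
            refine QuotientGroup.eq.2 ?_
            rw [mul_inv_rev, mul_assoc]
            exact QuotientGroup.eq.1 hi₀
          have hm : mk (k * r i₀) ∈ S := h1 ▸ (e.symm j).2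
          rw [hσ]
          simp only [hm, dif_pos]
          rw [show (⟨mk (k * r i₀), hm⟩ : S) = e.symm j from Subtype.ext h1, Equiv.apply_symm_apply]
        rw [Finset.sum_eq_single_of_mem i₀ (Finset.mem_filter.2 ⟨Finset.mem_univ _, hσ0⟩)]
        · simp only [w, cnt, cnt']
          rw [hcnt, Finset.card_image_of_injective _ (mul_right_injective k)]
          congr 4
          rw [← hi₀, hmk]
        · intro i hi hne
          by_contra hw
          refine hne (e.symm.injective (Subtype.ext ?_))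
          have hσi := (Finset.mem_filter.1 hi).2
          rw [hσ] at hσi
          simp only [hmem i hw, dif_pos] at hσi
          have h1 : mk (k * r i) = c := by
            rw [hc, ← hσi, Equiv.symm_apply_apply]
          rw [← hmk, ← hmk, hi₀]
          refine QuotientGroup.eq.2 ?_
          have h2 := QuotientGroup.eq.1 (h1.trans (hmk j).symm)
          rwa [mul_inv_rev, mul_assoc] at h2
      · push Not at hex
        have h0 : cnt' c = 0 := by
          simp only [cnt']
          rw [hcnt, Finset.card_image_of_injective _ (mul_right_injective k), Nat.cast_eq_zero,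
            Finset.card_eq_zero, Finset.filter_eq_empty_iff]
          intro g hg hgj
          exact hex (e ⟨mk g, hS g hg⟩) (by rw [hmk, Equiv.symm_apply_apply]; exact hgj)
        rw [h0, zero_div, Real.sqrt_zero]
        refine Finset.sum_eq_zero fun i hi => ?_
        by_contra hw
        refine hex i ?_
        have hσi := (Finset.mem_filter.1 hi).2
        rw [hσ] at hσi
        simp only [hmem i hw, dif_pos] at hσi
        have h1 : mk (k * r i) = c := by
          rw [hc, ← hσi, Equiv.symm_apply_apply]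
        refine QuotientGroup.eq.2 ?_
        have h2 := QuotientGroup.eq.1 (h1.trans (hmk j).symm)
        rwa [mul_inv_rev, mul_assoc] at h2
    simp only [key]
    refine (Finset.sum_le_sum fun j _ => AF.sq_sqrt_sub_le (div_nonneg (Nat.cast_nonneg _) hF0.le)
      (div_nonneg (Nat.cast_nonneg _) hF0.le)).trans ?_
    rw [hsum fun c => |cnt' c / F.card - cnt c / F.card|]
    simp only [← sub_div, abs_div, Nat.abs_cast, ← Finset.sum_div]
    rw [div_le_iff₀ hF0]
    refine le_trans ?_ (hFK k hk)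
    set Fk := F.image (k * ·)
    have hpt : ∀ c, |cnt' c - cnt c| ≤ (((Fk \ F).filter fun g => mk g = c).card : ℝ) +
        ((F \ Fk).filter fun g => mk g = c).card := by
      intro c
      simp only [cnt, cnt']
      have h1 : (Fk.filter fun g => mk g = c).card ≤
          ((Fk \ F).filter fun g => mk g = c).card + (F.filter fun g => mk g = c).card :=
        (Finset.card_le_card fun g hg => by
          simp only [Finset.mem_filter, Finset.mem_union, Finset.mem_sdiff] at hg ⊢
          tauto).trans (Finset.card_union_le _ _)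
      have h2 : (F.filter fun g => mk g = c).card ≤
          ((F \ Fk).filter fun g => mk g = c).card + (Fk.filter fun g => mk g = c).card :=
        (Finset.card_le_card fun g hg => by
          simp only [Finset.mem_filter, Finset.mem_union, Finset.mem_sdiff] at hg ⊢
          tauto).trans (Finset.card_union_le _ _)
      have h1' := (Nat.cast_le (α := ℝ)).2 h1
      have h2' := (Nat.cast_le (α := ℝ)).2 h2
      push_cast at h1' h2'
      have n1 : (0 : ℝ) ≤ (((Fk \ F).filter fun g => mk g = c).card : ℝ) := Nat.cast_nonneg _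
      have n2 : (0 : ℝ) ≤ (((F \ Fk).filter fun g => mk g = c).card : ℝ) := Nat.cast_nonneg _
      rw [abs_le]
      constructor <;> linarith
    have hsub : ∀ D : Finset G, (∑ c ∈ S, ((D.filter fun g => mk g = c).card : ℝ)) ≤ D.card :=
      fun D => by
        have := Finset.card_biUnion (s := S) (t := fun c => D.filter fun g => mk g = c)
          fun c _ c' _ hcc' => Finset.disjoint_left.2 fun g hg hg' =>
            hcc' ((Finset.mem_filter.1 hg).2.symm.trans (Finset.mem_filter.1 hg').2)
        rw [← Nat.cast_sum, Nat.cast_le, ← this]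
        exact Finset.card_le_card (Finset.biUnion_subset.2 fun c _ => Finset.filter_subset _ _)
    refine (Finset.sum_le_sum fun c _ => hpt c).trans ?_
    rw [Finset.sum_add_distrib]
    exact add_le_add (hsub _) (hsub _)

theorem exists_spread (hG : IsAmenableGroup G) (hα : ∀ g h a, α (g * h) a = α g (α h a))
    (K : Finset G) {ε : ℝ} (hε : 0 < ε) : Nonempty (Spread α K ε) := by
  obtain ⟨n, r, w, h1, h2, h3⟩ := exists_spread_subgroup hG (trivialPart hα) K hε
  exact ⟨⟨n, r, w, h1, h2, h3⟩⟩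

/-! ### Weighted sums -/

/-- A double sum whose terms are close to a diagonal. -/
theorem norm_gram_sub_le {S : Type*} [Fintype S] [DecidableEq S] (a : S → ℝ) (x y : S → A) (e : A)
    {θ : ℝ} (h : ∀ i j, ‖star (x i) * y j - (if i = j then e else 0)‖ ≤ θ) :
    ‖star (∑ i, a i • x i) * (∑ i, a i • y i) - (∑ i, a i ^ 2) • e‖ ≤ (∑ i, |a i|) ^ 2 * θ := by
  have e1 : (∑ i, a i ^ 2) • e = ∑ i, ∑ j, (a i * a j) • (if i = j then e else 0) := by
    simp only [smul_ite, smul_zero, Finset.sum_ite_eq, Finset.mem_univ, if_true, Finset.sum_smul, sq]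
  have e2 : star (∑ i, a i • x i) * (∑ i, a i • y i) = ∑ i, ∑ j, (a i * a j) • (star (x i) * y j) := by
    rw [star_sum, Finset.sum_mul]
    refine Finset.sum_congr rfl fun i _ => ?_
    rw [Finset.mul_sum]
    refine Finset.sum_congr rfl fun j _ => ?_
    rw [star_smul, star_trivial, smul_mul_smul_comm]
  rw [e1, e2, ← Finset.sum_sub_distrib, sq, Finset.sum_mul, Finset.sum_mul]
  refine norm_sum_le_of_le _ fun i _ => ?_
  rw [← Finset.sum_sub_distrib, Finset.mul_sum, Finset.sum_mul]
  refine norm_sum_le_of_le _ fun j _ => ?_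
  rw [← smul_sub, norm_smul, Real.norm_eq_abs, abs_mul]
  exact mul_le_mul_of_nonneg_left (h i j) (by positivity)

namespace Spread

variable {K : Finset G} {δ : ℝ} (P : Spread α K δ)

/-- The average of the translates of `x`. -/
def avg (x : A) : A := ∑ i, P.w i • α (P.r i) x

theorem abs_w_le (i : Fin P.n) : |P.w i| ≤ 1 := (sq_le_one_iff₀ (abs_nonneg _)).1 (by
  rw [sq_abs, ← P.w_sq]
  exact Finset.single_le_sum (f := fun i => P.w i ^ 2) (fun i _ => sq_nonneg _) (Finset.mem_univ i))

theorem sum_abs_le : ∑ i, |P.w i| ≤ P.n := by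
  refine (Finset.sum_le_sum fun i _ => P.abs_w_le i).trans ?_
  simp

variable {θ : ℝ}

/-- A bound on every translate passes to the average. -/
theorem norm_wsum_le (y : Fin P.n → A) (hθ : 0 ≤ θ) (h : ∀ i, P.w i ≠ 0 → ‖y i‖ ≤ θ) :
    ‖∑ i, P.w i • y i‖ ≤ P.n * θ := by
  refine (norm_sum_le_of_le _ (n := fun i => |P.w i| * θ) fun i _ => ?_).trans ?_
  · rw [norm_smul, Real.norm_eq_abs]
    by_cases hw : P.w i = 0
    · simp [hw]
    · exact mul_le_mul_of_nonneg_left (h i hw) (abs_nonneg _)
  · rw [← Finset.sum_mul]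
    exact mul_le_mul_of_nonneg_right P.sum_abs_le hθ

theorem commutator_le (hα : ∀ g h a, α (g * h) a = α g (α h a)) (c x : A) (hθ : 0 ≤ θ)
    (h : ∀ i, ‖α (P.r i)⁻¹ c * x - x * α (P.r i)⁻¹ c‖ ≤ θ) :
    ‖c * P.avg x - P.avg x * c‖ ≤ P.n * θ := by
  have e1 : c * P.avg x - P.avg x * c = ∑ i, P.w i • (c * α (P.r i) x - α (P.r i) x * c) := by
    simp only [avg, Finset.mul_sum, Finset.sum_mul, mul_smul_comm, smul_mul_assoc, smul_sub,
      Finset.sum_sub_distrib]
  rw [e1]
  refine P.norm_wsum_le _ hθ fun i _ => ?_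
  have e2 : c * α (P.r i) x - α (P.r i) x * c =
      α (P.r i) (α (P.r i)⁻¹ c * x - x * α (P.r i)⁻¹ c) := by
    rw [map_sub, map_mul, map_mul, AF.alpha_inv hα]
  rw [e2, StarAlgEquiv.norm_map]
  exact h i

theorem gram_le (hα : ∀ g h a, α (g * h) a = α g (α h a)) {x y e : A} (hθ : 0 ≤ θ)
    (hd : ∀ i, ‖α (P.r i) (star x * y) - e‖ ≤ θ)
    (ho : ∀ i j, i ≠ j → ‖star x * α ((P.r i)⁻¹ * P.r j) y‖ ≤ θ) :
    ‖star (P.avg x) * P.avg y - e‖ ≤ (P.n : ℝ) ^ 2 * θ := by
  have h := norm_gram_sub_le P.w (fun i => α (P.r i) x) (fun i => α (P.r i) y) e (θ := θ) fun i j => by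
    by_cases hij : i = j
    · subst hij
      rw [if_pos rfl, ← map_star, ← map_mul]
      exact hd i
    · rw [if_neg hij, sub_zero, ← map_star]
      have e1 : α (P.r i) (star x) * α (P.r j) y =
          α (P.r i) (star x * α ((P.r i)⁻¹ * P.r j) y) := by
        rw [map_mul, ← hα (P.r i), mul_inv_cancel_left]
      rw [e1, StarAlgEquiv.norm_map]
      exact ho i j hij
  rw [P.w_sq, one_smul] at h
  exact h.trans (mul_le_mul_of_nonneg_right
    (pow_le_pow_left₀ (Finset.sum_nonneg fun i _ => abs_nonneg _) P.sum_abs_le 2) hθ)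

/-- The average is almost fixed. -/
theorem invariant_le (hα : ∀ g h a, α (g * h) a = α g (α h a)) {k : G} {σ : Fin P.n → Fin P.n}
    (hσ : ∑ j, ((∑ i ∈ Finset.univ.filter (fun i => σ i = j), P.w i) - P.w j) ^ 2 ≤ δ)
    {x e : A} (hθ : 0 ≤ θ) (he : ‖e‖ ≤ 1)
    (hd : ∀ i, ‖α (P.r i) (star x * x) - e‖ ≤ θ)
    (ho : ∀ i j, i ≠ j → ‖star x * α ((P.r i)⁻¹ * P.r j) x‖ ≤ θ)
    (hfix : ∀ i, P.w i ≠ 0 → ‖α ((P.r (σ i))⁻¹ * (k * P.r i)) x - x‖ ≤ θ) :
    ‖α k (P.avg x) - P.avg x‖ ≤ P.n * θ + Real.sqrt (δ + 4 * (P.n : ℝ) ^ 2 * θ) := by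
  set w' : Fin P.n → ℝ := fun j => ∑ i ∈ Finset.univ.filter (fun i => σ i = j), P.w i
  have e1 : α k (P.avg x) - P.avg x = (∑ i, P.w i • (α k (α (P.r i) x) - α (P.r (σ i)) x)) +
      ∑ j, (w' j - P.w j) • α (P.r j) x := by
    have e2 : ∑ i, P.w i • α (P.r (σ i)) x = ∑ j, w' j • α (P.r j) x := by
      simp only [w', Finset.sum_smul]
      rw [← Finset.sum_fiberwise Finset.univ σ]
      refine Finset.sum_congr rfl fun j _ => Finset.sum_congr rfl fun i hi => ?_
      rw [(Finset.mem_filter.1 hi).2]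
    have e0 : ∀ i, α k (P.w i • α (P.r i) x) = P.w i • α k (α (P.r i) x) := fun i => by
      rw [← Complex.coe_smul, map_smul, Complex.coe_smul]
    simp only [avg, map_sum, e0, smul_sub, sub_smul, Finset.sum_sub_distrib, e2]
    abel
  rw [e1]
  refine (norm_add_le _ _).trans (add_le_add (P.norm_wsum_le _ hθ fun i hi => ?_) ?_)
  · have e3 : α k (α (P.r i) x) - α (P.r (σ i)) x =
        α (P.r (σ i)) (α ((P.r (σ i))⁻¹ * (k * P.r i)) x - x) := by
      rw [map_sub, ← hα (P.r (σ i)), mul_inv_cancel_left, hα]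
    rw [e3, StarAlgEquiv.norm_map]
    exact hfix i hi
  set T := ∑ j, (w' j - P.w j) • α (P.r j) x
  refine Real.le_sqrt_of_sq_le ?_
  have h := norm_gram_sub_le (fun j => w' j - P.w j) (fun i => α (P.r i) x) (fun i => α (P.r i) x) e
    (θ := θ) fun i j => by
      by_cases hij : i = j
      · subst hij
        rw [if_pos rfl, ← map_star, ← map_mul]
        exact hd i
      · rw [if_neg hij, sub_zero, ← map_star]
        have e4 : α (P.r i) (star x) * α (P.r j) x =
            α (P.r i) (star x * α ((P.r i)⁻¹ * P.r j) x) := by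
          rw [map_mul, ← hα (P.r i), mul_inv_cancel_left]
        rw [e4, StarAlgEquiv.norm_map]
        exact ho i j hij
  have h1 : ∑ j, |w' j - P.w j| ≤ 2 * P.n := by
    refine (Finset.sum_le_sum fun j _ => abs_sub (w' j) (P.w j)).trans ?_
    rw [Finset.sum_add_distrib]
    have h2 : ∑ j, |w' j| ≤ ∑ i, |P.w i| := by
      rw [← Finset.sum_fiberwise Finset.univ σ fun i => |P.w i|]
      exact Finset.sum_le_sum fun j _ => Finset.abs_sum_le_sum_abs _ _
    linarith [P.sum_abs_le]
  rw [sq, ← CStarRing.norm_star_mul_self]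
  have h3 := norm_sub_norm_le (star T * T) ((∑ j, (w' j - P.w j) ^ 2) • e)
  rw [norm_smul, Real.norm_of_nonneg (Finset.sum_nonneg fun j _ => sq_nonneg _)] at h3
  have h4 := mul_le_mul_of_nonneg_left he
    (Finset.sum_nonneg (s := Finset.univ) fun j _ => sq_nonneg (w' j - P.w j))
  have h5 := mul_le_mul_of_nonneg_right
    (pow_le_pow_left₀ (Finset.sum_nonneg fun j _ => abs_nonneg _) h1 2) hθ
  nlinarith [h3.trans h]

end Spread

end Vale.Agent.P095.Uni
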