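import Vale.Agent.P095.Uni.Excise

/-!
# P095: orthogonal levels in a simple infinite dimensional algebra

Every level has finitely many pairwise orthogonal levels below it: otherwise a compression
`b A b` would be one dimensional, and then the algebra would be finite dimensional.
-/

open scoped ComplexOrder
open Filter Topology

noncomputable section

namespace Vale.Agent.P095.Uni.Exc

variable {A : Type*} [CStarAlgebra A] [PartialOrder A] [StarOrderedRing A]

omit [PartialOrder A] [StarOrderedRing A] in
/-- A function of `z` vanishing near zero lies in the right ideal of `z`. -/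
theorem mul_cfc_eq {z t : A} (hz : IsSelfAdjoint z) (ht : t * z = z) {f : ℝ → ℝ}
    (hf : Continuous f) {c : ℝ} (hc : 0 < c) (h0 : ∀ x, |x| < c → f x = 0) :
    t * cfc f z = cfc f z := by
  set g : ℝ → ℝ := fun x => f x * x / max (x ^ 2) (c ^ 2)
  have hm : ∀ x : ℝ, 0 < max (x ^ 2) (c ^ 2) := fun x => lt_max_of_lt_right (by positivity)
  have hg : Continuous g := Continuous.div (by fun_prop) (by fun_prop) fun x => (hm x).ne'
  have hfac : ∀ x, x * g x = f x := by
    intro x
    rcases lt_or_ge |x| c with hx | hx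
    · simp [g, h0 x hx]
    · have : c ^ 2 ≤ x ^ 2 := by rw [← sq_abs x]; exact pow_le_pow_left₀ hc.le hx 2
      have hx0 : x ≠ 0 := fun h => by rw [h, abs_zero] at hx; linarith
      simp only [g, max_eq_left this]
      field_simp
  have e : cfc f z = z * cfc g z := by
    conv_rhs => rw [← congrArg (· * cfc g z) (cfc_id' ℝ z hz)]
    rw [← cfc_mul (fun x => x) g z continuousOn_id hg.continuousOn]
    exact (cfc_congr fun x _ => hfac x).symm
  rw [e, ← mul_assoc, ht]

omit [PartialOrder A] [StarOrderedRing A] in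
/-- An element with at most one nonzero spectral value. -/
theorem sq_eq_smul {z : A} (hz : IsSelfAdjoint z)
    (h : ¬∃ s u, s ∈ spectrum ℝ z ∧ u ∈ spectrum ℝ z ∧ s ≠ 0 ∧ u ≠ 0 ∧ s ≠ u) :
    ∃ s : ℝ, z * z = s • z := by
  obtain ⟨s, hs⟩ : ∃ s : ℝ, ∀ x ∈ spectrum ℝ z, x * x = s * x := by
    by_cases hex : ∃ x ∈ spectrum ℝ z, x ≠ 0
    · obtain ⟨s, hs, hs0⟩ := hex
      refine ⟨s, fun x hx => ?_⟩
      by_cases hx0 : x = 0
      · simp [hx0]
      · by_cases hxs : x = s
        · rw [hxs]
        · exact absurd ⟨x, s, hx, hs, hx0, hs0, hxs⟩ h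
    · refine ⟨0, fun x hx => ?_⟩
      by_contra hne
      refine hex ⟨x, hx, fun h0 => hne (by simp [h0])⟩
  refine ⟨s, ?_⟩
  calc z * z = cfc (fun x : ℝ => x * x) z := by
        rw [cfc_mul (fun x : ℝ => x) (fun x : ℝ => x) z, cfc_id' ℝ z hz]
    _ = cfc (fun x : ℝ => s * x) z := cfc_congr hs
    _ = s • z := by rw [cfc_const_mul s (fun x : ℝ => x) z, cfc_id' ℝ z hz]

omit [PartialOrder A] [StarOrderedRing A] in
theorem finiteDimensional_of_corner [IsSimpleRing A] {p : A} (hp : p ≠ 0)
    (h : ∀ a, ∃ c : ℂ, p * a * p = c • p) : FiniteDimensional ℂ A := by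
  classical
  have htop : TwoSidedIdeal.span ({p} : Set A) = ⊤ := by
    refine (eq_bot_or_eq_top _).resolve_left fun hb => hp ?_
    have := TwoSidedIdeal.subset_span (Set.mem_singleton p)
    rw [hb] at this
    exact (TwoSidedIdeal.mem_bot A).1 this
  have h1 : (1 : A) ∈ AddSubgroup.closure {x | ∃ w q, x = w * p * q} := by
    have h0 : (1 : A) ∈ TwoSidedIdeal.span ({p} : Set A) := by rw [htop]; trivial
    refine AddSubgroup.closure_mono ?_ (TwoSidedIdeal.mem_span_iff_mem_addSubgroup_closure.1 h0)
    rintro x ⟨a, ⟨w, -, q, rfl, rfl⟩, z, -, rfl⟩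
    exact ⟨w, z, rfl⟩
  have key : ∀ u ∈ AddSubgroup.closure {x | ∃ w q, x = w * p * q},
      ∀ v ∈ AddSubgroup.closure {x | ∃ w q, x = w * p * q},
        ∃ F : Finset A, ∀ a, u * a * v ∈ Submodule.span ℂ (F : Set A) := by
    intro u hu
    induction hu using AddSubgroup.closure_induction with
    | mem x hx =>
      intro v hv
      induction hv using AddSubgroup.closure_induction with
      | mem y hy =>
        obtain ⟨w, q, rfl⟩ := hx
        obtain ⟨w', q', rfl⟩ := hy
        refine ⟨{w * p * q'}, fun a => ?_⟩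
        obtain ⟨c, hc⟩ := h (q * a * w')
        have e : w * p * q * a * (w' * p * q') = c • (w * p * q') := by
          rw [show w * p * q * a * (w' * p * q') = w * (p * (q * a * w') * p) * q' by
            simp only [mul_assoc], hc, mul_smul_comm, smul_mul_assoc]
        rw [e]
        exact Submodule.smul_mem _ _ (Submodule.subset_span (by simp))
      | zero => exact ⟨∅, fun a => by simp⟩
      | add y y' _ _ hy hy' =>
        obtain ⟨F, hF⟩ := hy
        obtain ⟨F', hF'⟩ := hy'
        refine ⟨F ∪ F', fun a => ?_⟩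
        rw [mul_add, Finset.coe_union]
        exact Submodule.add_mem _ (Submodule.span_mono Set.subset_union_left (hF a))
          (Submodule.span_mono Set.subset_union_right (hF' a))
      | neg y _ hy =>
        obtain ⟨F, hF⟩ := hy
        exact ⟨F, fun a => by rw [mul_neg]; exact Submodule.neg_mem _ (hF a)⟩
    | zero => exact fun v _ => ⟨∅, fun a => by simp⟩
    | add x x' _ _ hx hx' =>
      intro v hv
      obtain ⟨F, hF⟩ := hx v hv
      obtain ⟨F', hF'⟩ := hx' v hv
      refine ⟨F ∪ F', fun a => ?_⟩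
      rw [add_mul, add_mul, Finset.coe_union]
      exact Submodule.add_mem _ (Submodule.span_mono Set.subset_union_left (hF a))
        (Submodule.span_mono Set.subset_union_right (hF' a))
    | neg x _ hx =>
      intro v hv
      obtain ⟨F, hF⟩ := hx v hv
      exact ⟨F, fun a => by rw [neg_mul, neg_mul]; exact Submodule.neg_mem _ (hF a)⟩
  obtain ⟨F, hF⟩ := key 1 h1 1 h1
  have : Submodule.span ℂ (F : Set A) = ⊤ :=
    eq_top_iff.2 fun a _ => by simpa using hF a
  exact Module.Finite.of_fg_top (this ▸ Submodule.fg_span F.finite_toSet)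

/-- An element below a level with two nonzero spectral values, unless the corner is trivial. -/
theorem exists_two_values (L : Lev A)
    (hcor : ¬∀ a, ∃ c : ℂ, L.b * a * L.b = c • L.b) :
    ∃ z : A, IsSelfAdjoint z ∧ L.top * z = z ∧
      ∃ s u, s ∈ spectrum ℝ z ∧ u ∈ spectrum ℝ z ∧ s ≠ 0 ∧ u ≠ 0 ∧ s ≠ u := by
  by_contra hno
  set b := L.b with hb
  have hbsa : IsSelfAdjoint b := IsSelfAdjoint.of_nonneg L.b_nonneg
  have one : ∀ z : A, IsSelfAdjoint z → L.top * z = z → ∃ s : ℝ, z * z = s • z :=
    fun z hz hzt => sq_eq_smul hz fun h => hno ⟨z, hz, hzt, h⟩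
  obtain ⟨c, hc⟩ := one b hbsa L.top_mul
  have hb0 : b ≠ 0 := fun h => by
    have := L.norm_b
    rw [← hb, h, norm_zero] at this
    exact zero_ne_one this
  have hc1 : b * b = b := by
    have hc0 : 0 ≤ c := by
      by_contra hneg
      push Not at hneg
      have h1 : (0 : A) ≤ b * b := by
        have := star_mul_self_nonneg b
        rwa [hbsa.star_eq] at this
      have h2 : b * b ≤ 0 := by
        rw [hc, ← neg_neg c, neg_smul]
        exact neg_nonpos.2 (smul_nonneg (by linarith) L.b_nonneg)
      have h3 : star b * b = 0 := by rw [hbsa.star_eq]; exact le_antisymm h2 h1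
      exact hb0 ((CStarRing.star_mul_self_eq_zero_iff b).1 h3)
    have h1 : ‖b * b‖ = 1 := by
      conv_lhs => rw [← congrArg (· * b) hbsa.star_eq]
      rw [CStarRing.norm_star_mul_self, hb, L.norm_b, one_mul]
    rw [hc, norm_smul, hb, L.norm_b, mul_one, Real.norm_of_nonneg hc0] at h1
    rw [hc, h1, one_smul]
  -- every selfadjoint element of the corner is a multiple of `b`
  have key : ∀ z : A, IsSelfAdjoint z → b * z = z → z * b = z → ∃ t : ℝ, z = t • b := by
    intro z hz hbz hzb
    by_contra hnot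
    have mk : ∀ w : A, IsSelfAdjoint w → b * w = w → L.top * w = w := fun w _ hw => by
      rw [← hw, ← mul_assoc, L.top_mul]
    have main : ∀ w : A, IsSelfAdjoint w → b * w = w → w * b = w → (∀ t : ℝ, w ≠ t • b) →
        w * w = -w := by
      intro w hw hbw hwb hwn
      obtain ⟨s, hs⟩ := one w hw (mk w hw hbw)
      have hsum : b * (w + b) = w + b := by rw [mul_add, hbw, hc1]
      obtain ⟨u, hu⟩ := one (w + b) (hw.add hbsa) (mk _ (hw.add hbsa) hsum)
      have e : (s + 2 - u) • w = (u - 1) • b := by
        have h1 : (w + b) * (w + b) = s • w + (w + w + b) := by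
          rw [add_mul, mul_add, mul_add, hbw, hwb, hs, hc1]; abel
        rw [hu, smul_add] at h1
        rw [sub_smul, add_smul, two_smul, sub_smul, one_smul]
        calc s • w + (w + w) - u • w = (s • w + (w + w + b)) - u • w - b := by abel
          _ = u • b - b := by rw [← h1]; abel
      by_cases hk : s + 2 - u = 0
      · have hu1 : u = 1 := by
          rw [hk, zero_smul] at e
          have h2 := e.symm
          rw [smul_eq_zero] at h2
          linarith [h2.resolve_right hb0]
        rw [hs, show s = -1 by linarith, neg_smul, one_smul]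
      · refine absurd ?_ (hwn ((s + 2 - u)⁻¹ * (u - 1)))
        rw [mul_smul, ← e, smul_smul, inv_mul_cancel₀ hk, one_smul]
    push Not at hnot
    have h1 := main z hz hbz hzb hnot
    have h2 := main (-z) hz.neg (by rw [mul_neg, hbz]) (by rw [neg_mul, hzb]) fun t ht =>
      hnot (-t) (by rw [neg_smul, ← ht, neg_neg])
    rw [neg_mul_neg, neg_neg, h1] at h2
    refine hnot 0 ?_
    have h3 : (2 : ℝ) • z = 0 := by
      rw [two_smul]
      nth_rw 1 [← h2]
      exact neg_add_cancel z
    rw [zero_smul]
    exact (smul_eq_zero.1 h3).resolve_left two_ne_zero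
  refine hcor fun a => ?_
  set x := b * a * b with hx
  have hbx : b * x = x := by rw [hx, ← mul_assoc, ← mul_assoc, hc1]
  have hxb : x * b = x := by rw [hx, mul_assoc, hc1]
  have hbx' : b * star x = star x := by
    have := congrArg star hxb
    rwa [star_mul, hbsa.star_eq] at this
  have hxb' : star x * b = star x := by
    have := congrArg star hbx
    rwa [star_mul, hbsa.star_eq] at this
  obtain ⟨t, ht⟩ := key (x + star x) (IsSelfAdjoint.add_star_self x)
    (by rw [mul_add, hbx, hbx']) (by rw [add_mul, hxb, hxb'])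
  obtain ⟨t', ht'⟩ := key (Complex.I • (star x - x)) (by
      rw [IsSelfAdjoint, star_smul, star_sub, star_star, Complex.star_def, Complex.conj_I,
        ← neg_sub (star x) x, smul_neg, neg_smul, neg_neg])
    (by rw [mul_smul_comm, mul_sub, hbx, hbx']) (by rw [smul_mul_assoc, sub_mul, hxb, hxb'])
  refine ⟨((t : ℂ) + Complex.I * t') / 2, ?_⟩
  rw [← Complex.coe_smul] at ht ht'
  have e : (2 : ℂ) • x = ((t : ℂ) + Complex.I * t') • b := by
    rw [add_smul, mul_smul, ← ht, ← ht', smul_smul, Complex.I_mul_I, neg_one_smul, two_smul]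
    abel
  rw [div_eq_inv_mul, mul_smul, ← e, smul_smul, inv_mul_cancel₀ two_ne_zero, one_smul]

theorem orth_of_fixed {D : Lev A} {u w : A} (hD : ∀ t, t * w = w → t * D.top = D.top)
    (h : u * w = 0) : u * D.top = 0 := by
  have h1 := hD (1 + u) (by rw [add_mul, one_mul, h, add_zero])
  rw [add_mul, one_mul] at h1
  exact add_left_cancel (h1.trans (add_zero _).symm)

/-- Two orthogonal levels below a level. -/
theorem exists_split (L : Lev A) (hcor : ¬∀ a, ∃ c : ℂ, L.b * a * L.b = c • L.b) :
    ∃ D E : Lev A, D.Below L ∧ E.Below L ∧ D.top * E.top = 0 := by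
  have : Nontrivial A := ⟨⟨L.b, 0, fun h => by simpa [h] using L.norm_b⟩⟩
  obtain ⟨z, hz, hLz, s, u, hs, hu, hs0, hu0, hsu⟩ := exists_two_values L hcor
  have hsu' : 0 < |s - u| := abs_pos.2 (sub_ne_zero.2 hsu)
  set r := min (|s - u| / 2) (min (|s| / 2) (|u| / 2)) with hr
  have hs' := abs_pos.2 hs0
  have hu' := abs_pos.2 hu0
  have hr0 : 0 < r := lt_min (by linarith) (lt_min (by linarith) (by linarith))
  set f : ℝ → ℝ → ℝ := fun a x => max 0 (1 - |x - a| / r) with hf
  have hfc : ∀ a, Continuous (f a) := fun a => by fun_prop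
  have hfar : ∀ a x, r ≤ |x - a| → f a x = 0 := fun a x hx => by
    refine max_eq_left (sub_nonpos.2 ?_)
    rw [le_div_iff₀ hr0]; linarith
  have mk : ∀ a ∈ spectrum ℝ z, r ≤ |a| / 2 →
      ∃ D : Lev A, D.Below L ∧ ∀ t, t * cfc (f a) z = cfc (f a) z → t * D.top = D.top := by
    intro a ha har
    have hw0 : 0 ≤ cfc (f a) z := cfc_nonneg fun x _ => le_max_left _ _
    have h1 : (1 : ℝ) ∈ spectrum ℝ (cfc (f a) z) := by
      rw [cfc_map_spectrum (f a) z hz (hfc a).continuousOn]
      exact ⟨a, ha, by simp [hf]⟩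
    obtain ⟨D, hD, -⟩ := exists_bump (IsSelfAdjoint.of_nonneg hw0) h1 (r := 1 / 2)
      (by norm_num) (by norm_num)
    refine ⟨D, hD _ (mul_cfc_eq hz hLz (hfc a) (lt_of_lt_of_le hr0 har) fun x hx => hfar a x ?_), hD⟩
    have := abs_sub_abs_le_abs_sub a x
    rw [abs_sub_comm a x] at this
    linarith
  obtain ⟨D, hDL, hD⟩ := mk s hs ((min_le_right _ _).trans (min_le_left _ _))
  obtain ⟨E, hEL, hE⟩ := mk u hu ((min_le_right _ _).trans (min_le_right _ _))
  refine ⟨D, E, hDL, hEL, orth_of_fixed hE ?_⟩
  have h0 : cfc (f u) z * cfc (f s) z = 0 := by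
    rw [← cfc_mul (f u) (f s) z (hfc u).continuousOn (hfc s).continuousOn, ← cfc_zero ℝ z]
    refine cfc_congr fun x _ => ?_
    rcases le_or_gt r |x - s| with h | h
    · simp [hfar s x h]
    · have h2 : r ≤ |x - u| := by
        have := abs_sub_le s x u
        rw [abs_sub_comm s x] at this
        linarith [min_le_left (|s - u| / 2) (min (|s| / 2) (|u| / 2))]
      simp [hfar u x h2]
  have h2 := congrArg star (orth_of_fixed hD h0)
  rw [star_mul, D.sa, star_zero, (IsSelfAdjoint.cfc (f := f u) (a := z)).star_eq] at h2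
  exact h2

/-- Pairwise orthogonal levels below a level, for a hereditary class of levels without trivial
corners. -/
theorem exists_orth_of (P : Lev A → Prop) (hP : ∀ D L : Lev A, D.Below L → P L → P D)
    (hcor : ∀ L, P L → ¬∀ a, ∃ c : ℂ, L.b * a * L.b = c • L.b) :
    ∀ (N : ℕ) (L : Lev A), P L → ∃ D : Fin N → Lev A, (∀ i, (D i).Below L) ∧
      ∀ i j, i ≠ j → (D i).top * (D j).top = 0
  | 0, _, _ => ⟨Fin.elim0, fun i => i.elim0, fun i => i.elim0⟩
  | N + 1, L, hL => by
    obtain ⟨D₀, E, hD₀, hE, h0⟩ := exists_split L (hcor L hL)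
    obtain ⟨D, hD, horth⟩ := exists_orth_of P hP hcor N E (hP E L hE hL)
    have hDE : ∀ i, D₀.top * (D i).top = 0 := fun i => by
      rw [← hD i, ← mul_assoc, h0, zero_mul]
    refine ⟨Fin.cons D₀ D, Fin.cases hD₀ fun i => (hD i).trans hE, ?_⟩
    intro i j hij
    induction i using Fin.cases with
    | zero =>
      induction j using Fin.cases with
      | zero => exact absurd rfl hij
      | succ j => simpa using hDE j
    | succ i =>
      induction j using Fin.cases with
      | zero =>
        have h2 := congrArg star (hDE i)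
        rw [star_mul, Lev.sa, Lev.sa, star_zero] at h2
        simpa using h2
      | succ j => simpa using horth i j fun h => hij (congrArg Fin.succ h)

/-- Pairwise orthogonal levels below a level. -/
theorem exists_orth [IsSimpleRing A] (hinf : ¬FiniteDimensional ℂ A) (N : ℕ) (L : Lev A) :
    ∃ D : Fin N → Lev A, (∀ i, (D i).Below L) ∧ ∀ i j, i ≠ j → (D i).top * (D j).top = 0 :=
  exists_orth_of (fun _ => True) (fun _ _ _ _ => trivial)
    (fun L _ h => hinf (finiteDimensional_of_corner (fun h0 => by simpa [h0] using L.norm_b) h))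
    N L trivial

end Vale.Agent.P095.Uni.Exc
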