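import Vale.Agent.P095.Uni.Goals

/-!
# P095: the identity of a nuclear simple algebra is approximated by one-step maps through any state

Everything takes place in `A` with the seminorm `d ↦ φ (d⋆ d)`; no completion is needed. As `A` is
simple and infinite dimensional no nonzero element has finite rank for this seminorm, so the
matrices `(φ (dᵢ⋆ y dⱼ))` with all `dᵢ` orthogonal to a prescribed finite set already approximate
every completely positive map into matrices, on finitely many `y`.
-/

open scoped ComplexOrder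
open Filter Topology Matrix

noncomputable section

namespace Vale.Agent.P095.Uni.OneStep

section form

variable {R : Type*} [Ring R] [StarRing R] [Algebra ℂ R] [StarModule ℂ R] {ι : Type*} [Fintype ι]

/-- The sesquilinear form of a matrix. -/
def quad (P : ι → ι → R) (b : ι → R) : R := ∑ i, ∑ j, star (b i) * P i j * b j

omit [Algebra ℂ R] [StarModule ℂ R] in
theorem star_quad (P : ι → ι → R) (b : ι → R) :
    star (quad P b) = quad (fun i j => star (P j i)) b := by
  simp only [quad, star_sum, star_mul, star_star, mul_assoc]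
  exact Finset.sum_comm

/-- A matrix whose form has only self-adjoint values is self-adjoint. -/
theorem star_apply_of_quad (P : ι → ι → R) (h : ∀ b, star (quad P b) = quad P b) (i j : ι) :
    star (P i j) = P j i := by
  classical
  set D : ι → ι → R := fun k l => star (P l k) - P k l with hD
  have hq : ∀ b, quad D b = 0 := fun b => by
    have := h b
    rw [star_quad] at this
    rw [← sub_eq_zero.2 this]
    simp [quad, hD, mul_sub, sub_mul, Finset.sum_sub_distrib]
  have key : ∀ (k l : ι) (z : ℂ),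
      D k k + z • D k l + star z • D l k + (star z * z) • D l l = 0 := by
    intro k l z
    rw [← hq (Pi.single k 1 + Pi.single l (z • 1))]
    simp only [quad, Pi.add_apply, Pi.single_apply, star_add, add_mul, mul_add,
      apply_ite (star : R → R), star_zero, star_one, star_smul, ite_mul, mul_ite, zero_mul,
      mul_zero, one_mul, mul_one, Finset.sum_add_distrib, Finset.sum_ite_eq', Finset.mem_univ,
      if_true, smul_mul_assoc, mul_smul_comm, smul_add, smul_ite, smul_zero, smul_smul]
    module
  have hd : ∀ k, D k k = 0 := fun k => by simpa using key k k 0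
  have h1 := key j i 1
  have h2 := key j i Complex.I
  simp only [hd, one_smul, star_one, smul_zero, add_zero, zero_add, Complex.star_def,
    Complex.conj_I, neg_smul, ← sub_eq_add_neg, ← smul_sub, smul_eq_zero, Complex.I_ne_zero,
    false_or, sub_eq_zero] at h1 h2
  have h3 : (2 : ℂ) • D j i = 0 := by rw [two_smul]; nth_rw 2 [h2]; exact h1
  exact sub_eq_zero.1 ((smul_eq_zero.1 h3).resolve_left two_ne_zero)

end form

/-- The negative part of a self-adjoint element, packaged for use in an algebra of matrices. -/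
theorem exists_split {B : Type*} [CStarAlgebra B] (M : B) (hM : IsSelfAdjoint M) :
    ∃ N S : B, star N = N ∧ star S * S = -(N * M * N) ∧ (S = 0 → ∃ T, M = star T * T) := by
  let := CStarAlgebra.spectralOrder B
  have := CStarAlgebra.spectralOrderedRing B
  set N := M⁻ with hNdef
  have hN : 0 ≤ N := CFC.negPart_nonneg M
  have hNs := (IsSelfAdjoint.of_nonneg hN).star_eq
  have hNM : N * M = -(N * N) := by
    have e : N * M = N * (M⁺ - M⁻) := by rw [CFC.posPart_sub_negPart M hM]
    rw [e, hNdef, mul_sub, CFC.negPart_mul_posPart, zero_sub]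
  refine ⟨N, CFC.sqrt N * N, hNs, ?_, fun hS => ?_⟩
  · rw [star_mul, hNs, (IsSelfAdjoint.of_nonneg (CFC.sqrt_nonneg N)).star_eq, hNM, neg_mul,
      neg_neg, mul_assoc, ← mul_assoc (CFC.sqrt N), CFC.sqrt_mul_sqrt_self N hN, mul_assoc]
  have hN2 : N * N = 0 := by
    calc N * N = CFC.sqrt N * (CFC.sqrt N * N) := by
          rw [← mul_assoc, CFC.sqrt_mul_sqrt_self N hN]
      _ = 0 := by rw [hS, mul_zero]
  have hN0 : N = 0 := (CStarRing.star_mul_self_eq_zero_iff _).1 <| by rw [hNs, hN2]
  have hpos : 0 ≤ M := by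
    rw [← CFC.posPart_sub_negPart M hM, ← hNdef, hN0, sub_zero]; exact CFC.posPart_nonneg M
  exact CStarAlgebra.nonneg_iff_eq_star_mul_self.1 hpos

variable {A : Type*} [CStarAlgebra A] [PartialOrder A] [StarOrderedRing A]

/-- A matrix with positive form is a Gram matrix. -/
theorem exists_gram {ι : Type*} [Fintype ι] (P : ι → ι → A) (h : ∀ b, 0 ≤ quad P b) :
    ∃ x : ι → ι → A, ∀ i j, P i j = ∑ r, star (x r i) * x r j := by
  classical
  have hsa := star_apply_of_quad P fun b => (IsSelfAdjoint.of_nonneg (h b)).star_eq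
  set M : CStarMatrix ι ι A := CStarMatrix.ofMatrix P with hMdef
  have hM : IsSelfAdjoint M := CStarMatrix.ext fun i j => hsa j i
  obtain ⟨N, S, hN, hSS, hS⟩ := exists_split M hM
  have hdiag : ∀ j r, S r j = 0 := by
    intro j
    have e1 : (star S * S) j j = ∑ r, star (S r j) * S r j := by
      simp [CStarMatrix.mul_apply, CStarMatrix.star_apply]
    have e2 : (N * M * N) j j = quad P fun i => N i j := by
      simp only [CStarMatrix.mul_apply, Finset.sum_mul, quad]
      rw [Finset.sum_comm]
      refine Finset.sum_congr rfl fun i _ => Finset.sum_congr rfl fun k _ => ?_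
      congr 2
      conv_lhs => rw [← hN]
      exact CStarMatrix.star_apply
    have hle : ∑ r, star (S r j) * S r j ≤ 0 := by
      rw [← e1, hSS, CStarMatrix.neg_apply, neg_nonpos, e2]
      exact h _
    intro r
    have h0 := (Finset.sum_eq_zero_iff_of_nonneg fun r _ => star_mul_self_nonneg (S r j)).1
      (le_antisymm hle (Finset.sum_nonneg fun r _ => star_mul_self_nonneg (S r j))) r
      (Finset.mem_univ r)
    exact CStarRing.star_mul_self_eq_zero_iff _ |>.1 h0
  obtain ⟨T, hT⟩ := hS (CStarMatrix.ext fun r j => hdiag j r)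
  refine ⟨fun r i => T r i, fun i j => ?_⟩
  calc P i j = (star T * T) i j := by rw [← hT]; rfl
    _ = _ := by simp [CStarMatrix.mul_apply, CStarMatrix.star_apply]

variable (f : A →ₚ[ℂ] ℂ) {ι : Type*}

/-- Orthogonality of all entries to a finite set. -/
def Orth (F : Finset A) (d : ι → A) : Prop := ∀ v ∈ F, ∀ i, f (star v * d i) = 0

/-- The values of the one-step map given by `d`. -/
def vals (C : Finset A) (d : ι → A) : C → ι → ι → ℂ :=
  fun y i j => f (star (d i) * y * d j)

theorem conj_form_le (a : A) {b c : A} (h : b ≤ c) : f (star a * b * a) ≤ f (star a * c * a) :=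
  OrderHomClass.mono f (star_left_conjugate_le_conjugate h a)

theorem mul_null (y d : A) (hd : f (star d * d) = 0) : f (star (y * d) * (y * d)) = 0 := by
  refine le_antisymm ?_ (map_nonneg f (star_mul_self_nonneg _))
  have h1 : star y * y ≤ algebraMap ℝ A ‖star y * y‖ :=
    IsSelfAdjoint.le_algebraMap_norm_self (IsSelfAdjoint.star_mul_self y)
  refine (le_of_eq (by rw [star_mul]; simp only [mul_assoc])).trans
    ((conj_form_le f d h1).trans (le_of_eq ?_))
  rw [Algebra.algebraMap_eq_smul_one, mul_smul_comm, mul_one, smul_mul_assoc, ← Complex.coe_smul,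
    map_smul, hd, smul_zero]

theorem add_null (a b : A) (ha : f (star a * a) = 0) (hb : f (star b * b) = 0) :
    f (star (a + b) * (a + b)) = 0 := by
  refine le_antisymm ?_ (map_nonneg f (star_mul_self_nonneg _))
  have h : star (a + b) * (a + b) + star (a - b) * (a - b) =
      (star a * a + star b * b) + (star a * a + star b * b) := by
    simp only [star_add, star_sub]; noncomm_ring
  have := congrArg f h
  simp only [map_add, ha, hb, add_zero] at this
  rw [← this]
  exact le_add_of_nonneg_right (map_nonneg f (star_mul_self_nonneg _))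

/-- Finite rank for the seminorm of `f`. -/
def FinRank (z : A) : Prop :=
  ∃ F : Finset A, ∀ d, (∀ v ∈ F, f (star v * d) = 0) → f (star (z * d) * (z * d)) = 0

theorem finRank_ideal : ∃ I : TwoSidedIdeal A, ∀ z, z ∈ I ↔ FinRank f z := by
  classical
  refine ⟨.mk' {z | FinRank f z} ⟨∅, fun d _ => by simp⟩ ?_ ?_ ?_ ?_, fun z =>
    TwoSidedIdeal.mem_mk' ..⟩
  · rintro x y ⟨F, hF⟩ ⟨F', hF'⟩
    refine ⟨F ∪ F', fun d hd => ?_⟩
    rw [add_mul]
    exact add_null f _ _ (hF d fun v hv => hd v (Finset.mem_union_left _ hv))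
      (hF' d fun v hv => hd v (Finset.mem_union_right _ hv))
  · rintro x ⟨F, hF⟩
    exact ⟨F, fun d hd => by simpa using hF d hd⟩
  · rintro x y ⟨F, hF⟩
    exact ⟨F, fun d hd => by rw [mul_assoc]; exact mul_null f x _ (hF d hd)⟩
  · rintro x y ⟨F, hF⟩
    refine ⟨F.image (star y * ·), fun d hd => ?_⟩
    rw [mul_assoc]
    refine hF _ fun v hv => ?_
    have := hd _ (Finset.mem_image_of_mem _ hv)
    rwa [star_mul, star_star, mul_assoc] at this

/-- Only zero has finite rank. -/
theorem finRank_eq_zero [IsSimpleRing A] (hinf : ¬FiniteDimensional ℂ A) (hf : f 1 = 1) {z : A}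
    (hz : FinRank f z) : z = 0 := by
  classical
  by_contra hz0
  obtain ⟨I, hI⟩ := finRank_ideal f
  obtain hbot | htop := eq_bot_or_eq_top I
  · exact hz0 (by simpa [hbot] using (hI z).2 hz)
  obtain ⟨F, hF⟩ := (hI 1).1 (htop ▸ trivial)
  let L : A →ₗ[ℂ] F → ℂ := LinearMap.pi fun v =>
    f.toLinearMap ∘ₗ LinearMap.mulLeft ℂ (star (v : A))
  obtain ⟨m, e, he⟩ := Submodule.fg_iff_exists_fin_generating_family.1
    (IsNoetherian.noetherian (LinearMap.range L))
  choose w hw using fun i => (he ▸ Submodule.subset_span ⟨i, rfl⟩ : e i ∈ LinearMap.range L)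
  let T : A →ₗ[ℂ] Fin m → F → ℂ := LinearMap.pi fun i => L ∘ₗ LinearMap.mulRight ℂ (w i)
  refine hinf (FiniteDimensional.of_injective T ((injective_iff_map_eq_zero T).2 fun a ha => ?_))
  have hnull : ∀ d, L d = 0 → f (star d * d) = 0 := fun d hd => by
    simpa using hF d fun v hv => congrFun hd ⟨v, hv⟩
  have hall : ∀ d, f (star (a * d) * (a * d)) = 0 := by
    intro d
    have : L d ∈ Submodule.span ℂ (Set.range e) := he ▸ LinearMap.mem_range_self L d
    obtain ⟨c, hc⟩ := Submodule.mem_span_range_iff_exists_fun ℂ |>.1 this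
    have h1 : f (star (a * (d - ∑ i, c i • w i)) * (a * (d - ∑ i, c i • w i))) = 0 :=
      mul_null f a _ (hnull _ (by simp [map_sum, hw, hc]))
    have h2 : f (star (∑ i, c i • (a * w i)) * ∑ i, c i • (a * w i)) = 0 :=
      hnull _ (by
        rw [map_sum]
        exact Finset.sum_eq_zero fun i _ => by
          rw [map_smul, show L (a * w i) = 0 from congrFun ha i, smul_zero])
    have e3 : a * d = a * (d - ∑ i, c i • w i) + ∑ i, c i • (a * w i) := by
      simp [mul_sub, Finset.mul_sum]
    rw [e3]
    exact add_null f _ _ h1 h2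
  let J : TwoSidedIdeal A := .mk' {b | ∀ d, f (star (b * d) * (b * d)) = 0} (fun d => by simp)
    (fun {x y} hx hy d => by rw [add_mul]; exact add_null f _ _ (hx d) (hy d))
    (fun {x} hx d => by simpa using hx d)
    (fun {x y} hy d => by rw [mul_assoc]; exact mul_null f x _ (hy d))
    (fun {x y} hx d => by rw [mul_assoc]; exact hx _)
  obtain hJ | hJ := eq_bot_or_eq_top J
  · exact (TwoSidedIdeal.mem_bot A).1 (hJ ▸ (TwoSidedIdeal.mem_mk' ..).2 hall : a ∈ (⊥ : TwoSidedIdeal A))
  · have := (TwoSidedIdeal.mem_mk' ..).1 (show (1 : A) ∈ J from hJ ▸ trivial) 1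
    simp [hf] at this

theorem norm_form_le (k : A) (hk : f (star k * k) = 1) (w : A) :
    ‖f (star k * w * k)‖ ≤ 2 * ‖w‖ := by
  have hsab : ∀ w : A, IsSelfAdjoint w → ‖f (star k * w * k)‖ ≤ ‖w‖ := by
    intro w hw
    have h1 := conj_form_le f k hw.le_algebraMap_norm_self
    have h2 := conj_form_le f k hw.neg_algebraMap_norm_le_self
    simp only [Algebra.algebraMap_eq_smul_one, ← Complex.coe_smul, mul_smul_comm, mul_one,
      smul_mul_assoc, map_smul, hk, smul_eq_mul, mul_neg, neg_mul, map_neg] at h1 h2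
    obtain ⟨h3, h4⟩ := Complex.le_def.1 h1
    have h5 := (Complex.le_def.1 h2).1
    simp only [Complex.ofReal_re, Complex.ofReal_im, Complex.neg_re] at h3 h4 h5
    rw [show f (star k * w * k) = ((f (star k * w * k)).re : ℂ) from
      Complex.ext (by simp) (by simp [h4]), Complex.norm_real, Real.norm_eq_abs]
    exact abs_le.2 ⟨h5, h3⟩
  conv_lhs => rw [← realPart_add_I_smul_imaginaryPart w]
  simp only [mul_add, add_mul, map_add, mul_smul_comm, smul_mul_assoc, map_smul]
  refine (norm_add_le _ _).trans ?_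
  rw [norm_smul, Complex.norm_I, one_mul, two_mul]
  exact add_le_add ((hsab _ (realPart w).2).trans (realPart.norm_le w))
    ((hsab _ (imaginaryPart w).2).trans (imaginaryPart.norm_le w))

/-- A self-adjoint element with spectrum above zero is positive on vectors orthogonal to any finite
set. -/
theorem exists_pick [IsSimpleRing A] (hinf : ¬FiniteDimensional ℂ A) (hf : f 1 = 1) {a : A}
    (ha : IsSelfAdjoint a) (hna : ¬a ≤ 0) : ∃ γ : ℝ, 0 < γ ∧ ∀ F : Finset A, ∃ k : A,
      (∀ v ∈ F, f (star v * k) = 0) ∧ f (star k * k) = 1 ∧ γ ≤ (f (star k * a * k)).re := by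
  classical
  obtain ⟨t, ht, ht0⟩ : ∃ t ∈ spectrum ℝ a, 0 < t := by
    by_contra hc
    push Not at hc
    refine hna ?_
    rw [← cfc_id' ℝ a ha]
    exact cfc_nonpos (fun s : ℝ => s) a hc
  refine ⟨t / 2, half_pos ht0, fun F => ?_⟩
  set γ := t / 2 with hγ
  set z := cfc (fun s : ℝ => max (s - γ) 0) a with hz
  have hzne : z ≠ 0 := fun h => by
    have h1 : cfc (fun s : ℝ => max (s - γ) 0) a = cfc (fun _ : ℝ => (0 : ℝ)) a := by
      rw [cfc_const_zero]; exact hz.symm.trans h
    have h2 : max (t - γ) 0 = 0 :=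
      eqOn_of_cfc_eq_cfc h1 (by fun_prop) (by fun_prop) ha ht
    linarith [le_max_left (t - γ) 0]
  have hzs : star z = z := (cfc_predicate (fun s : ℝ => max (s - γ) 0) a).star_eq
  have hzaz : γ • (z * z) ≤ z * a * z := by
    conv_rhs => arg 1; arg 2; rw [← cfc_id' ℝ a ha]
    rw [hz, ← cfc_mul _ _ a, ← cfc_smul γ _ a, ← cfc_mul _ _ a, ← cfc_mul _ _ a]
    refine cfc_mono fun s _ => ?_
    rcases le_total s γ with hs | hs
    · simp [max_eq_right (sub_nonpos.2 hs)]
    · simp only [smul_eq_mul, max_eq_left (sub_nonneg.2 hs)]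
      nlinarith [sq_nonneg (s - γ)]
  have hnot : ¬FinRank f z := fun h => hzne (finRank_eq_zero f hinf hf h)
  simp only [FinRank, not_exists, not_forall, exists_prop] at hnot
  obtain ⟨e, he, he0⟩ := hnot (F.image (star z * ·))
  set N := f (star (z * e) * (z * e)) with hN
  have hN0 : 0 < N := lt_of_le_of_ne (map_nonneg f (star_mul_self_nonneg _)) (Ne.symm he0)
  obtain ⟨hNre, hNim⟩ := Complex.pos_iff.1 hN0
  set s : ℂ := Complex.ofReal (Real.sqrt N.re)⁻¹ with hs
  have hsN : s * s * N = 1 := by
    rw [hs, ← Complex.ofReal_mul, ← mul_inv, Real.mul_self_sqrt hNre.le]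
    apply Complex.ext <;> simp [hNre.ne', ← hNim]
  have hss : star s = s := by rw [hs]; exact Complex.conj_ofReal _
  refine ⟨s • (z * e), fun v hv => ?_, ?_, ?_⟩
  · have := he _ (Finset.mem_image_of_mem _ hv)
    simp only [star_mul, star_star, mul_assoc] at this
    simp [this]
  · rw [star_smul, smul_mul_smul_comm, hss, map_smul, smul_eq_mul, ← hN, hsN]
  · have e1 : star (s • (z * e)) * a * (s • (z * e)) = (s * s) • (star e * (z * a * z) * e) := by
      simp only [star_smul, hss, star_mul, hzs, smul_mul_assoc, mul_smul_comm, smul_smul, mul_assoc]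
    have e2 : star e * (γ • (z * z)) * e = (γ : ℂ) • (star (z * e) * (z * e)) := by
      simp only [← Complex.coe_smul, star_mul, hzs, smul_mul_assoc, mul_smul_comm, mul_assoc]
    have h3 := conj_form_le f e hzaz
    rw [e2, map_smul, smul_eq_mul, ← hN] at h3
    have h4 := mul_le_mul_of_nonneg_left h3 (show 0 ≤ s * s by
      rw [hs, ← Complex.ofReal_mul]; exact Complex.zero_le_real.2 (mul_self_nonneg _))
    rw [← mul_assoc, mul_comm (s * s), mul_assoc, hsN, mul_one, ← smul_eq_mul (s * s),
      ← map_smul, ← e1] at h4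
    simpa using (Complex.le_def.1 h4).1

/-- The limits of one-step maps with entries orthogonal to arbitrary finite sets. -/
def lims (C : Finset A) : Set (C → ι → ι → ℂ) :=
  ⋂ F : Finset A, closure (vals f C '' {d : ι → A | Orth f F d})

variable [Fintype ι]

omit [StarOrderedRing A] [Fintype ι] in
theorem lims_smul (C : Finset A) {p : C → ι → ι → ℂ} (hp : p ∈ lims f C) {t : ℝ} (ht : 0 ≤ t) :
    t • p ∈ lims f C := by
  refine Set.mem_iInter.2 fun F => map_mem_closure (continuous_const_smul t) (Set.mem_iInter.1 hp F) ?_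
  rintro _ ⟨d, hd, rfl⟩
  refine ⟨fun i => (Real.sqrt t : ℂ) • d i, fun v hv i => by simp [hd v hv i], ?_⟩
  funext y i j
  simp [vals, star_smul, ← mul_assoc, ← Complex.ofReal_mul,
    Real.mul_self_sqrt ht]

theorem lims_add (C : Finset A) {p q : C → ι → ι → ℂ} (hp : p ∈ lims f C) (hq : q ∈ lims f C) :
    p + q ∈ lims f C := by
  classical
  refine Set.mem_iInter.2 fun F => Metric.mem_closure_iff.2 fun ε hε => ?_
  obtain ⟨_, ⟨d, hd, rfl⟩, h1⟩ :=
    Metric.mem_closure_iff.1 (Set.mem_iInter.1 hp F) (ε / 2) (half_pos hε)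
  let X : Finset A := ((Finset.univ : Finset ι) ×ˢ (C ∪ C.image star)).image fun x => x.2 * d x.1
  obtain ⟨_, ⟨e, he, rfl⟩, h2⟩ :=
    Metric.mem_closure_iff.1 (Set.mem_iInter.1 hq (F ∪ X)) (ε / 2) (half_pos hε)
  have hX : ∀ w ∈ C ∪ C.image star, ∀ i j, f (star (w * d i) * e j) = 0 := fun w hw i j =>
    he _ (Finset.mem_union_right _ (Finset.mem_image.2
      ⟨(i, w), Finset.mem_product.2 ⟨Finset.mem_univ i, hw⟩, rfl⟩)) j
  refine ⟨_, ⟨d + e, fun v hv i => ?_, rfl⟩, ?_⟩
  · simp [mul_add, hd v hv i, he v (Finset.mem_union_left _ hv) i]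
  have key : vals f C (d + e) = vals f C d + vals f C e := by
    funext y i j
    have e1 : f (star (d i) * y * e j) = 0 := by
      simpa [star_mul, mul_assoc] using
        hX (star (y : A)) (Finset.mem_union_right _ (Finset.mem_image_of_mem _ y.2)) i j
    have e2 : f (star (e i) * y * d j) = 0 := by
      have h0 := hX (y : A) (Finset.mem_union_left _ y.2) j i
      have := map_star f (star ((y : A) * d j) * e i)
      rw [h0, star_zero, star_mul, star_star, ← mul_assoc] at this
      exact this
    simp only [vals, Pi.add_apply, star_add, add_mul, mul_add, map_add, e1, e2]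
    abel
  rw [key]
  exact (dist_add_add_le _ _ _ _).trans_lt (by linarith)

omit [StarOrderedRing A] in
/-- Bounded values on each orthogonality class accumulate in the limit set. -/
theorem exists_cluster (C : Finset A) (g : StrongDual ℂ (C → ι → ι → ℂ)) {R γ : ℝ}
    (h : ∀ F : Finset A, ∃ d : ι → A, Orth f F d ∧ (∀ y i j, ‖vals f C d y i j‖ ≤ R) ∧
      γ ≤ (g (vals f C d)).re) (hR : 0 ≤ R) : ∃ p ∈ lims f C, γ ≤ (g p).re := by
  classical
  have hcl : IsClosed {p : C → ι → ι → ℂ | γ ≤ (g p).re} :=
    isClosed_le continuous_const (Complex.continuous_re.comp g.continuous)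
  obtain ⟨p, hp⟩ := IsCompact.nonempty_iInter_of_directed_nonempty_isCompact_isClosed
    (fun F : Finset A => closure (vals f C '' {d | Orth f F d}) ∩
      (Metric.closedBall 0 R ∩ {p | γ ≤ (g p).re}))
    (fun F F' => ⟨F ∪ F',
      Set.inter_subset_inter_left _ (closure_mono (Set.image_mono fun d hd v hv =>
        hd v (Finset.mem_union_left _ hv))),
      Set.inter_subset_inter_left _ (closure_mono (Set.image_mono fun d hd v hv =>
        hd v (Finset.mem_union_right _ hv)))⟩)
    (fun F => by
      obtain ⟨d, hd, hd1, hd2⟩ := h F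
      exact ⟨_, subset_closure ⟨d, hd, rfl⟩, by
        simpa [pi_norm_le_iff_of_nonneg hR] using hd1, hd2⟩)
    (fun F => ((isCompact_closedBall 0 R).inter_right hcl).inter_left isClosed_closure)
    (fun F => isClosed_closure.inter (Metric.isClosed_closedBall.inter hcl))
  rw [Set.mem_iInter] at hp
  exact ⟨p, Set.mem_iInter.2 fun F => (hp F).1, (hp ∅).2.2⟩

/-- The matrix over `A` representing a functional on the values. -/
def dualMat (C : Finset A) (g : StrongDual ℂ (C → ι → ι → ℂ)) : ι → ι → A :=
  open scoped Classical in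
  fun i j => ∑ y : C, g (Pi.single y (Pi.single i (Pi.single j 1))) • (y : A)

omit [PartialOrder A] [StarOrderedRing A] in
theorem dual_apply (C : Finset A) (g : StrongDual ℂ (C → ι → ι → ℂ)) (η : A →ₗ[ℂ] ι → ι → ℂ) :
    g (fun y => η y) = ∑ i, ∑ j, η (dualMat C g i j) i j := by
  classical
  conv_lhs => rw [show (fun y : C => η y) = ∑ y : C, ∑ i, ∑ j,
    η y i j • Pi.single y (Pi.single i (Pi.single j (1 : ℂ))) by
      funext y i j; simp [Finset.sum_apply, Pi.single_apply, ite_apply]]
  simp only [dualMat, map_sum, map_smul, Finset.sum_apply, Pi.smul_apply, smul_eq_mul]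
  rw [Finset.sum_comm]
  refine Finset.sum_congr rfl fun i _ => Finset.sum_comm.trans ?_
  exact Finset.sum_congr rfl fun j _ => Finset.sum_congr rfl fun y _ => mul_comm _ _

omit [StarOrderedRing A] in
theorem dual_vals (C : Finset A) (g : StrongDual ℂ (C → ι → ι → ℂ)) (b : ι → A) (k : A) :
    g (vals f C fun i => b i * k) = f (star k * quad (dualMat C g) b * k) := by
  let η : A →ₗ[ℂ] ι → ι → ℂ := LinearMap.pi fun i => LinearMap.pi fun j =>
    f.toLinearMap ∘ₗ LinearMap.mulLeft ℂ (star (b i * k)) ∘ₗ LinearMap.mulRight ℂ (b j * k)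
  rw [show vals f C (fun i => b i * k) = fun y : C => η y by
    funext y i j; simp [η, vals, mul_assoc], dual_apply C g η]
  simp [η, quad, Finset.mul_sum, Finset.sum_mul, map_sum, mul_assoc]

/-- The self-adjoint matrix belonging to a matrix. -/
def sym (T : ι → ι → A) : ι → ι → A := fun i j => T i j + star (T j i)

omit [PartialOrder A] [StarOrderedRing A] in
theorem quad_sym (T : ι → ι → A) (b : ι → A) :
    quad (sym T) b = quad T b + star (quad T b) := by
  rw [star_quad]; simp [quad, sym, mul_add, add_mul, Finset.sum_add_distrib]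

/-- A completely positive map has nonpositive value on a matrix with nonpositive form. -/
theorem re_nonpos_of_sym (θ : A →ₗ[ℂ] ι → ι → ℂ)
    (hpos : ∀ x : ι → A, 0 ≤ ∑ i, ∑ j, θ (star (x i) * x j) i j)
    (hstar : ∀ a i j, θ (star a) i j = star (θ a j i)) (T : ι → ι → A)
    (hneg : ∀ b, quad (sym T) b ≤ 0) : (∑ i, ∑ j, θ (T i j) i j).re ≤ 0 := by
  obtain ⟨x, hx⟩ := exists_gram (fun i j => -sym T i j) fun b => by
    simpa [quad, mul_neg, neg_mul, Finset.sum_neg_distrib] using hneg b
  have h1 : 0 ≤ ∑ i, ∑ j, θ (-sym T i j) i j := by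
    simp only [hx, map_sum, Finset.sum_apply]
    rw [Finset.sum_congr rfl fun i _ => Finset.sum_comm, Finset.sum_comm]
    exact Finset.sum_nonneg fun r _ => hpos (x r)
  have e2 : ∑ i, ∑ j, θ (star (T j i)) i j = star (∑ i, ∑ j, θ (T i j) i j) := by
    simp only [star_sum, hstar]; exact Finset.sum_comm
  have h2 := (Complex.nonneg_iff.1 h1).1
  simp only [sym, map_neg, map_add, Pi.neg_apply, Pi.add_apply, Finset.sum_add_distrib,
    Finset.sum_neg_distrib, e2, Complex.star_def, Complex.neg_re, Complex.add_re,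
    Complex.conj_re] at h2
  linarith

/-- Orthogonal families on which a non-negative direction of a functional is visible. -/
theorem exists_family [IsSimpleRing A] (hinf : ¬FiniteDimensional ℂ A) (hf : f 1 = 1)
    (C : Finset A) (g : StrongDual ℂ (C → ι → ι → ℂ)) (b : ι → A)
    (hb : ¬quad (sym (dualMat C g)) b ≤ 0) : ∃ γ R : ℝ, 0 < γ ∧ 0 ≤ R ∧ ∀ F : Finset A,
      ∃ d : ι → A, Orth f F d ∧ (∀ y i j, ‖vals f C d y i j‖ ≤ R) ∧
        γ ≤ (g (vals f C d)).re := by
  classical
  have hsa : IsSelfAdjoint (quad (sym (dualMat C g)) b) := by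
    rw [quad_sym]; exact IsSelfAdjoint.add_star_self _
  obtain ⟨γ, hγ, hk⟩ := exists_pick f hinf hf hsa hb
  refine ⟨γ / 2, ∑ y : C, ∑ i, ∑ j, 2 * ‖star (b i) * (y : A) * b j‖, half_pos hγ,
    by positivity, fun F => ?_⟩
  obtain ⟨k, hkF, hk1, hk2⟩ := hk
    (((Finset.univ : Finset ι) ×ˢ F).image fun x => star (b x.1) * x.2)
  refine ⟨fun i => b i * k, fun v hv i => ?_, fun y i j => ?_, ?_⟩
  · have := hkF _ (Finset.mem_image.2
      ⟨(i, v), Finset.mem_product.2 ⟨Finset.mem_univ i, hv⟩, rfl⟩)
    simpa only [star_mul, star_star, mul_assoc] using this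
  · simp only [vals, star_mul]
    rw [show star k * star (b i) * y * (b j * k) = star k * (star (b i) * y * b j) * k by
      simp only [mul_assoc]]
    refine (norm_form_le f k hk1 _).trans ?_
    refine le_trans ?_ (Finset.single_le_sum (fun y _ => by positivity) (Finset.mem_univ y))
    refine le_trans ?_ (Finset.single_le_sum (fun i _ => by positivity) (Finset.mem_univ i))
    exact Finset.single_le_sum (f := fun j => 2 * ‖star (b i) * (y : A) * b j‖)
      (fun j _ => by positivity) (Finset.mem_univ j)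
  · have e5 : ∀ q : A, star k * star q * k = star (star k * q * k) := fun q => by
      simp [star_mul, mul_assoc]
    rw [quad_sym, mul_add, add_mul, map_add, e5, map_star, Complex.add_re, Complex.star_def,
      Complex.conj_re, ← dual_vals] at hk2
    linarith

/-- A completely positive map into matrices is a limit of one-step maps through `f`. -/
theorem mem_lims [IsSimpleRing A] (hinf : ¬FiniteDimensional ℂ A) (hf : f 1 = 1)
    (θ : A →ₗ[ℂ] ι → ι → ℂ) (hpos : ∀ x : ι → A, 0 ≤ ∑ i, ∑ j, θ (star (x i) * x j) i j)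
    (hstar : ∀ a i j, θ (star a) i j = star (θ a j i)) (C : Finset A) :
    (fun y : C => θ y) ∈ lims f C := by
  by_contra hθ
  have h0 : (0 : C → ι → ι → ℂ) ∈ lims f C := Set.mem_iInter.2 fun F =>
    subset_closure ⟨0, fun v _ i => by simp, by funext y i j; simp [vals]⟩
  obtain ⟨g, u, hg, hu⟩ := RCLike.geometric_hahn_banach_closed_point (𝕜 := ℂ)
    (convex_iff_add_mem.2 fun p hp q hq a b ha hb _ =>
      lims_add f C (lims_smul f C hp ha) (lims_smul f C hq hb))
    (isClosed_iInter fun _ => isClosed_closure) hθ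
  simp only [RCLike.re_to_complex] at hg hu
  have hu0 : 0 < u := by simpa using hg 0 h0
  have hle : ∀ p ∈ lims f C, (g p).re ≤ 0 := by
    intro p hp
    by_contra hpos'
    have := hg _ (lims_smul f C hp (div_nonneg hu0.le (not_le.1 hpos').le))
    simp only [← Complex.coe_smul, map_smul, smul_eq_mul, Complex.re_ofReal_mul] at this
    rw [div_mul_cancel₀ _ (ne_of_gt (not_le.1 hpos'))] at this
    exact lt_irrefl _ this
  by_cases hneg : ∀ b, quad (sym (dualMat C g)) b ≤ 0
  · rw [dual_apply C g θ] at hu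
    linarith [re_nonpos_of_sym θ hpos hstar _ hneg]
  push Not at hneg
  obtain ⟨b, hb⟩ := hneg
  obtain ⟨γ, R, hγ, hR, h⟩ := exists_family f hinf hf C g b hb
  obtain ⟨p, hp, hp'⟩ := exists_cluster f C g h hR
  linarith [hle p hp]

end OneStep

/-- In a nuclear simple infinite dimensional algebra the identity is approximated by one-step maps
through any state. -/
theorem oneStep_goal {A : Type*} [CStarAlgebra A] [IsSimpleRing A]
    (hinf : ¬FiniteDimensional ℂ A) (hn : IsNuclear A) : OneStepGoal A := by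
  let := CStarAlgebra.spectralOrder A
  have := CStarAlgebra.spectralOrderedRing A
  intro φ hφ1 hφp C ε hε
  let f : A →ₚ[ℂ] ℂ := .mk₀ φ fun a ha => by
    obtain ⟨x, rfl⟩ := CStarAlgebra.nonneg_iff_eq_star_mul_self.1 ha
    exact hφp x
  obtain ⟨D, φ₀, ψ, hcp, -, hψ, -, happ⟩ := hn C (ε / 2) (half_pos hε)
  let P : Fin D → Fin D → A := fun k l => ψ (Matrix.single k l 1)
  have hP : ∀ b, 0 ≤ OneStep.quad P b := by
    intro b
    obtain ⟨a, ha⟩ := hψ D (fun i => Matrix.single (⟨0, i.pos⟩ : Fin D) i 1) b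
    rw [show OneStep.quad P b = star a * a by
      rw [← ha]
      simp [OneStep.quad, P, Matrix.star_eq_conjTranspose, Matrix.conjTranspose_single,
        Matrix.single_mul_single_same]]
    exact star_mul_self_nonneg a
  obtain ⟨x, hx⟩ := OneStep.exists_gram P hP
  have hstar : ∀ a k l, φ₀ (star a) k l = star (φ₀ a l k) := by
    intro a k l
    let Q : Fin 2 × Fin D → Fin 2 × Fin D → ℂ := fun p q =>
      φ₀ (star (![1, a] p.1) * ![1, a] q.1) p.2 q.2
    have hq : ∀ v, 0 ≤ OneStep.quad Q v := by
      intro v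
      refine le_of_le_of_eq (hcp 2 ![1, a] fun i p => v (i, p)) ?_
      simp only [OneStep.quad, Q, Fintype.sum_prod_type, dotProduct, Matrix.mulVec,
        Pi.star_apply, Finset.mul_sum, mul_assoc]
      exact Finset.sum_congr rfl fun i _ => Finset.sum_comm
    have := OneStep.star_apply_of_quad Q (fun v => (IsSelfAdjoint.of_nonneg (hq v)).star_eq)
      (0, l) (1, k)
    simpa [Q] using this.symm
  let θ : A →ₗ[ℂ] Fin D × Fin D → Fin D × Fin D → ℂ :=
    LinearMap.pi fun p => LinearMap.pi fun q => if p.1 = q.1 then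
      (LinearMap.proj q.2 ∘ₗ LinearMap.proj p.2) ∘ₗ φ₀ else 0
  have hθ : ∀ a p q, θ a p q = if p.1 = q.1 then φ₀ a p.2 q.2 else 0 := fun a p q => by
    simp only [θ, LinearMap.pi_apply]; split_ifs <;> rfl
  have hmem := OneStep.mem_lims f hinf hφ1 θ (fun y => by
      simp only [hθ, Fintype.sum_prod_type]
      refine Finset.sum_nonneg fun r _ => ?_
      refine le_of_le_of_eq (hcp D (fun k => y (r, k)) fun k => Pi.single k 1) ?_
      simp [dotProduct, Pi.single_apply, Matrix.mulVec])
    (fun a p q => by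
      rw [hθ, hθ, apply_ite (star : ℂ → ℂ), star_zero, ← hstar]
      simp [eq_comm]) C
  let c : Fin D × Fin D → A := fun p => x p.1 p.2
  let S : ℝ := ∑ p, ∑ q, ‖star (c p) * c q‖
  have hS : 0 ≤ S := by positivity
  obtain ⟨_, ⟨d, -, rfl⟩, hd⟩ := Metric.mem_closure_iff.1 (Set.mem_iInter.1 hmem ∅)
    (ε / (2 * (S + 1))) (by positivity)
  refine ⟨D * D, d ∘ finProdFinEquiv.symm, c ∘ finProdFinEquiv.symm, fun y hy => ?_⟩
  have hre : ∀ g : Fin D × Fin D → Fin D × Fin D → A,
      ∑ i, ∑ j, g (finProdFinEquiv.symm i) (finProdFinEquiv.symm j) = ∑ p, ∑ q, g p q := fun g =>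
    Fintype.sum_equiv finProdFinEquiv.symm _ _ fun i =>
      Fintype.sum_equiv finProdFinEquiv.symm _ _ fun j => rfl
  have hlim : ∑ p, ∑ q, θ y p q • (star (c p) * c q) = ψ (φ₀ y) := by
    have e : ψ (φ₀ y) = ∑ k, ∑ l, φ₀ y k l • P k l := by
      conv_lhs => rw [Matrix.matrix_eq_sum_single (φ₀ y)]
      simp only [map_sum]
      refine Finset.sum_congr rfl fun k _ => Finset.sum_congr rfl fun l _ => ?_
      rw [show φ₀ y k l • P k l = ψ (φ₀ y k l • Matrix.single k l 1) from (map_smul ..).symm]
      simp [Matrix.smul_single]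
    simp only [e, hx, hθ, c, Fintype.sum_prod_type, Finset.smul_sum, ite_smul, zero_smul,
      Finset.sum_ite_irrel, Finset.sum_const_zero, Finset.sum_ite_eq, Finset.mem_univ, if_true]
    rw [Finset.sum_comm]
    exact Finset.sum_congr rfl fun k _ => Finset.sum_comm
  calc ‖∑ i, ∑ j, φ (star ((d ∘ finProdFinEquiv.symm) i) * y * (d ∘ finProdFinEquiv.symm) j) •
        (star ((c ∘ finProdFinEquiv.symm) i) * (c ∘ finProdFinEquiv.symm) j) - y‖
      = ‖(∑ p, ∑ q, (OneStep.vals f C d ⟨y, hy⟩ p q - θ y p q) • (star (c p) * c q)) +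
          (ψ (φ₀ y) - y)‖ := by
        simp only [Function.comp_apply,
          hre (fun p q => φ (star (d p) * y * d q) • (star (c p) * c q)), sub_smul,
          Finset.sum_sub_distrib, hlim, sub_add_sub_cancel]
        rfl
    _ ≤ ε / (2 * (S + 1)) * S + ε / 2 := by
        refine (norm_add_le _ _).trans (add_le_add ?_ (happ y hy))
        simp only [S, Finset.mul_sum]
        refine norm_sum_le_of_le _ fun p _ => norm_sum_le_of_le _ fun q _ => ?_
        rw [norm_smul]
        refine mul_le_mul_of_nonneg_right ?_ (norm_nonneg _)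
        rw [← dist_eq_norm, dist_comm]
        refine le_trans ?_ hd.le
        exact ((dist_le_pi_dist _ _ q).trans (dist_le_pi_dist _ _ p)).trans
          (dist_le_pi_dist (fun y : C => θ y) _ ⟨y, hy⟩)
    _ ≤ ε := by
        have : ε / (2 * (S + 1)) * S ≤ ε / 2 := by
          rw [div_mul_eq_mul_div, div_le_div_iff₀ (by positivity) two_pos]; nlinarith
        linarith

end Vale.Agent.P095.Uni
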