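import Vale.Agent.P095.Uni.Spread
import Vale.Agent.P095.Uni.Decomp

/-!
# P095: equivariant property (SI) for simple nuclear algebras with strict comparison

`s₀ = ∑ dᵢ x cᵢ` comes from a one-step approximation of the identity through an excised state and
from the comparison below `h f ^ M h` for a deep member `h` of the excising sequence. The excision
makes `s₀⋆ y s₀` close to `y e`, and the translates of `s₀` by the members which are not centrally
trivial are almost orthogonal. The element `s` is the average of `s₀` over a Følner set.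
-/

open scoped ComplexOrder
open Filter Topology

noncomputable section

namespace Vale.Agent.P095.Uni

variable {G : Type*} [Group G] {A : Type*} [CStarAlgebra A] [PartialOrder A] [StarOrderedRing A]
variable {α : G → A ≃⋆ₐ[ℂ] A}

namespace SI

theorem tracial_mono {τ : A →ₗ[ℂ] ℂ} (hτ : IsTracial τ) {a b : A} (h : a ≤ b) :
    (τ a).re ≤ (τ b).re := by
  obtain ⟨w, hw⟩ := CStarAlgebra.nonneg_iff_eq_star_mul_self.1 (sub_nonneg.2 h)
  have h1 := (Complex.le_def.1 (hτ.2.1 w)).1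
  rw [← hw, map_sub, Complex.sub_re, Complex.zero_re] at h1
  linarith

omit [PartialOrder A] [StarOrderedRing A] in
theorem tracial_rsmul (τ : A →ₗ[ℂ] ℂ) (c : ℝ) (a : A) : (τ (c • a)).re = c * (τ a).re := by
  rw [← Complex.coe_smul, map_smul, smul_eq_mul, Complex.re_ofReal_mul]

theorem tracial_conj_le {τ : A →ₗ[ℂ] ℂ} (hτ : IsTracial τ) (s : A) {p : A} (hp : 0 ≤ p) :
    (τ (star s * p * s)).re ≤ ‖s‖ ^ 2 * (τ p).re := by
  set r := CFC.sqrt p
  have hr : star r = r := (IsSelfAdjoint.of_nonneg (CFC.sqrt_nonneg p)).star_eq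
  have hrr : r * r = p := CFC.sqrt_mul_sqrt_self p hp
  have h1 : τ (star s * p * s) = τ (star r * (s * star s) * r) := by
    rw [← hrr, hr, show star s * (r * r) * s = (star s * r) * (r * s) by simp only [mul_assoc],
      hτ.2.2]
    simp only [mul_assoc]
  have h2 : star r * (s * star s) * r ≤ ‖s‖ ^ 2 • p := by
    refine (CStarAlgebra.star_left_conjugate_le_norm_smul (b := s * star s)
      (hb := IsSelfAdjoint.mul_star_self s)).trans_eq ?_
    rw [CStarRing.norm_self_mul_star, hr, hrr, sq]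
  rw [h1, ← tracial_rsmul]
  exact tracial_mono hτ h2

/-- Positive elements of a simple algebra have trace bounded below. -/
theorem exists_trace_lower [IsSimpleRing A] {p : A} (hp : 0 ≤ p) (hp0 : p ≠ 0) :
    ∃ c : ℝ, 0 < c ∧ ∀ τ : A →ₗ[ℂ] ℂ, IsTracial τ → c ≤ (τ p).re := by
  obtain ⟨M, s, hs⟩ := Decomp.exists_full hp hp0
  set S := ∑ j, ‖s j‖ ^ 2
  have key : ∀ τ : A →ₗ[ℂ] ℂ, IsTracial τ → 1 ≤ S * (τ p).re := fun τ hτ => by
    have h1 := tracial_mono hτ hs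
    rw [hτ.1, map_sum, Complex.re_sum, Complex.one_re] at h1
    rw [Finset.sum_mul]
    exact h1.trans (Finset.sum_le_sum fun j _ => tracial_conj_le hτ (s j) hp)
  refine ⟨(S + 1)⁻¹, by positivity, fun τ hτ => ?_⟩
  have hp' : 0 ≤ (τ p).re := by simpa using tracial_mono hτ hp
  rw [inv_le_iff_one_le_mul₀' (by positivity)]
  linarith [key τ hτ]

section power

theorem one_sub_mul_pow_le {t : ℝ} (h0 : 0 ≤ t) (h1 : t ≤ 1) (M : ℕ) :
    (M : ℝ) * (t ^ M - t ^ (M + 1)) ≤ 1 - t ^ M := by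
  induction M with
  | zero => simp
  | succ M ih =>
    have h := pow_le_one₀ h0 h1 (n := M)
    have h' := mul_le_mul_of_nonneg_left ih h0
    push_cast
    ring_nf at h' ⊢
    nlinarith [mul_nonneg h0 (sub_nonneg.2 h), pow_nonneg h0 M]

theorem sub_pow_le {t : ℝ} (h0 : 0 ≤ t) (h1 : t ≤ 1) {M : ℕ} (hM : 1 ≤ M) :
    t - t ^ M ≤ M * (t - t * t) := by
  induction M, hM using Nat.le_induction with
  | base => simp; nlinarith
  | succ M hM ih =>
    have h2 : t ^ M ≤ t := pow_le_of_le_one h0 h1 (by omega)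
    push_cast
    nlinarith [mul_le_mul_of_nonneg_right h2 (sub_nonneg.2 h1), pow_succ' t M]

variable {f : A} (hf : 0 ≤ f) (hf1 : ‖f‖ ≤ 1)
include hf hf1

theorem spectrum_mem [Nontrivial A] {t : ℝ} (ht : t ∈ spectrum ℝ f) : 0 ≤ t ∧ t ≤ 1 :=
  ⟨spectrum_nonneg_of_nonneg hf ht,
    (le_abs_self t).trans ((spectrum.norm_le_norm_of_mem ht).trans hf1)⟩

theorem norm_mul_pow_sub_le [Nontrivial A] {M : ℕ} (hM : 1 ≤ M) :
    ‖f * f ^ M - f ^ M‖ ≤ (M : ℝ)⁻¹ := by
  rw [← pow_succ', ← cfc_pow_id (R := ℝ) f, ← cfc_pow_id (R := ℝ) f,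
    ← cfc_sub _ _ f (by fun_prop) (by fun_prop)]
  refine norm_cfc_le (by positivity) fun t ht => ?_
  obtain ⟨h0, h1⟩ := spectrum_mem hf hf1 ht
  have h2 : t ^ (M + 1) ≤ t ^ M := pow_le_pow_of_le_one h0 h1 (by omega)
  rw [Real.norm_eq_abs, abs_of_nonpos (by linarith), ← one_div, le_div_iff₀ (by positivity)]
  have := one_sub_mul_pow_le h0 h1 M
  linarith [pow_nonneg h0 M]

theorem sub_pow_le_smul [Nontrivial A] {M : ℕ} (hM : 1 ≤ M) :
    f - f ^ M ≤ (M : ℝ) • (f - f * f) := by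
  have e1 : f - f ^ M = cfc (fun t : ℝ => t - t ^ M) f := by
    rw [cfc_sub _ _ f (by fun_prop) (by fun_prop), cfc_id' ℝ f, cfc_pow_id f M]
  have e2 : (M : ℝ) • (f - f * f) = cfc (fun t : ℝ => (M : ℝ) * (t - t * t)) f := by
    rw [cfc_const_mul _ _ f (by fun_prop), cfc_sub _ _ f (by fun_prop) (by fun_prop),
      cfc_mul _ _ f (by fun_prop) (by fun_prop), cfc_id' ℝ f]
  rw [e1, e2]
  exact cfc_mono (fun t ht => sub_pow_le (spectrum_mem hf hf1 ht).1 (spectrum_mem hf hf1 ht).2 hM)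
    (by fun_prop) (by fun_prop)

end power

/-- The cut-off divided by the variable. -/
def quot (η t : ℝ) : ℝ := ramp η t / max t (η / 2)

theorem ramp_eq_mul_quot {η : ℝ} (hη : 0 < η) (t : ℝ) : ramp η t = t * quot η t := by
  rcases le_total (η / 2) t with h | h
  · rw [quot, max_eq_left h, mul_div_cancel₀ _ (by linarith : t ≠ 0)]
  · have h0 : ramp η t = 0 := by
      have h1 : 2 * t / η - 1 ≤ 0 := by
        rw [sub_nonpos, div_le_one hη]; linarith
      rw [ramp, max_eq_left h1, min_eq_right zero_le_one]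
    simp [quot, h0]

theorem continuous_ramp (η : ℝ) : Continuous (ramp η) := by
  unfold ramp; fun_prop

theorem continuous_quot {η : ℝ} (hη : 0 < η) : Continuous (quot η) :=
  (continuous_ramp η).div (by fun_prop) fun t => by
    have := le_max_right t (η / 2); linarith

omit [PartialOrder A] [StarOrderedRing A] in
theorem norm_cfc_quot_le {η : ℝ} (hη : 0 < η) (b : A) : ‖cfc (quot η) b‖ ≤ 2 / η := by
  refine norm_cfc_le (by positivity) fun t _ => ?_
  have h1 : 0 ≤ ramp η t := le_min zero_le_one (le_max_left _ _)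
  have h2 : ramp η t ≤ 1 := min_le_left _ _
  have h3 : η / 2 ≤ max t (η / 2) := le_max_right _ _
  rw [quot, Real.norm_of_nonneg (div_nonneg h1 (by linarith)), div_le_div_iff₀ (by linarith) hη]
  nlinarith

omit [PartialOrder A] [StarOrderedRing A] in
/-- The forms `∑ cᵢ⋆ x⋆ zᵢⱼ x cⱼ` after excision. -/
theorem norm_form_sub_le {ι : Type*} [Fintype ι] (c : ι → A) (z : ι → ι → A) (φ : ι → ι → ℂ)
    {h x e : A} {γ : ℝ} (hh : star h = h) (hhx : h * x = x) (hx : ‖x‖ ≤ 2)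
    (hxe : ‖star x * x - e‖ ≤ γ) (hz : ∀ i j, ‖h * z i j * h - φ i j • (h * h)‖ ≤ γ)
    (hce : ∀ i, ‖e * star (c i) - star (c i) * e‖ ≤ γ) :
    ‖(∑ i, ∑ j, star (c i) * (star x * z i j * x) * c j) -
        e * ∑ i, ∑ j, φ i j • (star (c i) * c j)‖ ≤
      γ * (4 * (∑ i, ‖c i‖) ^ 2 + (∑ i, ∑ j, ‖φ i j‖) * ((∑ i, ‖c i‖) ^ 2 + ∑ i, ‖c i‖)) := by
  set S := ∑ i, ‖c i‖
  have hc : ∀ i, ‖c i‖ ≤ S := fun i =>
    Finset.single_le_sum (f := fun i => ‖c i‖) (fun i _ => norm_nonneg _) (Finset.mem_univ i)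
  have hxh : star x * h = star x := by
    conv_rhs => rw [← hhx]
    rw [star_mul, hh]
  have hrhs : γ * (4 * S ^ 2 + (∑ i, ∑ j, ‖φ i j‖) * (S ^ 2 + S)) =
      ∑ i, ∑ j, (4 * γ * (‖c i‖ * ‖c j‖) + ‖φ i j‖ * (γ * (S ^ 2 + S))) := by
    simp only [Finset.sum_add_distrib, ← Finset.mul_sum, ← Finset.sum_mul]
    ring
  rw [hrhs, Finset.mul_sum, ← Finset.sum_sub_distrib]
  refine norm_sum_le_of_le _ fun i _ => ?_
  rw [Finset.mul_sum, ← Finset.sum_sub_distrib]
  refine norm_sum_le_of_le _ fun j _ => ?_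
  have hγ : 0 ≤ γ := le_trans (norm_nonneg _) hxe
  have key : star (c i) * (star x * z i j * x) * c j - e * (φ i j • (star (c i) * c j)) =
      star (c i) * (star x * (h * z i j * h - φ i j • (h * h)) * x) * c j +
        φ i j • (star (c i) * (star x * x - e) * c j +
          (star (c i) * e - e * star (c i)) * c j) := by
    have e1 : star x * (h * z i j * h) * x = star x * z i j * x := by
      rw [show star x * (h * z i j * h) * x = star x * h * z i j * (h * x) by simp only [mul_assoc],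
        hxh, hhx]
    have e2 : star x * (h * h) * x = star x * x := by
      rw [← mul_assoc, hxh, mul_assoc, hhx]
    rw [mul_sub (star x), sub_mul, e1, mul_smul_comm (φ i j) (star x), smul_mul_assoc, e2]
    simp only [mul_sub, sub_mul, mul_smul_comm, smul_mul_assoc, smul_sub, smul_add, mul_assoc]
    abel
  rw [key]
  refine (norm_add_le _ _).trans (add_le_add ?_ ?_)
  · calc _ ≤ ‖c i‖ * (2 * γ * 2) * ‖c j‖ := by
          refine (norm_mul₃_le).trans ?_
          rw [norm_star]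
          refine mul_le_mul_of_nonneg_right (mul_le_mul_of_nonneg_left ((norm_mul₃_le).trans ?_)
            (norm_nonneg _)) (norm_nonneg _)
          rw [norm_star]
          exact mul_le_mul (mul_le_mul hx (hz i j) (norm_nonneg _) zero_le_two) hx (norm_nonneg _)
            (by positivity)
      _ = 4 * γ * (‖c i‖ * ‖c j‖) := by ring
  · rw [norm_smul]
    refine mul_le_mul_of_nonneg_left ((norm_add_le _ _).trans ?_) (norm_nonneg _)
    have h1 : ‖star (c i) * (star x * x - e) * c j‖ ≤ S * γ * S :=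
      (norm_mul₃_le).trans (mul_le_mul (mul_le_mul ((norm_star _).trans_le (hc i)) hxe (norm_nonneg _)
        ((norm_nonneg _).trans (hc i))) (hc j) (norm_nonneg _)
        (mul_nonneg ((norm_nonneg _).trans (hc i)) hγ))
    have h2 : ‖(star (c i) * e - e * star (c i)) * c j‖ ≤ γ * S :=
      (norm_mul_le _ _).trans (mul_le_mul (by rw [norm_sub_rev]; exact hce i) (hc j) (norm_nonneg _) hγ)
    nlinarith

omit [PartialOrder A] [StarOrderedRing A] in
theorem eventually_norm_le {ι : Type*} {l : Filter ι} {x : ι → A} (h : Tendsto x l (𝓝 0)) {γ : ℝ}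
    (hγ : 0 < γ) : ∀ᶠ n in l, ‖x n‖ ≤ γ :=
  (tendsto_zero_iff_norm_tendsto_zero.1 h).eventually (eventually_le_nhds hγ)

omit [Group G] in
/-- An element below a member of the excising sequence, almost fixed by `f`, with `x⋆ x ≈ e`. -/
theorem exists_below [IsSimpleRing A] (hc : CompareGoal A) (E : Excision α)
    {l : Filter ℕ} {e f : ℕ → A} {ρ : ℝ} (hρ : 0 < ρ)
    (hb : ∀ n, 0 ≤ e n ∧ ‖e n‖ ≤ 1 ∧ 0 ≤ f n ∧ ‖f n‖ ≤ 1)
    (hfc : ∀ c, Tendsto (fun n => c * f n - f n * c) l (𝓝 0))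
    (hen : AF.TracialNull l e) (hfn : AF.TracialNull l (fun n => f n - f n * f n))
    (hfw : ∀ c, AF.TracialNull l fun n => c * f n - (ρ : ℂ) • c)
    (k : ℕ) {γ : ℝ} (hγ : 0 < γ) (hγ1 : γ ≤ 1) :
    ∀ᶠ n in l, ∃ x : A, E.h k * x = x ∧ ‖x‖ ≤ 2 ∧ ‖star x * x - e n‖ ≤ γ ∧
      ‖f n * x - x‖ ≤ γ := by
  have : Nontrivial A := ⟨⟨E.h 0, 0, fun h0 => by
    have := E.norm_eq 0
    rw [h0, norm_zero] at this
    exact zero_ne_one this⟩⟩
  set h' := E.h (k + 1)
  have hh's : star h' = h' := (IsSelfAdjoint.of_nonneg (E.nonneg _)).star_eq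
  have hh'n : ‖h'‖ = 1 := E.norm_eq _
  have hp : (0 : A) ≤ h' * h' := by
    have := star_mul_self_nonneg h'
    rwa [hh's] at this
  have hp0 : h' * h' ≠ 0 := fun h0 => by
    have h1 : ‖star h' * h'‖ = ‖h'‖ * ‖h'‖ := CStarRing.norm_star_mul_self
    rw [hh's, h0, norm_zero, hh'n] at h1
    norm_num at h1
  obtain ⟨ch, hch, hchτ⟩ := exists_trace_lower hp hp0
  obtain ⟨δc, η, hδc, hη, hcomp⟩ := hc (ρ * ch / 2) γ (by positivity) hγ
  obtain ⟨M, hM⟩ := exists_nat_gt (8 / (γ * η))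
  have hM1 : 1 ≤ M := by
    have h0 : (0 : ℝ) < M := lt_trans (by positivity) hM
    exact_mod_cast h0
  have hMinv : (M : ℝ)⁻¹ ≤ γ * η / 8 := by
    rw [inv_le_iff_one_le_mul₀ (by positivity)]
    rw [div_lt_iff₀ (by positivity)] at hM
    linarith
  set μ : ℝ := ρ * ch / (4 * M)
  have hμ : 0 < μ := by positivity
  filter_upwards [eventually_norm_le (hfc h') (show 0 < γ * η / 8 by positivity),
    hen δc hδc, hfn μ hμ, hfw (h' * h') μ hμ] with n hnh hne hnf hnw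
  obtain ⟨he0, he1, hf0, hf1⟩ := hb n
  set b : A := h' * f n ^ M * h'
  have hb0 : 0 ≤ b := by
    have hfM : 0 ≤ f n ^ M := by
      rw [← cfc_pow_id (R := ℝ) (f n) M]
      exact cfc_nonneg fun t ht => pow_nonneg (spectrum_nonneg_of_nonneg hf0 ht) M
    have := star_left_conjugate_nonneg hfM h'
    rwa [hh's] at this
  have hb1 : ‖b‖ ≤ 1 := by
    refine (norm_mul₃_le).trans ?_
    rw [hh'n, one_mul, mul_one]
    exact (norm_pow_le' _ hM1).trans (pow_le_one₀ (norm_nonneg _) hf1)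
  obtain ⟨x, hxe, hbx⟩ := hcomp (e n) b he0 he1 hb0 hb1 fun τ hτ => by
    refine ⟨?_, (Complex.re_le_norm _).trans (hne τ hτ)⟩
    have h1 := (abs_le.1 ((Complex.abs_re_le_norm _).trans (hnw τ hτ))).1
    rw [map_sub, map_smul, Complex.sub_re, smul_eq_mul, Complex.re_ofReal_mul] at h1
    have e0 : τ (h' * h' * f n) = τ (h' * f n * h') := by
      rw [mul_assoc h' h', hτ.2.2 h' (h' * f n)]
    have h2 : (τ (h' * f n * h')).re - (τ b).re = (τ (star h' * (f n - f n ^ M) * h')).re := by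
      rw [hh's, ← Complex.sub_re, ← map_sub, mul_sub, sub_mul]
    have hu : 0 ≤ f n - f n ^ M := by
      have e1 : f n - f n ^ M = cfc (fun t : ℝ => t - t ^ M) (f n) := by
        rw [cfc_sub _ _ (f n) (by fun_prop) (by fun_prop), cfc_id' ℝ (f n), cfc_pow_id (f n) M]
      rw [e1]
      exact cfc_nonneg fun t ht => sub_nonneg.2
        (pow_le_of_le_one (spectrum_mem hf0 hf1 ht).1 (spectrum_mem hf0 hf1 ht).2 (by omega))
    have h3 := tracial_conj_le hτ h' hu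
    rw [hh'n, one_pow, one_mul] at h3
    have h4 := tracial_mono hτ (sub_pow_le_smul hf0 hf1 hM1)
    rw [tracial_rsmul] at h4
    have h5 := (Complex.re_le_norm _).trans (hnf τ hτ)
    have h6 : (M : ℝ) * μ = ρ * ch / 4 := by
      simp only [μ]; field_simp
    have h7 := mul_le_mul_of_nonneg_left h5 (Nat.cast_nonneg (α := ℝ) M)
    have h8 := mul_le_mul_of_nonneg_left (hchτ τ hτ) hρ.le
    have h9 : μ ≤ M * μ := le_mul_of_one_le_left hμ.le (by exact_mod_cast hM1)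
    rw [e0] at h1
    linarith
  have hbsa : IsSelfAdjoint b := .of_nonneg hb0
  have hbr : cfc (ramp η) b = b * cfc (quot η) b := by
    rw [cfc_congr (fun t _ => ramp_eq_mul_quot hη t),
      cfc_mul (fun t => t) _ b (by fun_prop) (continuous_quot hη).continuousOn, cfc_id' ℝ b]
  have hkh : E.h k * h' = h' := E.nested k
  have hks : star (E.h k) = E.h k := (IsSelfAdjoint.of_nonneg (E.nonneg _)).star_eq
  have hhx : E.h k * x = x := by
    rw [← hbx, ← mul_assoc, hbr, ← mul_assoc (E.h k), ← mul_assoc (E.h k) (h' * f n ^ M),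
      ← mul_assoc (E.h k) h', hkh]
  have hx2 : ‖x‖ ≤ 2 := by
    have h1 := norm_le_norm_add_norm_sub' (star x * x) (e n)
    rw [CStarRing.norm_star_mul_self] at h1
    nlinarith [norm_nonneg x, hγ1]
  have hfx : ‖f n * x - x‖ ≤ γ := by
    have e1 : f n * x - x = (f n * b - b) * cfc (quot η) b * x := by
      conv_lhs => rw [← hbx, hbr]
      simp only [sub_mul, mul_assoc]
    have h1 : ‖f n * b - b‖ ≤ γ * η / 4 := by
      have e2 : f n * b - b = (f n * h' - h' * f n) * f n ^ M * h' +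
          h' * (f n * f n ^ M - f n ^ M) * h' := by
        simp only [b, sub_mul, mul_sub, mul_assoc]; abel
      rw [e2]
      refine (norm_add_le _ _).trans ?_
      have h2 : ‖(f n * h' - h' * f n) * f n ^ M * h'‖ ≤ γ * η / 8 := by
        refine (norm_mul₃_le).trans ?_
        rw [hh'n, mul_one, norm_sub_rev]
        refine (mul_le_of_le_one_right (norm_nonneg _)
          ((norm_pow_le' _ hM1).trans (pow_le_one₀ (norm_nonneg _) hf1))).trans hnh
      have h3 : ‖h' * (f n * f n ^ M - f n ^ M) * h'‖ ≤ γ * η / 8 := by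
        refine (norm_mul₃_le).trans ?_
        rw [hh'n, one_mul, mul_one]
        exact (norm_mul_pow_sub_le hf0 hf1 hM1).trans hMinv
      linarith
    rw [e1]
    refine (norm_mul₃_le).trans ?_
    calc ‖f n * b - b‖ * ‖cfc (quot η) b‖ * ‖x‖ ≤ γ * η / 4 * (2 / η) * 2 :=
          mul_le_mul (mul_le_mul h1 (norm_cfc_quot_le hη b) (norm_nonneg _) (by positivity)) hx2
            (norm_nonneg _) (by positivity)
      _ = γ := by field_simp; ring
  exact ⟨x, hhx, hx2, hxe, hfx⟩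

/-- `s₀⋆ y s₀` is close to `e y`. -/
theorem excise_bound {m : ℕ} (c d : Fin m → A) {h x e y : A} {γ a : ℝ} (hh : star h = h)
    (hhx : h * x = x) (hx : ‖x‖ ≤ 2) (hxe : ‖star x * x - e‖ ≤ γ) (he1 : ‖e‖ ≤ 1)
    (φ : Fin m → Fin m → ℂ)
    (hz : ∀ i j, ‖h * (star (d i) * y * d j) * h - φ i j • (h * h)‖ ≤ γ)
    (hce : ∀ i, ‖e * star (c i) - star (c i) * e‖ ≤ γ)
    (hR : γ * (4 * (∑ i, ‖c i‖) ^ 2 + (∑ i, ∑ j, ‖φ i j‖) * ((∑ i, ‖c i‖) ^ 2 + ∑ i, ‖c i‖)) ≤ a)
    (hy : ‖(∑ i, ∑ j, φ i j • (star (c i) * c j)) - y‖ ≤ a) :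
    ‖star (∑ i, d i * x * c i) * y * (∑ i, d i * x * c i) - e * y‖ ≤ 2 * a := by
  have e1 : star (∑ i, d i * x * c i) * y * (∑ i, d i * x * c i) =
      ∑ i, ∑ j, star (c i) * (star x * (star (d i) * y * d j) * x) * c j := by
    simp only [star_sum, Finset.sum_mul, Finset.mul_sum, star_mul, mul_assoc]
    rw [Finset.sum_comm]
  rw [e1]
  refine (norm_sub_le_norm_sub_add_norm_sub _ _ _).trans ((add_le_add
    ((norm_form_sub_le c _ φ hh hhx hx hxe hz hce).trans hR) ?_).trans (two_mul a).ge)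
  rw [← mul_sub]
  exact (norm_mul_le _ _).trans ((mul_le_of_le_one_left (norm_nonneg _) he1).trans hy)

omit [PartialOrder A] [StarOrderedRing A] in
/-- The commutator with `y` is small when the four forms are close. -/
theorem comm_bound {s₀ e y : A} {a δ R₀ : ℝ} (ha : 0 ≤ a) (hδ : 0 ≤ δ) (hyR : ‖y‖ ≤ R₀)
    (ha' : a * (32 * (1 + R₀) ^ 2) ≤ δ ^ 2) (m4 : ‖star s₀ * 1 * s₀ - e * 1‖ ≤ 2 * a)
    (m3 : ‖star s₀ * y * s₀ - e * y‖ ≤ 2 * a)
    (m2 : ‖star s₀ * star y * s₀ - e * star y‖ ≤ 2 * a)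
    (m1 : ‖star s₀ * (star y * y) * s₀ - e * (star y * y)‖ ≤ 2 * a) :
    ‖y * s₀ - s₀ * y‖ ≤ δ := by
  have hR₀ : 0 ≤ R₀ := (norm_nonneg y).trans hyR
  refine (sq_le_sq₀ (norm_nonneg _) hδ).1 ?_
  rw [sq, ← CStarRing.norm_star_mul_self]
  have e1 : star (y * s₀ - s₀ * y) * (y * s₀ - s₀ * y) =
      (star s₀ * (star y * y) * s₀ - e * (star y * y)) -
      (star s₀ * star y * s₀ - e * star y) * y -
      star y * (star s₀ * y * s₀ - e * y) +
      star y * (star s₀ * 1 * s₀ - e * 1) * y := by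
    simp only [star_sub, star_mul, sub_mul, mul_sub, mul_one, mul_assoc]
    abel
  rw [e1]
  have n2 : ‖(star s₀ * star y * s₀ - e * star y) * y‖ ≤ 2 * a * R₀ :=
    (norm_mul_le _ _).trans (mul_le_mul m2 hyR (norm_nonneg _) (by positivity))
  have n3 : ‖star y * (star s₀ * y * s₀ - e * y)‖ ≤ R₀ * (2 * a) :=
    (norm_mul_le _ _).trans (mul_le_mul ((norm_star y).trans_le hyR) m3 (norm_nonneg _) hR₀)
  have n4 : ‖star y * (star s₀ * 1 * s₀ - e * 1) * y‖ ≤ R₀ * (2 * a) * R₀ :=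
    (norm_mul₃_le).trans (mul_le_mul (mul_le_mul ((norm_star y).trans_le hyR) m4 (norm_nonneg _) hR₀)
      hyR (norm_nonneg _) (by positivity))
  refine ((norm_add_le _ _).trans (add_le_add ((norm_sub_le _ _).trans
    (add_le_add ((norm_sub_le _ _).trans (add_le_add m1 n2)) n3)) n4)).trans ?_
  nlinarith [mul_nonneg ha (sq_nonneg (1 + R₀))]

/-- `s₀⋆ σ s₀` is small when `h` is moved away by `σ`. -/
theorem moved_bound {m : ℕ} (c d : Fin m → A) {h x : A} {γ : ℝ} (hh : star h = h)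
    (hhx : h * x = x) (hx : ‖x‖ ≤ 2) (σ : A ≃⋆ₐ[ℂ] A)
    (hg : ∀ i j, ‖h * (star (d i) * σ (d j)) * σ h‖ ≤ γ) :
    ‖star (∑ i, d i * x * c i) * σ (∑ i, d i * x * c i)‖ ≤ γ * (4 * (∑ i, ‖c i‖) ^ 2) := by
  have e1 : star (∑ i, d i * x * c i) * σ (∑ i, d i * x * c i) =
      ∑ i, ∑ j, star (c i) * (star x * (h * (star (d i) * σ (d j)) * σ (h)) *
        σ x) * σ (c j) := by
    have hxh : star x * h = star x := by
      conv_rhs => rw [← hhx]
      rw [star_mul, hh]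
    have hgx : σ (h) * σ x = σ x := by rw [← map_mul, hhx]
    simp only [map_sum, map_mul, star_sum, Finset.sum_mul, Finset.mul_sum, star_mul]
    rw [Finset.sum_comm]
    refine Finset.sum_congr rfl fun i _ => Finset.sum_congr rfl fun j _ => ?_
    conv_lhs => rw [← hxh, ← hgx]
    simp only [mul_assoc]
  rw [e1]
  refine (norm_sum_le_of_le _ (n := fun i => ∑ j, 4 * γ * (‖c i‖ * ‖c j‖)) fun i _ =>
    norm_sum_le_of_le _ fun j _ => ?_).trans ?_
  · have hγ : 0 ≤ γ := (norm_nonneg _).trans (hg i j)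
    calc _ ≤ ‖c i‖ * (2 * γ * 2) * ‖c j‖ := by
          refine (norm_mul₃_le).trans ?_
          rw [norm_star, StarAlgEquiv.norm_map]
          refine mul_le_mul_of_nonneg_right (mul_le_mul_of_nonneg_left ((norm_mul₃_le).trans ?_)
            (norm_nonneg _)) (norm_nonneg _)
          rw [norm_star, StarAlgEquiv.norm_map]
          exact mul_le_mul (mul_le_mul hx (hg i j) (norm_nonneg _) zero_le_two) hx
            (norm_nonneg _) (by positivity)
      _ = _ := by ring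
  · simp only [← Finset.mul_sum, ← Finset.sum_mul]
    exact (by ring : _ = _).le

omit [Group G] in
/-- Scaling a seed into the unit ball. -/
theorem exists_normalised {C : Finset A} {D : Finset G} {s₀ e f : A} {δ : ℝ} (hδ : 0 < δ)
    (he1 : ‖e‖ ≤ 1) (hTe : ‖star s₀ * s₀ - e‖ ≤ δ / 16)
    (hTf : ‖f * s₀ - s₀‖ ≤ δ) (hTc : ∀ c ∈ C, ‖c * s₀ - s₀ * c‖ ≤ δ)
    (hTg : ∀ g ∈ D, ‖star s₀ * α g s₀‖ ≤ δ) :
    ∃ s : A, ‖s‖ ≤ 1 ∧ ‖star s * s - e‖ ≤ δ ∧ ‖f * s - s‖ ≤ δ ∧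
      (∀ c ∈ C, ‖c * s - s * c‖ ≤ δ) ∧ ∀ g ∈ D, ‖star s * α g s‖ ≤ δ := by
  -- normalisation
  set t : ℝ := (1 + δ / 16)⁻¹
  have ht0 : 0 < t := by positivity
  have ht : t * (1 + δ / 16) = 1 := inv_mul_cancel₀ (by positivity)
  have ht1 : t ≤ 1 := by nlinarith
  have hnt : ∀ (u : A) {r : ℝ}, ‖u‖ ≤ r → ‖t • u‖ ≤ r := fun u r h => by
    rw [norm_smul, Real.norm_of_nonneg ht0.le]
    exact (mul_le_of_le_one_left (norm_nonneg _) ht1).trans h
  refine ⟨t • s₀, ?_, ?_, ?_, fun y hy => ?_, fun g hg => ?_⟩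
  · have h1 := norm_le_norm_add_norm_sub' (star s₀ * s₀) (e)
    rw [CStarRing.norm_star_mul_self] at h1
    rw [norm_smul, Real.norm_of_nonneg ht0.le]
    have h2 : ‖s₀‖ ≤ 1 + δ / 16 := by nlinarith [norm_nonneg s₀]
    nlinarith
  · have e1 : star (t • s₀) * (t • s₀) - e =
        (t * t) • (star s₀ * s₀ - e) - (1 - t * t) • e := by
      rw [star_smul, star_trivial, smul_mul_smul_comm, smul_sub, sub_smul, one_smul]; abel
    rw [e1]
    refine (norm_sub_le _ _).trans ?_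
    rw [norm_smul, norm_smul, Real.norm_of_nonneg (by positivity), Real.norm_of_nonneg (by nlinarith)]
    nlinarith [mul_le_mul_of_nonneg_left he1 (show 0 ≤ 1 - t * t by nlinarith),
      mul_le_of_le_one_left (norm_nonneg (star s₀ * s₀ - e)) (show t * t ≤ 1 by nlinarith)]
  · rw [mul_smul_comm, ← smul_sub]
    exact hnt _ hTf
  · rw [mul_smul_comm, smul_mul_assoc, ← smul_sub]
    exact hnt _ (hTc y hy)
  · rw [star_smul, star_trivial, AF.map_rsmul', smul_mul_assoc, mul_smul_comm]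
    exact hnt _ (hnt _ (hTg g hg))


/-- An almost central element with `s⋆ s ≈ e`, almost fixed by `f`, almost orthogonal to its
translates by given members which are not centrally trivial. -/
theorem exists_seed [IsSimpleRing A] (hc : CompareGoal A) (E : Excision α) (ho : OneStepGoal A)
    {l : Filter ℕ} {e f : ℕ → A} {ρ : ℝ} (hρ : 0 < ρ)
    (hb : ∀ n, 0 ≤ e n ∧ ‖e n‖ ≤ 1 ∧ 0 ≤ f n ∧ ‖f n‖ ≤ 1)
    (hec : ∀ c, Tendsto (fun n => c * e n - e n * c) l (𝓝 0))
    (hfc : ∀ c, Tendsto (fun n => c * f n - f n * c) l (𝓝 0))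
    (hen : AF.TracialNull l e) (hfn : AF.TracialNull l (fun n => f n - f n * f n))
    (hfw : ∀ c, AF.TracialNull l fun n => c * f n - (ρ : ℂ) • c)
    (C : Finset A) (D : Finset G) (hD : ∀ g ∈ D, ¬CentrallyTrivial (α g))
    {δ : ℝ} (hδ : 0 < δ) (hδ1 : δ ≤ 1) :
    ∀ᶠ n in l, ∃ s : A, ‖s‖ ≤ 1 ∧ ‖star s * s - e n‖ ≤ δ ∧ ‖f n * s - s‖ ≤ δ ∧
      (∀ c ∈ C, ‖c * s - s * c‖ ≤ δ) ∧ ∀ g ∈ D, ‖star s * α g s‖ ≤ δ := by
  classical
  set R₀ : ℝ := ∑ c ∈ C, ‖c‖
  have hR₀ : 0 ≤ R₀ := Finset.sum_nonneg fun _ _ => norm_nonneg _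
  set a : ℝ := δ ^ 2 / (32 * (1 + R₀) ^ 2)
  have ha : 0 < a := by positivity
  have ha' : a * (32 * (1 + R₀) ^ 2) = δ ^ 2 := div_mul_cancel₀ _ (by positivity)
  have ha1 : 32 * a ≤ δ := by
    nlinarith [mul_le_mul_of_nonneg_left (show (1 : ℝ) ≤ (1 + R₀) ^ 2 by nlinarith) ha.le]
  set Y : Finset A := insert 1 (C ∪ C.image star ∪ C.image fun c => star c * c) with hY
  obtain ⟨m, d, c, hdc⟩ := ho E.φ E.φ_one E.φ_nonneg Y a ha
  set z : A → Fin m → Fin m → A := fun y i j => star (d i) * y * d j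
  set Rc : ℝ := ∑ i, ‖c i‖
  set Rd : ℝ := ∑ i, ‖d i‖
  set Rφ : ℝ := ∑ y ∈ Y, ∑ i, ∑ j, ‖E.φ (z y i j)‖
  have hRc : 0 ≤ Rc := Finset.sum_nonneg fun _ _ => norm_nonneg _
  have hRd : 0 ≤ Rd := Finset.sum_nonneg fun _ _ => norm_nonneg _
  have hRφ : 0 ≤ Rφ := Finset.sum_nonneg fun _ _ =>
    Finset.sum_nonneg fun _ _ => Finset.sum_nonneg fun _ _ => norm_nonneg _
  set R : ℝ := 1 + 4 * Rc ^ 2 + Rφ * (Rc ^ 2 + Rc) + (2 + Rd) * Rc
  have hR : 1 ≤ R := by
    have h1 : 0 ≤ Rφ * (Rc ^ 2 + Rc) := by positivity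
    have h2 : 0 ≤ (2 + Rd) * Rc := by positivity
    nlinarith
  set γ : ℝ := min 1 (a / R)
  have hγ : 0 < γ := lt_min one_pos (by positivity)
  have hγR : γ * R ≤ a := by
    have := (le_div_iff₀ (by linarith : (0 : ℝ) < R)).1 (min_le_right 1 (a / R))
    exact this
  -- the level
  have K1 : ∀ᶠ k in atTop, (∀ y ∈ Y, ∀ i j,
      ‖E.h k * z y i j * E.h k - E.φ (z y i j) • (E.h k * E.h k)‖ ≤ γ) ∧
      ∀ g ∈ D, ∀ i j, ‖E.h k * (star (d i) * α g (d j)) * α g (E.h k)‖ ≤ γ :=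
    ((eventually_all_finset Y).2 fun y _ => eventually_all.2 fun i => eventually_all.2 fun j =>
      eventually_norm_le (E.excise _) hγ).and
    ((eventually_all_finset D).2 fun g hg => eventually_all.2 fun i => eventually_all.2 fun j =>
      eventually_norm_le (E.moved g (hD g hg) _) hγ)
  obtain ⟨k, hk, hkm⟩ := K1.exists
  have E1 : ∀ᶠ n in l, ∀ i, ‖e n * star (c i) - star (c i) * e n‖ ≤ γ ∧
      ‖d i * f n - f n * d i‖ ≤ γ :=
    eventually_all.2 fun i => by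
      have h1 := eventually_norm_le (hec (star (c i))) hγ
      simp only [norm_sub_rev (star (c i) * e _)] at h1
      exact h1.and (eventually_norm_le (hfc (d i)) hγ)
  filter_upwards [E1, exists_below hc E hρ hb hfc hen hfn hfw k hγ (min_le_left _ _)] with n hn1 hx
  obtain ⟨x, hhx, hx2, hxe, hfx⟩ := hx
  have hks : star (E.h k) = E.h k := (IsSelfAdjoint.of_nonneg (E.nonneg _)).star_eq
  set s₀ : A := ∑ i, d i * x * c i with hs₀
  -- excision
  have hT : ∀ y ∈ Y, ‖star s₀ * y * s₀ - e n * y‖ ≤ 2 * a := fun y hy => by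
    refine excise_bound c d hks hhx hx2 hxe (hb n).2.1 (fun i j => E.φ (z y i j)) (hk y hy)
      (fun i => (hn1 i).1) ?_ (hdc y hy)
    refine le_trans (mul_le_mul_of_nonneg_left ?_ hγ.le) hγR
    have hφy : ∑ i, ∑ j, ‖E.φ (z y i j)‖ ≤ Rφ :=
      Finset.single_le_sum (f := fun y => ∑ i, ∑ j, ‖E.φ (z y i j)‖)
        (fun _ _ => Finset.sum_nonneg fun _ _ => Finset.sum_nonneg fun _ _ => norm_nonneg _) hy
    have h3 := mul_le_mul_of_nonneg_right hφy (show 0 ≤ Rc ^ 2 + Rc by positivity)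
    have h4 : 0 ≤ (2 + Rd) * Rc := by positivity
    simp only [R]
    linarith
  have hTe : ‖star s₀ * s₀ - e n‖ ≤ δ / 16 := by
    have := hT 1 (Finset.mem_insert_self _ _)
    rw [mul_one, mul_one] at this
    linarith
  have hTc : ∀ y ∈ C, ‖y * s₀ - s₀ * y‖ ≤ δ := fun y hy => by
    refine comm_bound ha.le hδ.le (Finset.single_le_sum (f := fun c => ‖c‖)
      (fun _ _ => norm_nonneg _) hy) ha'.le (hT 1 (Finset.mem_insert_self _ _)) (hT y ?_)
      (hT (star y) ?_) (hT (star y * y) ?_) <;>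
    simp only [hY, Finset.mem_insert, Finset.mem_union, Finset.mem_image]
    · exact Or.inr (Or.inl (Or.inl hy))
    · exact Or.inr (Or.inl (Or.inr ⟨y, hy, rfl⟩))
    · exact Or.inr (Or.inr ⟨y, hy, rfl⟩)
  have hTf : ‖f n * s₀ - s₀‖ ≤ δ := by
    have e1 : f n * s₀ - s₀ = ∑ i, ((f n * d i - d i * f n) * x * c i +
        d i * (f n * x - x) * c i) := by
      simp only [hs₀, Finset.mul_sum, ← Finset.sum_sub_distrib]
      refine Finset.sum_congr rfl fun i _ => ?_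
      simp only [sub_mul, mul_sub, mul_assoc]; abel
    rw [e1]
    refine (norm_sum_le_of_le _ (n := fun i => γ * ((2 + Rd) * ‖c i‖)) fun i _ => ?_).trans ?_
    · have hdR : ‖d i‖ ≤ Rd :=
        Finset.single_le_sum (f := fun i => ‖d i‖) (fun _ _ => norm_nonneg _) (Finset.mem_univ i)
      refine (norm_add_le _ _).trans ?_
      have n1 : ‖(f n * d i - d i * f n) * x * c i‖ ≤ γ * 2 * ‖c i‖ :=
        (norm_mul₃_le).trans (mul_le_mul_of_nonneg_right (mul_le_mul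
          (by rw [norm_sub_rev]; exact (hn1 i).2) hx2 (norm_nonneg _) hγ.le) (norm_nonneg _))
      have n2 : ‖d i * (f n * x - x) * c i‖ ≤ Rd * γ * ‖c i‖ :=
        (norm_mul₃_le).trans (mul_le_mul_of_nonneg_right (mul_le_mul hdR hfx (norm_nonneg _) hRd)
          (norm_nonneg _))
      linarith
    · rw [← Finset.mul_sum, ← Finset.mul_sum]
      have : γ * ((2 + Rd) * Rc) ≤ γ * R := by
        refine mul_le_mul_of_nonneg_left ?_ hγ.le
        have h3 : 0 ≤ Rφ * (Rc ^ 2 + Rc) := by positivity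
        simp only [R]
        nlinarith
      linarith
  have hTg : ∀ g ∈ D, ‖star s₀ * α g s₀‖ ≤ δ := fun g hg => by
    refine (moved_bound c d hks hhx hx2 (α g) (hkm g hg)).trans ?_
    have : γ * (4 * Rc ^ 2) ≤ γ * R := by
      refine mul_le_mul_of_nonneg_left ?_ hγ.le
      have h3 : 0 ≤ Rφ * (Rc ^ 2 + Rc) := by positivity
      have h4 : 0 ≤ (2 + Rd) * Rc := by positivity
      simp only [R]
      linarith
    linarith
  exact exists_normalised hδ (hb n).2.1 hTe hTf hTc hTg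

end SI

/-- **Equivariant property (SI).** -/
theorem si_goal [IsSimpleRing A] (hG : IsAmenableGroup G)
    (hα : ∀ g h a, α (g * h) a = α g (α h a)) (hc : CompareGoal A) (he : ExciseGoal α)
    (ho : OneStepGoal A) : AF.SIGoal α := by
  classical
  obtain ⟨E⟩ := he
  intro l e f ρ hρ hb hec hfc hei hfi hen hfn hfw C K ε hε
  set ε₁ : ℝ := min ε 1
  have hε₁0 : 0 < ε₁ := lt_min hε one_pos
  have hε₁1 : ε₁ ≤ 1 := min_le_right _ _
  have hε₁ε : ε₁ ≤ ε := min_le_left _ _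
  obtain ⟨P⟩ := exists_spread hG hα K (show (0 : ℝ) < ε₁ ^ 2 / 16 by positivity)
  choose σ hσN hσ2 using P.shift
  have hn0 : (0 : ℝ) ≤ P.n := Nat.cast_nonneg _
  set θ : ℝ := ε₁ ^ 2 / (64 * ((P.n : ℝ) + 1) ^ 2)
  have hθ0 : 0 < θ := by positivity
  have hθe : θ * (64 * ((P.n : ℝ) + 1) ^ 2) = ε₁ ^ 2 := div_mul_cancel₀ _ (by positivity)
  have hθn : 64 * ((P.n : ℝ) ^ 2 * θ) ≤ ε₁ ^ 2 := by nlinarith
  have hθn' : 64 * ((P.n : ℝ) * θ) ≤ ε₁ := by nlinarith
  have hθ1 : θ ≤ 1 := by nlinarith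
  -- finite sets detecting central triviality
  have hK : ∀ x : K × Fin P.n, ∃ (F : Finset A) (δ : ℝ), 0 < δ ∧ (P.w x.2 ≠ 0 →
      ∀ y : A, ‖y‖ ≤ 1 → (∀ c ∈ F, ‖c * y - y * c‖ ≤ δ) →
        ‖α ((P.r (σ x.1 x.1.2 x.2))⁻¹ * (x.1 * P.r x.2)) y - y‖ ≤ θ) := by
    intro x
    by_cases hx : P.w x.2 = 0
    · exact ⟨∅, 1, one_pos, fun h => absurd hx h⟩
    · obtain ⟨F, δ, hδ, hF⟩ := hσN x.1 x.1.2 x.2 hx θ hθ0
      exact ⟨F, δ, hδ, fun _ => hF⟩
  choose F δ hδ hF using hK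
  obtain ⟨δ₀, hδ₀, hδ₀θ, hδ₀x⟩ : ∃ δ₀ : ℝ, 0 < δ₀ ∧ δ₀ ≤ θ / 2 ∧ ∀ x, δ₀ ≤ δ x :=
    ((eventually_mem_set.2 (self_mem_nhdsWithin (a := (0 : ℝ)) (s := Set.Ioi 0))).and
      ((((eventually_le_nhds (show (0 : ℝ) < θ / 2 by positivity))).and
        (eventually_all.2 fun x => eventually_le_nhds (hδ x))).filter_mono nhdsWithin_le_nhds)).exists
  set C' : Finset A :=
    (C.biUnion fun c => Finset.univ.image fun i => α (P.r i)⁻¹ c) ∪ Finset.univ.biUnion F
  set D : Finset G := ((Finset.univ : Finset (Fin P.n × Fin P.n)).filter fun x => x.1 ≠ x.2).image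
    fun x => (P.r x.1)⁻¹ * P.r x.2
  have hD : ∀ g ∈ D, ¬CentrallyTrivial (α g) := by
    intro g hg
    obtain ⟨x, hx, rfl⟩ := Finset.mem_image.1 hg
    exact P.moved _ _ (Finset.mem_filter.1 hx).2
  have E2 : ∀ᶠ n in l, ∀ i, ‖α (P.r i) (e n) - e n‖ ≤ θ / 2 ∧ ‖α (P.r i) (f n) - f n‖ ≤ θ / 2 :=
    eventually_all.2 fun i => (SI.eventually_norm_le (hei (P.r i)) (half_pos hθ0)).and
      (SI.eventually_norm_le (hfi (P.r i)) (half_pos hθ0))
  filter_upwards [SI.exists_seed hc E ho hρ hb hec hfc hen hfn hfw C' D hD hδ₀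
    (by linarith), E2] with n hs hinv
  obtain ⟨s₀, hs₀n, hs₀e, hs₀f, hs₀c, hs₀g⟩ := hs
  obtain ⟨he0, he1, hf0, hf1⟩ := hb n
  have hd : ∀ i, ‖α (P.r i) (star s₀ * s₀) - e n‖ ≤ θ := fun i => by
    have e1 : α (P.r i) (star s₀ * s₀) - e n =
        α (P.r i) (star s₀ * s₀ - e n) + (α (P.r i) (e n) - e n) := by rw [map_sub]; abel
    rw [e1]
    refine (norm_add_le _ _).trans ?_
    rw [StarAlgEquiv.norm_map]
    linarith [(hinv i).1]
  have hor : ∀ i j, i ≠ j → ‖star s₀ * α ((P.r i)⁻¹ * P.r j) s₀‖ ≤ θ := fun i j hij =>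
    (hs₀g _ (Finset.mem_image.2 ⟨(i, j), Finset.mem_filter.2 ⟨Finset.mem_univ _, hij⟩, rfl⟩)).trans
      (by linarith)
  have hgram := P.gram_le hα hθ0.le hd hor
  refine ⟨P.avg s₀, ?_, hgram.trans (by nlinarith), ?_, fun y hy => ?_, fun g hg => ?_⟩
  · have h1 := norm_le_norm_add_norm_sub' (star (P.avg s₀) * P.avg s₀) (e n)
    rw [CStarRing.norm_star_mul_self] at h1
    nlinarith [norm_nonneg (P.avg s₀)]
  · have e1 : f n * P.avg s₀ - P.avg s₀ =
        ∑ i, P.w i • (f n * α (P.r i) s₀ - α (P.r i) s₀) := by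
      simp only [Spread.avg, Finset.mul_sum, mul_smul_comm, smul_sub, Finset.sum_sub_distrib]
    rw [e1]
    refine (P.norm_wsum_le _ hθ0.le fun i _ => ?_).trans (by nlinarith)
    have e2 : f n * α (P.r i) s₀ - α (P.r i) s₀ =
        α (P.r i) (f n * s₀ - s₀) - (α (P.r i) (f n) - f n) * α (P.r i) s₀ := by
      simp only [map_sub, map_mul, sub_mul]; abel
    rw [e2]
    refine (norm_sub_le _ _).trans ?_
    rw [StarAlgEquiv.norm_map]
    have h2 := (norm_mul_le (α (P.r i) (f n) - f n) (α (P.r i) s₀)).trans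
      ((mul_le_of_le_one_right (norm_nonneg _) ((StarAlgEquiv.norm_map _ _).trans_le hs₀n)).trans
        (hinv i).2)
    linarith
  · refine (P.commutator_le hα y s₀ hθ0.le fun i => ?_).trans (by nlinarith)
    exact (hs₀c _ (Finset.mem_union_left _
      (Finset.mem_biUnion.2 ⟨y, hy, Finset.mem_image.2 ⟨i, Finset.mem_univ _, rfl⟩⟩))).trans
        (by linarith)
  · refine (P.invariant_le hα (σ := σ g hg) (hσ2 g hg) hθ0.le he1 hd hor fun i hi =>
      hF (⟨g, hg⟩, i) hi s₀ hs₀n fun y hy => (hs₀c y (Finset.mem_union_right _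
        (Finset.mem_biUnion.2 ⟨(⟨g, hg⟩, i), Finset.mem_univ _, hy⟩))).trans (hδ₀x _)).trans ?_
    have h1 : Real.sqrt (ε₁ ^ 2 / 16 + 4 * (P.n : ℝ) ^ 2 * θ) ≤ ε₁ / 2 :=
      Real.sqrt_le_iff.2 ⟨by positivity, by nlinarith⟩
    linarith

end Vale.Agent.P095.Uni
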