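import Vale.Agent.P095.Uni.Goals

/-!
# P095: elements of a dimension drop algebra moving `n` columns into few orthogonal slots

At `0` the slots lie in the first half of the first factor, at `1` in the first half of the second
one; on the first half of the interval a path from `1` to a symmetry moves the former away from the
latter, so that on the second half the two can be superposed.
-/

open scoped Kronecker ComplexOrder
open Matrix Complex

noncomputable section

namespace Vale.Agent.P095.Uni.Slots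

section Finite

variable {n k p : ℕ}

/-- The block and the place of a column. -/
def col (n p : ℕ) [NeZero n] (y : Fin p) : Fin n × Fin (p / n + p % n) :=
  if h : (y : ℕ) < n * (p / n) then
    (⟨(y : ℕ) / (p / n), Nat.div_lt_of_lt_mul (by rwa [mul_comm])⟩,
      ⟨(y : ℕ) % (p / n), (Nat.mod_lt _ (Nat.pos_of_ne_zero fun h0 => by simp [h0] at h)).trans_le
        (Nat.le_add_right _ _)⟩)
  else (0, ⟨p / n + ((y : ℕ) - n * (p / n)), by
    have := y.2; have := Nat.div_add_mod p n; omega⟩)

theorem col_injective [NeZero n] : Function.Injective (col n p) := by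
  intro x y h
  rw [col, col] at h
  ext
  split_ifs at h with hx hy hy
  · simp only [Prod.mk.injEq, Fin.mk.injEq] at h
    rw [← Nat.div_add_mod (x : ℕ) (p / n), h.1, h.2, Nat.div_add_mod]
  · simp only [Prod.mk.injEq, Fin.mk.injEq] at h
    have := Nat.mod_lt (x : ℕ) (Nat.pos_of_ne_zero (n := p / n) fun h0 => by simp [h0] at hx)
    omega
  · simp only [Prod.mk.injEq, Fin.mk.injEq] at h
    have := Nat.mod_lt (y : ℕ) (Nat.pos_of_ne_zero (n := p / n) fun h0 => by simp [h0] at hy)
    omega
  · simp only [Prod.mk.injEq, Fin.mk.injEq] at h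
    omega

variable [NeZero n] (h : 2 * (k * (p / n + p % n)) ≤ p)

/-- The place of a slot, in the first half. -/
def pos (x : Fin k × Fin (p / n + p % n)) : Fin p := Fin.castLE (by omega) (finProdFinEquiv x)

omit [NeZero n] in
theorem pos_injective : Function.Injective (pos h) :=
  fun _ _ e => finProdFinEquiv.injective (Fin.castLE_injective _ e)

omit [NeZero n] in
theorem pos_lt (x : Fin k × Fin (p / n + p % n)) : (pos h x : ℕ) < p / 2 :=
  (finProdFinEquiv x).2.trans_le (by omega)

/-- The partial isometry from the block `j` into the slot `s`. -/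
def mv (s : Fin k) (j : Fin n) : Matrix (Fin p) (Fin p) ℂ :=
  .of fun x y => if (col n p y).1 = j ∧ x = pos h (s, (col n p y).2) then 1 else 0

/-- The Gram matrix shared by all slots. -/
def gram (n p : ℕ) [NeZero n] (j l : Fin n) : Matrix (Fin p) (Fin p) ℂ :=
  .of fun y z => if (col n p y).1 = j ∧ (col n p z).1 = l ∧ (col n p y).2 = (col n p z).2 then 1 else 0

theorem mv_gram (s t : Fin k) (j l : Fin n) :
    (mv h s j)ᴴ * mv h t l = if s = t then gram n p j l else 0 := by
  ext y z
  rw [Matrix.mul_apply, Finset.sum_eq_single (pos h (s, (col n p y).2))]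
  · simp only [mv, conjTranspose_apply, of_apply, and_true, (pos_injective h).eq_iff, Prod.mk.injEq]
    by_cases hj : (col n p y).1 = j <;> by_cases hst : s = t <;> simp [hj, hst, gram]
  · intro x _ hx
    simp [mv, hx]
  · simp

theorem sum_gram : ∑ j : Fin n, gram n p j j = 1 := by
  ext y z
  rw [Matrix.sum_apply, Matrix.one_apply, Finset.sum_eq_single (col n p y).1]
  · have e : (col n p z).1 = (col n p y).1 ∧ (col n p y).2 = (col n p z).2 ↔ y = z := by
      rw [← (col_injective (n := n) (p := p)).eq_iff, Prod.ext_iff]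
      exact and_congr_left' eq_comm
    simp [gram, e]
  · intro j _ hj
    simp [gram, Ne.symm hj]
  · simp

end Finite

section Path

variable {p q : ℕ}

/-- The meeting of the two halves and its mirror image. -/
def meets (x : Fin p × Fin q) : Prop :=
  ((x.1 : ℕ) < p / 2 ∧ (x.2 : ℕ) < q / 2) ∨ ((x.1.rev : ℕ) < p / 2 ∧ (x.2.rev : ℕ) < q / 2)

instance : DecidablePred (meets (p := p) (q := q)) := fun _ => by unfold meets; infer_instance

/-- The involution moving the meeting of the two halves to its mirror image. -/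
def flip (x : Fin p × Fin q) : Fin p × Fin q := if meets x then (x.1.rev, x.2.rev) else x

theorem flip_flip (x : Fin p × Fin q) : flip (flip x) = x := by
  by_cases h : meets x
  · have h' : meets (x.1.rev, x.2.rev) := by
      rcases h with h | h
      · exact Or.inr (by simpa using h)
      · exact Or.inl h
    simp [flip, h, h']
  · simp [flip, h]

theorem snd_flip {x : Fin p × Fin q} (hx : (x.1 : ℕ) < p / 2) : ¬((flip x).2 : ℕ) < q / 2 := by
  have := x.1.2
  have := x.2.2
  rw [flip]
  split_ifs with h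
  · rcases h with h | h <;> simp only [Fin.val_rev] at * <;> omega
  · intro h'
    exact h (Or.inl ⟨hx, h'⟩)

/-- The symmetry of the involution. -/
def sym (p q : ℕ) : Matrix (Fin p × Fin q) (Fin p × Fin q) ℂ :=
  .of fun x y => if y = flip x then 1 else 0

theorem sym_conjTranspose : (sym p q)ᴴ = sym p q := by
  ext x y
  have e : x = flip y ↔ y = flip x :=
    ⟨fun h => by rw [h, flip_flip], fun h => by rw [h, flip_flip]⟩
  simp [sym, e, apply_ite]

theorem sym_mul (M : Matrix (Fin p × Fin q) (Fin p × Fin q) ℂ) (x y : Fin p × Fin q) :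
    (sym p q * M) x y = M (flip x) y := by
  simp [Matrix.mul_apply, sym]

theorem sym_sq : sym p q * sym p q = 1 := by
  ext x y
  rw [sym_mul]
  simp [sym, flip_flip, Matrix.one_apply, eq_comm]

/-- The path from `1` to the symmetry. -/
def path (z : ℂ) : Matrix (Fin p × Fin q) (Fin p × Fin q) ℂ :=
  ((1 + z) / 2) • 1 + ((1 - z) / 2) • sym p q

theorem path_unitary {z : ℂ} (hz : ‖z‖ = 1) : (path (p := p) (q := q) z)ᴴ * path z = 1 := by
  have hzz : (starRingEnd ℂ) z * z = 1 := by
    rw [mul_comm, Complex.mul_conj', hz]; simp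
  simp only [path, conjTranspose_add, conjTranspose_smul, conjTranspose_one, sym_conjTranspose,
    add_mul, mul_add, smul_mul_smul_comm, mul_one, one_mul, sym_sq]
  have comb : ∀ (a b c d : ℂ) (U S : Matrix (Fin p × Fin q) (Fin p × Fin q) ℂ),
      a • U + b • S + (c • S + d • U) = (a + d) • U + (b + c) • S := fun a b c d U S => by module
  rw [comb]
  have h1 : star ((1 + z) / 2) * ((1 + z) / 2) + star ((1 - z) / 2) * ((1 - z) / 2) = 1 := by
    simp only [Complex.star_def, map_div₀, map_add, map_sub, map_one, map_ofNat]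
    linear_combination hzz / 2
  have h2 : star ((1 - z) / 2) * ((1 + z) / 2) + star ((1 + z) / 2) * ((1 - z) / 2) = 0 := by
    simp only [Complex.star_def, map_div₀, map_add, map_sub, map_one, map_ofNat]
    linear_combination -hzz / 2
  rw [h1, h2, one_smul, zero_smul, add_zero]

/-- The phase of the first half. -/
def phase (t : unitInterval) : ℂ := Complex.exp (I * Real.pi * ((min 1 (2 * (t : ℝ)) : ℝ) : ℂ))

theorem norm_phase (t : unitInterval) : ‖phase t‖ = 1 := by
  rw [phase, Complex.norm_exp]; simp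

theorem phase_zero : phase 0 = 1 := by simp [phase]

theorem phase_of_half {t : unitInterval} (ht : 1 ≤ 2 * (t : ℝ)) : phase t = -1 := by
  simp [phase, min_eq_left ht, mul_comm I, Complex.exp_pi_mul_I]

/-- The angle of the second half. -/
def ang (t : unitInterval) : ℝ := Real.pi / 2 * max 0 (2 * (t : ℝ) - 1)

theorem cross_zero {n k : ℕ} [NeZero n] (hp : 2 * (k * (p / n + p % n)) ≤ p)
    (hq : 2 * (k * (q / n + q % n)) ≤ q) (s t : Fin k) (j l : Fin n) :
    (sym p q * (mv hp s j ⊗ₖ 1))ᴴ * ((1 : Matrix (Fin p) (Fin p) ℂ) ⊗ₖ mv hq t l) = 0 := by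
  ext x y
  rw [Matrix.mul_apply]
  refine Finset.sum_eq_zero fun u _ => ?_
  rw [conjTranspose_apply, sym_mul, Matrix.kroneckerMap_apply, Matrix.kroneckerMap_apply]
  simp only [mv, of_apply, Matrix.one_apply, mul_ite, mul_one, mul_zero]
  split_ifs with h1 h2 <;> try simp
  rename_i _ hc
  have h3 : ((flip u).1 : ℕ) < p / 2 := by rw [hc.2]; exact pos_lt _ _
  have h4 := snd_flip h3
  rw [flip_flip] at h4
  exact absurd ((congrArg Fin.val h1.2).trans_lt (pos_lt _ _)) h4

/-- The slot element. -/
def slot {n k : ℕ} [NeZero n] (hp : 2 * (k * (p / n + p % n)) ≤ p)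
    (hq : 2 * (k * (q / n + q % n)) ≤ q) (s : Fin k) (j : Fin n) :
    unitInterval → Matrix (Fin p × Fin q) (Fin p × Fin q) ℂ := fun t =>
  (Real.cos (ang t) : ℂ) • (path (phase t) * (mv hp s j ⊗ₖ 1)) +
    (Real.sin (ang t) : ℂ) • ((1 : Matrix (Fin p) (Fin p) ℂ) ⊗ₖ mv hq s j)

variable {n k : ℕ} [NeZero n] (hp : 2 * (k * (p / n + p % n)) ≤ p)
  (hq : 2 * (k * (q / n + q % n)) ≤ q)

theorem slot_mem (s : Fin k) (j : Fin n) : slot hp hq s j ∈ dropAlgebra p q := by
  refine ⟨by unfold slot path phase ang; fun_prop, ⟨mv hp s j, ?_⟩, mv hq s j, ?_⟩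
  · simp [slot, ang, phase_zero, path]
  · have h1 : (1 : ℝ) ≤ 2 * ((1 : unitInterval) : ℝ) := by simp
    have e : ang (1 : unitInterval) = Real.pi / 2 := by simp [ang]; norm_num
    simp [slot, e]

theorem slot_gram (s t : Fin k) (j l : Fin n) (x : unitInterval) :
    (slot hp hq s j x)ᴴ * slot hp hq t l x =
      if s = t then ((Real.cos (ang x) ^ 2 : ℝ) : ℂ) • (gram n p j l ⊗ₖ 1) +
        ((Real.sin (ang x) ^ 2 : ℝ) : ℂ) • ((1 : Matrix (Fin p) (Fin p) ℂ) ⊗ₖ gram n q j l)
      else 0 := by
  set a := Real.cos (ang x)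
  set b := Real.sin (ang x) with hb
  have hL : (path (phase x) * (mv hp s j ⊗ₖ 1))ᴴ * (path (phase x) * (mv hp t l ⊗ₖ 1)) =
      (if s = t then gram n p j l else 0) ⊗ₖ (1 : Matrix (Fin q) (Fin q) ℂ) := by
    rw [conjTranspose_mul, Matrix.mul_assoc, ← Matrix.mul_assoc (path (phase x))ᴴ,
      path_unitary (norm_phase x), Matrix.one_mul, conjTranspose_kronecker, conjTranspose_one,
      ← mul_kronecker_mul, mv_gram, Matrix.mul_one]
  have hR : ((1 : Matrix (Fin p) (Fin p) ℂ) ⊗ₖ mv hq s j)ᴴ *
      ((1 : Matrix (Fin p) (Fin p) ℂ) ⊗ₖ mv hq t l) =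
      (1 : Matrix (Fin p) (Fin p) ℂ) ⊗ₖ (if s = t then gram n q j l else 0) := by
    rw [conjTranspose_kronecker, conjTranspose_one, ← mul_kronecker_mul, mv_gram, Matrix.mul_one]
  have hc : ∀ s t j l, (b : ℂ) • ((path (phase x) * (mv hp s j ⊗ₖ 1))ᴴ *
      ((1 : Matrix (Fin p) (Fin p) ℂ) ⊗ₖ mv hq t l)) = 0 := by
    intro s t j l
    by_cases hx : 1 ≤ 2 * (x : ℝ)
    · have e : path (p := p) (q := q) (phase x) = sym p q := by
        simp [phase_of_half hx, path]
      rw [e, cross_zero, smul_zero]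
    · have e : b = 0 := by
        rw [hb, ang, max_eq_left (by linarith [not_le.1 hx])]; simp
      simp [e]
  have hc' : (b : ℂ) • (((1 : Matrix (Fin p) (Fin p) ℂ) ⊗ₖ mv hq s j)ᴴ *
      (path (phase x) * (mv hp t l ⊗ₖ 1))) = 0 := by
    have h := congrArg conjTranspose (hc t s l j)
    rwa [conjTranspose_smul, conjTranspose_mul, conjTranspose_conjTranspose, conjTranspose_zero,
      Complex.star_def, Complex.conj_ofReal] at h
  have main : ∀ (P Q P' Q' : Matrix (Fin p × Fin q) (Fin p × Fin q) ℂ),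
      ((a : ℂ) • P + (b : ℂ) • Q)ᴴ * ((a : ℂ) • P' + (b : ℂ) • Q') =
        ((a ^ 2 : ℝ) : ℂ) • (Pᴴ * P') + (a : ℂ) • ((b : ℂ) • (Pᴴ * Q')) +
          ((a : ℂ) • ((b : ℂ) • (Qᴴ * P')) + ((b ^ 2 : ℝ) : ℂ) • (Qᴴ * Q')) := by
    intro P Q P' Q'
    simp only [conjTranspose_add, conjTranspose_smul, Complex.star_def, Complex.conj_ofReal,
      add_mul, mul_add, smul_mul_smul_comm, smul_smul]
    push_cast
    module
  rw [slot, slot, main, hL, hR, hc, hc', smul_zero, add_zero, zero_add]
  split_ifs <;> simp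

end Path

section Main

variable {A : Type*} [CStarAlgebra A]

theorem exists_slots {p q n k : ℕ} [NeZero n] (hp : 2 * (k * (p / n + p % n)) ≤ p)
    (hq : 2 * (k * (q / n + q % n)) ≤ q) :
    ∃ R : Fin k → Fin n → dropAlgebra p q,
      (∀ s t, s ≠ t → ∀ j l, star (R s j) * R t l = 0) ∧
      (∀ s t j l, star (R s j) * R s l = star (R t j) * R t l) ∧
      ∀ s, ∑ j, star (R s j) * R s j = 1 := by
  refine ⟨fun s j => ⟨slot hp hq s j, slot_mem hp hq s j⟩, fun s t hst j l => ?_,
    fun s t j l => ?_, fun s => ?_⟩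
  · refine Subtype.ext (funext fun x => ?_)
    show (slot hp hq s j x)ᴴ * slot hp hq t l x = 0
    rw [slot_gram, if_neg hst]
  · refine Subtype.ext (funext fun x => ?_)
    show (slot hp hq s j x)ᴴ * slot hp hq s l x = (slot hp hq t j x)ᴴ * slot hp hq t l x
    rw [slot_gram, slot_gram, if_pos rfl, if_pos rfl]
  · refine Subtype.ext (funext fun x => ?_)
    rw [AddSubmonoidClass.coe_finsetSum, Finset.sum_apply]
    show ∑ j, (slot hp hq s j x)ᴴ * slot hp hq s j x = 1
    simp only [slot_gram, if_true]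
    rw [Finset.sum_add_distrib, ← Finset.smul_sum, ← Finset.smul_sum]
    have e1 : ∑ j : Fin n, gram n p j j ⊗ₖ (1 : Matrix (Fin q) (Fin q) ℂ) = 1 := by
      rw [← one_kronecker_one (m := Fin p), ← sum_gram (n := n) (p := p)]
      ext a b
      simp [Matrix.sum_apply, Finset.sum_mul]
    have e2 : ∑ j : Fin n, (1 : Matrix (Fin p) (Fin p) ℂ) ⊗ₖ gram n q j j = 1 := by
      rw [← one_kronecker_one (n := Fin q), ← sum_gram (n := n) (p := q)]
      ext a b
      simp [Matrix.sum_apply, Finset.mul_sum]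
    rw [e1, e2, ← add_smul, ← Complex.ofReal_add, Real.cos_sq_add_sin_sq]
    simp

/-- A map on drop elements as a homomorphism. -/
theorem exists_hom {p q : ℕ}
    {ψ : (unitInterval → Matrix (Fin p × Fin q) (Fin p × Fin q) ℂ) → A}
    (hψ : IsUnitalHomOn (IsDropElement p q) ψ) :
    ∃ π : dropAlgebra p q →⋆ₐ[ℂ] A, ∀ f, π f = ψ f.1 := by
  obtain ⟨h1, hops⟩ := hψ
  refine ⟨{ toFun := fun f => ψ f.1, map_one' := h1, map_mul' := ?_, map_zero' := ?_, map_add' := ?_,
            commutes' := ?_, map_star' := ?_ }, fun f => rfl⟩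
  · exact fun f g => (hops f.1 g.1 f.2 g.2).2.1
  · have h := (hops 1 1 (dropAlgebra p q).one_mem (dropAlgebra p q).one_mem).2.2.1 0
    simpa using h
  · exact fun f g => (hops f.1 g.1 f.2 g.2).1
  · intro c
    show ψ (algebraMap ℂ _ c) = algebraMap ℂ A c
    rw [Algebra.algebraMap_eq_smul_one, Algebra.algebraMap_eq_smul_one,
      (hops 1 1 (dropAlgebra p q).one_mem (dropAlgebra p q).one_mem).2.2.1 c, h1]
  · exact fun f => (hops f.1 f.1 f.2 f.2).2.2.2

theorem norm_le_one {m : ℕ} {R : Fin m → A} (h : ∑ j, star (R j) * R j = 1) (j : Fin m) :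
    ‖R j‖ ≤ 1 := by
  let := CStarAlgebra.spectralOrder A
  have := CStarAlgebra.spectralOrderedRing A
  rcases subsingleton_or_nontrivial A with hA | hA
  · simp [Subsingleton.elim (R j) 0]
  have h1 : star (R j) * R j ≤ 1 := h ▸ Finset.single_le_sum
    (f := fun i => star (R i) * R i) (fun i _ => star_mul_self_nonneg _) (Finset.mem_univ j)
  have h2 := (CStarAlgebra.norm_le_one_iff_of_nonneg _ (star_mul_self_nonneg (R j))).2 h1
  rw [CStarRing.norm_star_mul_self] at h2
  nlinarith [norm_nonneg (R j)]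

theorem small {p n k : ℕ} (hn : 0 < n) (hk : 4 * k ≤ n) (hp : 4 * (k * n) ≤ p) :
    2 * (k * (p / n + p % n)) ≤ p := by
  have h1 : 4 * (k * (p / n)) ≤ p := by
    calc 4 * (k * (p / n)) = 4 * k * (p / n) := by ring
      _ ≤ n * (p / n) := Nat.mul_le_mul_right _ hk
      _ ≤ p := Nat.mul_div_le p n
  have h2 : k * (p % n) ≤ k * n := Nat.mul_le_mul_left k (Nat.mod_lt p hn).le
  rw [mul_add]
  omega

/-- Central maps from large dimension drop algebras give the slot elements. -/
theorem slots_goal (hd : HasCentralDropMaps A) : SlotsGoal A := by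
  intro n k hk hkn C ε hε
  have : NeZero n := ⟨by omega⟩
  obtain ⟨p, q, hp, hq, -, ψ, hψ, hc⟩ := hd C ε hε (4 * (k * n))
  obtain ⟨π, hπ⟩ := exists_hom hψ
  obtain ⟨R, h1, h2, h3⟩ := exists_slots (n := n) (k := k) (small (by omega) hkn hp)
    (small (by omega) hkn hq)
  refine ⟨fun s j => π (R s j), fun s t hst j l => ?_, fun s t j l => ?_, fun s => ?_,
    fun c hcC s j => ?_⟩
  · rw [← map_star, ← map_mul, h1 s t hst, map_zero]
  · rw [← map_star, ← map_mul, ← map_star, ← map_mul, h2 s t]
  · simp only [← map_star, ← map_mul, ← map_sum, h3, map_one]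
  · dsimp only
    rw [hπ]
    refine hc c hcC _ (R s j).2 ?_
    rw [← hπ]
    refine norm_le_one (R := fun j => π (R s j)) ?_ j
    simp only [← map_star, ← map_mul, ← map_sum, h3, map_one]

/-- An algebra with such maps is infinite dimensional. -/
theorem not_finiteDimensional [Nontrivial A] (hd : HasCentralDropMaps A) :
    ¬FiniteDimensional ℂ A := by
  intro hfin
  set k := Module.finrank ℂ A + 1
  obtain ⟨R, h1, -, h3, -⟩ := slots_goal hd (4 * k) k (by omega) le_rfl ∅ 1 one_pos
  let Q : Fin k → A := fun s => ∑ j, R s j * star (R s j)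
  have hQ : ∀ s t, s ≠ t → Q s * Q t = 0 := fun s t hst => by
    simp only [Q, Finset.sum_mul, Finset.mul_sum]
    refine Finset.sum_eq_zero fun j _ => Finset.sum_eq_zero fun l _ => ?_
    simp only [mul_assoc]
    rw [← mul_assoc (star _) (R _ _), h1 _ _ hst, zero_mul, mul_zero]
  have hne : ∀ s, Q s * Q s ≠ 0 := fun s h0 => by
    let := CStarAlgebra.spectralOrder A
    have := CStarAlgebra.spectralOrderedRing A
    have hQs : star (Q s) = Q s := by simp [Q, star_sum]
    have hQ0 : Q s = 0 := by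
      rw [← norm_eq_zero, ← sq_eq_zero_iff, sq, ← CStarRing.norm_star_mul_self, hQs, h0, norm_zero]
    have hz := (Finset.sum_eq_zero_iff_of_nonneg fun j _ => mul_star_self_nonneg (R s j)).1 hQ0
    have : (1 : A) = 0 := by
      rw [← h3 s]
      refine Finset.sum_eq_zero fun j hj => ?_
      rw [(CStarRing.mul_star_self_eq_zero_iff (R s j)).1 (hz j hj), mul_zero]
    exact one_ne_zero this
  have hli : LinearIndependent ℂ Q := by
    rw [Fintype.linearIndependent_iff]
    intro g hg s
    have h := congrArg (fun z => Q s * z) hg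
    simp only [Finset.mul_sum, mul_smul_comm, mul_zero] at h
    rw [Finset.sum_eq_single s (fun t _ ht => by rw [hQ s t ht.symm, smul_zero]) (by simp)] at h
    exact (smul_eq_zero.1 h).resolve_right (hne s)
  have := hli.fintype_card_le_finrank
  simp [k] at this

end Main

end Vale.Agent.P095.Uni.Slots
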