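import Vale.Agent.P095.Uni.Goals
import Vale.Agent.P095.Uni.Slots
import Vale.Agent.P095.AF.DropHom
import Vale.Agent.P095.AF.Lift
import Vale.Agent.P095.AF.Absorb
import Vale.Agent.P095.Upgrade.Transfer
import Vale.Agent.P095.Upgrade.Final
import Vale.Agent.P095.Drop.McDuff

/-!
# P095: equivariant property (SI) and central drop maps give equivariant Z-stability
-/

open scoped ComplexOrder
open Filter

namespace Vale.Agent.P095.Uni

/-- Central drop maps and equivariant property (SI) make the action equivariantly Z-stable. -/
theorem isEquivariantlyZStable_of_si {G A : Type*} [Group G] [Countable G] [CStarAlgebra A]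
    [PartialOrder A] [StarOrderedRing A] [TopologicalSpace.SeparableSpace A]
    (hG : IsAmenableGroup G) (hd : HasCentralDropMaps A)
    (α : G → A ≃⋆ₐ[ℂ] A) (hα : ∀ g h a, α (g * h) a = α g (α h a))
    (hsi : AF.SIGoal α) : AF.IsEquivariantlyZStable α := by
  have hE : HasEquivariantUniformMcDuff α :=
    hasEquivariantUniformMcDuff_of_goal (Drop.isUniformlyMcDuff hd) α hα
      (mcDuffGoal_of_foelner hG _)
  exact AF.isEquivariantlyZStable_of_drop hα
    (AF.dropGoal_of_si (ω := hyperfilter ℕ) α hyperfilter_le_cofinite (AF.lift_goal α hE) hsi)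

end Vale.Agent.P095.Uni
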