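import Vale.Agent.P095.AF.Goals
import Vale.Agent.P095.Drop.Defs

/-!
# P095: the steps from Z-stability of a nuclear algebra to equivariant Z-stability

All statements are about a unital C⋆-algebra; the steps are proved in the other files of this
folder.
-/

open scoped ComplexOrder
open Filter Topology Matrix

noncomputable section

namespace Vale.Agent.P095.Uni

/-- The completely positive approximation property: the identity is a pointwise norm limit of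
composites of completely positive contractions through matrix algebras. Complete positivity is
stated on the elements `(xᵢ⋆ xⱼ)`, whose sums are the positive matrices. -/
def IsNuclear (A : Type*) [CStarAlgebra A] : Prop :=
  ∀ (C : Finset A) (ε : ℝ), 0 < ε → ∃ (D : ℕ) (φ : A →ₗ[ℂ] Matrix (Fin D) (Fin D) ℂ)
    (ψ : Matrix (Fin D) (Fin D) ℂ →ₗ[ℂ] A),
    (∀ (k : ℕ) (x : Fin k → A) (v : Fin k → Fin D → ℂ),
      0 ≤ ∑ i, ∑ j, star (v i) ⬝ᵥ (φ (star (x i) * x j) *ᵥ v j)) ∧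
    (∀ v : Fin D → ℂ, star v ⬝ᵥ (φ 1 *ᵥ v) ≤ star v ⬝ᵥ v) ∧
    (∀ (k : ℕ) (y : Fin k → Matrix (Fin D) (Fin D) ℂ) (b : Fin k → A),
      ∃ a : A, ∑ i, ∑ j, star (b i) * ψ (star (y i) * y j) * b j = star a * a) ∧
    ‖ψ 1‖ ≤ 1 ∧
    ∀ c ∈ C, ‖ψ (φ c) - c‖ ≤ ε

/-- The cut-off which vanishes below `η / 2` and equals one above `η`. -/
def ramp (η t : ℝ) : ℝ := min 1 (max 0 (2 * t / η - 1))

/-- Domination in trace gives a decomposition `a ≈ ∑ xᵢ⋆ xᵢ` with `∑ xᵢ xᵢ⋆` below a multiple of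
`b` (after Cuntz and Pedersen). -/
def DecompGoal (A : Type*) [CStarAlgebra A] [PartialOrder A] : Prop :=
  ∀ (a b : A) (κ ε : ℝ), 0 ≤ a → 0 ≤ b → b ≠ 0 → 0 < κ → 0 < ε →
    (∀ τ : A →ₗ[ℂ] ℂ, IsTracial τ → (τ a).re < κ * (τ b).re) →
    ∃ (L : ℕ) (x : Fin L → A),
      ‖∑ i, star (x i) * x i - a‖ ≤ ε ∧ ∑ i, x i * star (x i) ≤ κ • b

/-- Finite matrices behaving like the cut of free unitaries by a free projection of trace `1/m`. -/
def MatrixGoal : Prop :=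
  ∀ (m L D : ℕ) (c : Fin L → Fin L → Matrix (Fin D) (Fin D) ℂ) (δ : ℝ),
    2 ≤ m → 0 < δ → m * δ ≤ 1 →
    (∀ v : Fin L → Fin D → ℂ, 0 ≤ ∑ i, ∑ j, star (v i) ⬝ᵥ (c i j *ᵥ v j) ∧
      ∑ i, ∑ j, star (v i) ⬝ᵥ (c i j *ᵥ v j) ≤ (δ : ℂ) * ∑ i, star (v i) ⬝ᵥ v i) →
    (∀ v : Fin D → ℂ, star v ⬝ᵥ ((∑ i, c i i) *ᵥ v) ≤ star v ⬝ᵥ v) →
    ∃ (N K : ℕ) (V : Fin L → Matrix (Fin K) (Fin N) ℂ), 0 < N ∧ m * K ≤ 2 * N ∧
      (∀ i (v : Fin N → ℂ), star (V i *ᵥ v) ⬝ᵥ (V i *ᵥ v) ≤ (m : ℂ) * (star v ⬝ᵥ v)) ∧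
      ∀ ξ : Fin N → Fin D → ℂ,
        ‖(∑ j, ∑ l, star (ξ j) ⬝ᵥ
            ((∑ i, ∑ i', ((V i)ᴴ * V i') j l • c i i') *ᵥ ξ l)) -
          ∑ j, star (ξ j) ⬝ᵥ ((∑ i, c i i) *ᵥ ξ j)‖ ≤
          8 * Real.sqrt (m * δ) * ‖∑ j, star (ξ j) ⬝ᵥ ξ j‖

/-- Almost central elements, exact images of elements of a dimension drop algebra, which move `n`
columns into `k ≤ n / 4` orthogonal slots, all slots with the same Gram matrix of total one. -/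
def SlotsGoal (A : Type*) [CStarAlgebra A] : Prop :=
  ∀ (n k : ℕ), 0 < k → 4 * k ≤ n → ∀ (C : Finset A) (ε : ℝ), 0 < ε →
    ∃ R : Fin k → Fin n → A,
      (∀ s t, s ≠ t → ∀ j l, star (R s j) * R t l = 0) ∧
      (∀ s t j l, star (R s j) * R s l = star (R t j) * R t l) ∧
      (∀ s, ∑ j, star (R s j) * R s j = 1) ∧
      ∀ c ∈ C, ∀ s j, ‖c * R s j - R s j * c‖ ≤ ε

/-- Comparison of an element of small trace with one of trace bounded below. -/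
def CompareGoal (A : Type*) [CStarAlgebra A] [PartialOrder A] : Prop :=
  ∀ c ε : ℝ, 0 < c → 0 < ε → ∃ δ η : ℝ, 0 < δ ∧ 0 < η ∧ ∀ a b : A,
    0 ≤ a → ‖a‖ ≤ 1 → 0 ≤ b → ‖b‖ ≤ 1 →
    (∀ τ : A →ₗ[ℂ] ℂ, IsTracial τ → c ≤ (τ b).re ∧ (τ a).re ≤ δ) →
    ∃ x : A, ‖star x * x - a‖ ≤ ε ∧ cfc (ramp η) b * x = x

/-- The automorphism is trivial on central sequences. -/
def CentrallyTrivial {A : Type*} [CStarAlgebra A] (σ : A ≃⋆ₐ[ℂ] A) : Prop :=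
  ∀ ε : ℝ, 0 < ε → ∃ (F : Finset A) (δ : ℝ), 0 < δ ∧
    ∀ x : A, ‖x‖ ≤ 1 → (∀ c ∈ F, ‖c * x - x * c‖ ≤ δ) → ‖σ x - x‖ ≤ ε

/-- A decreasing sequence excising a state, moved away by every member of the action which is not
trivial on central sequences. -/
structure Excision {G A : Type*} [CStarAlgebra A] [PartialOrder A] (α : G → A ≃⋆ₐ[ℂ] A) where
  h : ℕ → A
  φ : A →ₗ[ℂ] ℂ
  nonneg : ∀ j, 0 ≤ h j
  norm_eq : ∀ j, ‖h j‖ = 1
  nested : ∀ j, h j * h (j + 1) = h (j + 1)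
  φ_one : φ 1 = 1
  φ_nonneg : ∀ a, 0 ≤ φ (star a * a)
  excise : ∀ y, Tendsto (fun j => h j * y * h j - φ y • (h j * h j)) atTop (𝓝 0)
  moved : ∀ g, ¬CentrallyTrivial (α g) →
    ∀ z, Tendsto (fun j => h j * z * α g (h j)) atTop (𝓝 0)

/-- The excising sequence exists. -/
def ExciseGoal {G A : Type*} [CStarAlgebra A] [PartialOrder A] (α : G → A ≃⋆ₐ[ℂ] A) : Prop :=
  Nonempty (Excision α)

/-- The identity is approximated by one-step elementary maps through any given state. -/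
def OneStepGoal (A : Type*) [CStarAlgebra A] : Prop :=
  ∀ (φ : A →ₗ[ℂ] ℂ), φ 1 = 1 → (∀ a, 0 ≤ φ (star a * a)) →
    ∀ (C : Finset A) (ε : ℝ), 0 < ε → ∃ (n : ℕ) (d c : Fin n → A),
      ∀ y ∈ C, ‖∑ i, ∑ j, φ (star (d i) * y * d j) • (star (c i) * c j) - y‖ ≤ ε

end Vale.Agent.P095.Uni
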