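import Vale.Agent.P095.Uni.Infinite
import Vale.Agent.P095.Uni.Compare

/-!
# P095: without tracial states the unit almost embeds under every positive element
-/

open scoped ComplexOrder
open Filter Topology

noncomputable section

namespace Vale.Agent.P095.Uni

variable {A : Type*} [CStarAlgebra A] [PartialOrder A] [StarOrderedRing A]

/-- The traceless consequence of the comparison core. -/
theorem infGoal_of_no_trace [IsSimpleRing A] (hn : IsNuclear A) (hs : SlotsGoal A)
    (hd : DecompGoal A) (hm : MatrixGoal) (hT : ¬∃ τ : A →ₗ[ℂ] ℂ, IsTracial τ) : InfGoal A := by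
  intro b hb hb1 ε hε
  obtain ⟨κ, -, hcore⟩ := Compare.core hn hs hd hm hε
  have hsp : (1 : ℝ) ∈ spectrum ℝ b := hb1 ▸ CStarAlgebra.norm_mem_spectrum_of_nonneg hb
  obtain ⟨x, hx1, hx2⟩ := hcore 1 b (1 / 4) zero_le_one CStarRing.norm_one.le hb hb1.le
    (by norm_num) (Compare.cut_ne_zero (IsSelfAdjoint.of_nonneg hb) hsp (by norm_num))
    fun τ h => absurd ⟨τ, h⟩ hT
  exact ⟨1 / 4, x, by norm_num, hx1, hx2⟩

end Vale.Agent.P095.Uni
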