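import Vale.Agent.P095.Uni.Goals
import Vale.Agent.P095.Uni.Levels
import Vale.Agent.P095.Uni.Spread
import Vale.Agent.P095.AF.DropHom

/-!
# P095: invariant maps from dimension drop algebras when the unit embeds under every positive element

This is the case of an algebra without tracial states. Below an excising element there are
orthogonal levels, each carrying an almost isometry; spreading gives almost central, almost
invariant isometries with orthogonal ranges, hence exact ones in the fixed point algebra of the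
central sequences.
-/

set_option maxSynthPendingDepth 3

open scoped ComplexOrder
open Filter Topology

noncomputable section

namespace Vale.Agent.P095.Uni

/-- Under every nonzero positive element there is an almost isometry. -/
def InfGoal (A : Type*) [CStarAlgebra A] [PartialOrder A] : Prop :=
  ∀ b : A, 0 ≤ b → ‖b‖ = 1 → ∀ ε : ℝ, 0 < ε →
    ∃ (η : ℝ) (x : A), 0 < η ∧ ‖star x * x - 1‖ ≤ ε ∧ cfc (ramp η) b * x = x

variable {G A : Type*} [CStarAlgebra A] [PartialOrder A] [StarOrderedRing A] [IsSimpleRing A]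

omit [IsSimpleRing A] in
theorem top_fixes {D : Exc.Lev A} {η : ℝ} (hη : 0 < η) {x : A}
    (hx : cfc (ramp η) D.b * x = x) : D.top * x = x := by
  have h := Exc.mul_cfc_eq (IsSelfAdjoint.of_nonneg D.b_nonneg) D.top_mul
    (f := ramp η) (by unfold ramp; fun_prop) (half_pos hη) fun t ht => by
      have h1 : 2 * t / η - 1 ≤ 0 := by
        rw [sub_nonpos, div_le_one hη]; linarith [le_abs_self t]
      simp [ramp, max_eq_left h1]
  rw [← hx, ← mul_assoc, h]

/-- Almost isometries with orthogonal ranges, almost commuting with `C` and moved by `P`. -/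
theorem exists_family {α : G → A ≃⋆ₐ[ℂ] A} (hinf : ¬FiniteDimensional ℂ A) (he : ExciseGoal α)
    (ho : OneStepGoal A) (hc : InfGoal A) (N : ℕ) (C : Finset A) (P : Finset G)
    (hP : ∀ r ∈ P, ¬CentrallyTrivial (α r)) {θ : ℝ} (hθ : 0 < θ) :
    ∃ s : Fin N → A, (∀ a b, ‖star (s a) * s b - (if a = b then 1 else 0)‖ ≤ θ) ∧
      (∀ c ∈ C, ∀ a, ‖c * s a - s a * c‖ ≤ θ) ∧
      ∀ r ∈ P, ∀ a b, ‖star (s a) * α r (s b)‖ ≤ θ := by
  classical
  obtain ⟨E⟩ := he
  set BC : ℝ := 1 + ∑ c ∈ C, ‖c‖
  have hBC : 1 ≤ BC := le_add_of_nonneg_right (Finset.sum_nonneg fun _ _ => norm_nonneg _)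
  set θ₀ := min θ (θ ^ 2 / (BC + 1) ^ 2)
  have hθ₀ : 0 < θ₀ := lt_min hθ (by positivity)
  set C' : Finset A :=
    insert 1 (C ∪ C.image (fun c => star c) ∪ C.image fun c => star c * c) with hC'
  obtain ⟨m, d, c, hdc⟩ := ho E.φ E.φ_one E.φ_nonneg C' (θ₀ / 4) (by positivity)
  set B : ℝ := 1 + ∑ i, ‖c i‖
  have hB0 : 1 ≤ B := le_add_of_nonneg_right (Finset.sum_nonneg fun _ _ => norm_nonneg _)
  set R : ℝ := 2 + ∑ y ∈ C', ∑ i, ∑ j, ‖star (d i) * y * d j‖
  have hR : 2 ≤ R := le_add_of_nonneg_right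
    (Finset.sum_nonneg fun _ _ => Finset.sum_nonneg fun _ _ => Finset.sum_nonneg fun _ _ =>
      norm_nonneg _)
  set θ₂ := min 1 (θ₀ / (8 * B ^ 2)) with hθ₂
  have hθ₂0 : 0 < θ₂ := lt_min one_pos (by positivity)
  -- the excising element
  have E1 : ∀ᶠ k in atTop, ∀ y : C', ∀ i j,
      ‖E.h k * (star (d i) * y * d j) * E.h k -
        E.φ (star (d i) * y * d j) • (E.h k * E.h k)‖ ≤ θ₂ :=
    eventually_all.2 fun y => eventually_all.2 fun i => eventually_all.2 fun j => by
      have h := (E.excise (star (d i) * (y : A) * d j)).norm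
      rw [norm_zero] at h
      exact h.eventually (eventually_le_nhds hθ₂0)
  have E2 : ∀ᶠ k in atTop, ∀ r : P, ∀ i j,
      ‖E.h k * (star (d i) * α r (d j)) * α r (E.h k)‖ ≤ θ₂ :=
    eventually_all.2 fun r => eventually_all.2 fun i => eventually_all.2 fun j => by
      have h := (E.moved r (hP r r.2) (star (d i) * α r (d j))).norm
      rw [norm_zero] at h
      exact h.eventually (eventually_le_nhds hθ₂0)
  obtain ⟨k, hk1, hk2⟩ := (E1.and E2).exists
  let L : Exc.Lev A := ⟨E.h k, E.h (k + 1), E.nonneg k, (E.norm_eq k).le, E.nonneg _, E.norm_eq _,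
    E.nested k⟩
  obtain ⟨D, hD, hDo⟩ := Exc.exists_orth hinf N L
  set θ₃ := min 1 (θ₀ / (8 * B ^ 2 * (R + 1)))
  have hθ₃0 : 0 < θ₃ := lt_min one_pos (by positivity)
  choose η x hη hx hxD using fun a : Fin N => hc (D a).b (D a).b_nonneg (D a).norm_b θ₃ hθ₃0
  have hDx : ∀ a, (D a).top * x a = x a := fun a => top_fixes (hη a) (hxD a)
  set h := E.h k
  have hh : star h = h := (IsSelfAdjoint.of_nonneg (E.nonneg k)).star_eq
  have hhx : ∀ a, h * x a = x a := fun a => by
    rw [← hDx a, ← mul_assoc]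
    exact congrArg (· * x a) (hD a)
  have hxh : ∀ a, star (x a) * h = star (x a) := fun a => by
    have h1 := congrArg star (hhx a)
    rwa [star_mul, hh] at h1
  have hxx : ∀ a b, ‖star (x a) * x b - (if a = b then 1 else 0)‖ ≤ θ₃ := fun a b => by
    by_cases hab : a = b
    · subst hab; rw [if_pos rfl]; exact hx a
    · have e : star (x a) * x b = star (x a) * ((D a).top * (D b).top) * x b := by
        have h1 := congrArg star (hDx a)
        rw [star_mul, (D a).sa] at h1
        rw [← mul_assoc, h1, mul_assoc, hDx]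
      rw [if_neg hab, e, hDo a b hab]
      simpa using hθ₃0.le
  have hxn : ∀ a, ‖x a‖ ^ 2 ≤ 2 := fun a => by
    rw [sq, ← CStarRing.norm_star_mul_self]
    have h1 := norm_le_norm_add_norm_sub' (star (x a) * x a) 1
    rw [CStarRing.norm_one] at h1
    linarith [hx a, min_le_left (1 : ℝ) (θ₀ / (8 * B ^ 2 * (R + 1)))]
  have hxn2 : ∀ a b, ‖x a‖ * ‖x b‖ ≤ 2 := fun a b => by
    nlinarith [hxn a, hxn b, sq_nonneg (‖x a‖ - ‖x b‖)]
  -- the middle of each term
  have mid : ∀ y ∈ C', ∀ i j a b, ‖star (x a) * (star (d i) * y * d j) * x b -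
      E.φ (star (d i) * y * d j) • (if a = b then (1 : A) else 0)‖ ≤ 2 * θ₂ + (R + 1) * θ₃ := by
    intro y hy i j a b
    set z := star (d i) * y * d j with hz
    have hex := hk1 ⟨y, hy⟩ i j
    have hφz : ‖E.φ z‖ ≤ R + 1 := by
      have h1 : ‖h * z * h‖ ≤ ‖z‖ := norm_mul₃_le.trans (by rw [E.norm_eq, one_mul, mul_one])
      have h2 : ‖E.φ z • (h * h)‖ = ‖E.φ z‖ := by
        rw [norm_smul]
        conv_lhs => rw [← congrArg (· * h) hh]
        rw [CStarRing.norm_star_mul_self, E.norm_eq, one_mul, mul_one]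
      have h3 : ‖z‖ ≤ R := by
        refine le_trans ?_ (le_add_of_nonneg_left zero_le_two)
        refine le_trans ?_ (Finset.single_le_sum (f := fun y => ∑ i, ∑ j, ‖star (d i) * y * d j‖)
          (fun _ _ => by positivity) hy)
        refine le_trans ?_ (Finset.single_le_sum (f := fun i => ∑ j, ‖star (d i) * y * d j‖)
          (fun _ _ => by positivity) (Finset.mem_univ i))
        exact Finset.single_le_sum (f := fun j => ‖star (d i) * y * d j‖)
          (fun _ _ => norm_nonneg _) (Finset.mem_univ j)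
      have h4 := norm_le_norm_add_norm_sub' (E.φ z • (h * h)) (h * z * h)
      rw [norm_sub_rev] at h4
      linarith [min_le_left (1 : ℝ) (θ₀ / (8 * B ^ 2))]
    have e : star (x a) * z * x b - E.φ z • (if a = b then (1 : A) else 0) =
        star (x a) * (h * z * h - E.φ z • (h * h)) * x b +
          E.φ z • (star (x a) * x b - (if a = b then 1 else 0)) := by
      have h1 : star (x a) * (h * z * h) * x b = star (x a) * z * x b :=
        calc _ = star (x a) * h * z * (h * x b) := by simp only [mul_assoc]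
          _ = _ := by rw [hxh, hhx]
      have h2 : star (x a) * (h * h) * x b = star (x a) * x b :=
        calc _ = star (x a) * h * (h * x b) := by simp only [mul_assoc]
          _ = _ := by rw [hxh, hhx]
      rw [mul_sub, sub_mul, mul_smul_comm, smul_mul_assoc, h1, h2, smul_sub]
      abel
    rw [e]
    refine (norm_add_le _ _).trans (add_le_add (norm_mul₃_le.trans ?_) ?_)
    · rw [norm_star, mul_right_comm]
      exact mul_le_mul (hxn2 a b) hex (norm_nonneg _) zero_le_two
    · rw [norm_smul]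
      exact mul_le_mul hφz (hxx a b) (norm_nonneg _) (by linarith)
  set s : Fin N → A := fun a => ∑ i, d i * x a * c i
  have hdouble : ∀ (F : Fin m → Fin m → A) (β : ℝ), 0 ≤ β →
      (∀ i j, ‖F i j‖ ≤ ‖c i‖ * β * ‖c j‖) → ‖∑ i, ∑ j, F i j‖ ≤ B ^ 2 * β := by
    intro F β hβ hF
    refine (norm_sum_le_of_le _ (n := fun i => ∑ j, ‖c i‖ * β * ‖c j‖)
      fun i _ => norm_sum_le_of_le _ fun j _ => hF i j).trans ?_
    rw [← Finset.sum_mul_sum, ← Finset.sum_mul, sq, mul_right_comm]
    have hs : ∑ i, ‖c i‖ ≤ B := le_add_of_nonneg_left zero_le_one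
    exact mul_le_mul_of_nonneg_right
      (mul_le_mul hs hs (Finset.sum_nonneg fun _ _ => norm_nonneg _) (by linarith)) hβ
  have hsy : ∀ y ∈ C', ∀ a b,
      ‖star (s a) * y * s b - (if a = b then y else 0)‖ ≤ θ₀ := by
    intro y hy a b
    set S := ∑ i, ∑ j, E.φ (star (d i) * y * d j) • (star (c i) * c j)
    have e1 : star (s a) * y * s b - S * (if a = b then (1 : A) else 0) =
        ∑ i, ∑ j, star (c i) * (star (x a) * (star (d i) * y * d j) * x b -
          E.φ (star (d i) * y * d j) • (if a = b then (1 : A) else 0)) * c j := by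
      simp only [s, S, star_sum, star_mul, Finset.sum_mul, Finset.mul_sum, mul_sub, sub_mul,
        mul_smul_comm, smul_mul_assoc, Finset.sum_sub_distrib]
      congr 1
      · rw [Finset.sum_comm]
        exact Finset.sum_congr rfl fun i _ => Finset.sum_congr rfl fun j _ => by
          simp only [mul_assoc]
      · split_ifs <;> simp
    have h1 : ‖star (s a) * y * s b - S * (if a = b then (1 : A) else 0)‖ ≤
        B ^ 2 * (2 * θ₂ + (R + 1) * θ₃) := by
      rw [e1]
      refine hdouble _ _ (by positivity) fun i j => norm_mul₃_le.trans ?_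
      rw [norm_star]
      gcongr
      exact mid y hy i j a b
    have h2 : ‖S - y‖ ≤ θ₀ / 4 := hdc y hy
    have e2 : (if a = b then y else 0) = y * (if a = b then (1 : A) else 0) := by
      split_ifs <;> simp
    have h3 : ‖S * (if a = b then (1 : A) else 0) - (if a = b then y else 0)‖ ≤ θ₀ / 4 := by
      rw [e2, ← sub_mul]
      refine (norm_mul_le _ _).trans ((mul_le_of_le_one_right (norm_nonneg _) ?_).trans h2)
      split_ifs <;> simp
    have h4 : B ^ 2 * (2 * θ₂) ≤ θ₀ / 4 := by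
      have := min_le_right (1 : ℝ) (θ₀ / (8 * B ^ 2))
      rw [← hθ₂, le_div_iff₀ (by positivity)] at this
      linarith
    have h5 : B ^ 2 * ((R + 1) * θ₃) ≤ θ₀ / 4 := by
      have h6 : θ₃ ≤ θ₀ / (8 * B ^ 2 * (R + 1)) := min_le_right _ _
      rw [le_div_iff₀ (by positivity)] at h6
      linarith
    rw [mul_add] at h1
    linarith [norm_sub_le_norm_sub_add_norm_sub (star (s a) * y * s b)
      (S * (if a = b then (1 : A) else 0)) (if a = b then y else 0)]
  have h1mem : (1 : A) ∈ C' := Finset.mem_insert_self _ _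
  refine ⟨s, fun a b => ?_, fun c₁ hc₁ a => ?_, fun r hr a b => ?_⟩
  · have := hsy 1 h1mem a b
    rw [mul_one] at this
    exact this.trans (min_le_left _ _)
  · have hm1 : c₁ ∈ C' := by simp [hC', hc₁]
    have hm2 : star c₁ ∈ C' := Finset.mem_insert_of_mem
      (Finset.mem_union_left _ (Finset.mem_union_right _ (Finset.mem_image_of_mem _ hc₁)))
    have hm3 : star c₁ * c₁ ∈ C' := Finset.mem_insert_of_mem
      (Finset.mem_union_right _ (Finset.mem_image_of_mem (fun c => star c * c) hc₁))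
    have b1 := hsy _ hm3 a a
    have b2 := hsy _ hm2 a a
    have b3 := hsy _ hm1 a a
    have b4 := hsy _ h1mem a a
    rw [if_pos rfl] at b1 b2 b3 b4
    refine (sq_le_sq₀ (norm_nonneg _) hθ.le).1 ?_
    rw [sq, ← CStarRing.norm_star_mul_self]
    have e : star (c₁ * s a - s a * c₁) * (c₁ * s a - s a * c₁) =
        (star (s a) * (star c₁ * c₁) * s a - star c₁ * c₁) -
        (star (s a) * star c₁ * s a - star c₁) * c₁ -
        star c₁ * (star (s a) * c₁ * s a - c₁) + star c₁ * (star (s a) * 1 * s a - 1) * c₁ := by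
      simp only [star_sub, star_mul]; noncomm_ring
    rw [e]
    have hcB : ‖c₁‖ + 1 ≤ BC + 1 := by
      have := Finset.single_le_sum (f := fun c : A => ‖c‖) (fun _ _ => norm_nonneg _) hc₁
      linarith
    have n2 : ‖(star (s a) * star c₁ * s a - star c₁) * c₁‖ ≤ θ₀ * ‖c₁‖ :=
      (norm_mul_le _ _).trans (mul_le_mul_of_nonneg_right b2 (norm_nonneg _))
    have n3 : ‖star c₁ * (star (s a) * c₁ * s a - c₁)‖ ≤ ‖c₁‖ * θ₀ :=
      (norm_mul_le _ _).trans (by rw [norm_star]; exact mul_le_mul_of_nonneg_left b3 (norm_nonneg _))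
    have n4 : ‖star c₁ * (star (s a) * 1 * s a - 1) * c₁‖ ≤ ‖c₁‖ * θ₀ * ‖c₁‖ :=
      norm_mul₃_le.trans (by
        rw [norm_star]
        exact mul_le_mul_of_nonneg_right (mul_le_mul_of_nonneg_left b4 (norm_nonneg _))
          (norm_nonneg _))
    refine (norm_add_le _ _).trans ?_
    refine (add_le_add ((norm_sub_le _ _).trans (add_le_add ((norm_sub_le _ _).trans
      (add_le_add b1 n2)) n3)) n4).trans ?_
    have h2 : θ₀ * (BC + 1) ^ 2 ≤ θ * θ := by
      have := min_le_right θ (θ ^ 2 / (BC + 1) ^ 2)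
      rw [le_div_iff₀ (by positivity)] at this
      linarith [sq θ]
    nlinarith [pow_le_pow_left₀ (by positivity) hcB 2]
  · have e : star (s a) * α r (s b) = ∑ i, ∑ j, star (c i) *
        (star (x a) * (h * (star (d i) * α r (d j)) * α r h) * α r (x b)) * α r (c j) := by
      simp only [s, star_sum, star_mul, map_sum, map_mul, Finset.sum_mul, Finset.mul_sum]
      rw [Finset.sum_comm]
      refine Finset.sum_congr rfl fun i _ => Finset.sum_congr rfl fun j _ => ?_
      have e3 : star (x a) * (h * (star (d i) * α r (d j)) * α r h) * α r (x b) =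
          star (x a) * h * (star (d i) * α r (d j)) * α r (h * x b) := by
        rw [map_mul]; simp only [mul_assoc]
      rw [e3, hxh, hhx]
      simp only [mul_assoc]
    rw [e]
    refine (hdouble _ (2 * θ₂) (by positivity) fun i j => norm_mul₃_le.trans ?_).trans ?_
    · rw [norm_star, StarAlgEquiv.norm_map]
      refine mul_le_mul_of_nonneg_right (mul_le_mul_of_nonneg_left (norm_mul₃_le.trans ?_)
        (norm_nonneg _)) (norm_nonneg _)
      rw [norm_star, StarAlgEquiv.norm_map, mul_right_comm]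
      exact mul_le_mul (hxn2 a b) (hk2 ⟨r, hr⟩ i j) (norm_nonneg _) zero_le_two
    · have := min_le_right (1 : ℝ) (θ₀ / (8 * B ^ 2))
      rw [← hθ₂, le_div_iff₀ (by positivity)] at this
      linarith [min_le_left θ (θ ^ 2 / (BC + 1) ^ 2)]

/-- Almost central, almost invariant isometries with orthogonal ranges. -/
theorem exists_isometries [Group G] {α : G → A ≃⋆ₐ[ℂ] A} (hG : IsAmenableGroup G)
    (hα : ∀ g h a, α (g * h) a = α g (α h a)) (hinf : ¬FiniteDimensional ℂ A)
    (he : ExciseGoal α) (ho : OneStepGoal A) (hc : InfGoal A) (N : ℕ) (C : Finset A) (K : Finset G)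
    {ε : ℝ} (hε : 0 < ε) :
    ∃ S : Fin N → A, (∀ a, ‖S a‖ ≤ 2) ∧
      (∀ a b, ‖star (S a) * S b - (if a = b then 1 else 0)‖ ≤ ε) ∧
      (∀ c ∈ C, ∀ a, ‖c * S a - S a * c‖ ≤ ε) ∧ ∀ k ∈ K, ∀ a, ‖α k (S a) - S a‖ ≤ ε := by
  classical
  obtain ⟨P⟩ := exists_spread hG hα K (show (0 : ℝ) < ε ^ 2 / 16 by positivity)
  choose σ hσN hσ2 using P.shift
  set M : ℝ := (P.n : ℝ) + 1
  set ε₁ := min ε 1
  have hε₁ : 0 < ε₁ := lt_min hε one_pos
  set θ := ε₁ ^ 2 / (100 * M ^ 2) with hθdef
  have hθ : 0 < θ := by positivity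
  have hF : ∀ x : K × Fin P.n, ∃ (F : Finset A) (δ : ℝ), 0 < δ ∧ (P.w x.2 ≠ 0 → ∀ y : A,
      ‖y‖ ≤ 1 → (∀ c ∈ F, ‖c * y - y * c‖ ≤ δ) →
        ‖α ((P.r (σ x.1 x.1.2 x.2))⁻¹ * (x.1 * P.r x.2)) y - y‖ ≤ θ / 2) := fun x => by
    by_cases hx : P.w x.2 = 0
    · exact ⟨∅, 1, one_pos, fun h => absurd hx h⟩
    · obtain ⟨F, δ, hδ, hF⟩ := hσN x.1 x.1.2 x.2 hx (θ / 2) (half_pos hθ)
      exact ⟨F, δ, hδ, fun _ => hF⟩
  choose F δ hδ hF using hF
  obtain ⟨θ₁, hθ₁0, hθ₁θ, hθ₁δ⟩ : ∃ θ₁ : ℝ, 0 < θ₁ ∧ θ₁ ≤ θ ∧ ∀ x, θ₁ ≤ δ x := by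
    rcases isEmpty_or_nonempty (K × Fin P.n) with hE | hE
    · exact ⟨θ, hθ, le_rfl, fun x => isEmptyElim x⟩
    · obtain ⟨x₀, -, hx₀⟩ := Finset.exists_min_image Finset.univ δ Finset.univ_nonempty
      exact ⟨min θ (δ x₀), lt_min hθ (hδ x₀), min_le_left _ _,
        fun x => (min_le_right _ _).trans (hx₀ x (Finset.mem_univ _))⟩
  obtain ⟨s, hs1, hs2, hs3⟩ := exists_family (α := α) hinf he ho hc N
    (Finset.univ.biUnion F ∪ Finset.univ.biUnion fun i => C.image fun c => α (P.r i)⁻¹ c)
    (Finset.univ.biUnion fun i => (Finset.univ.filter (i ≠ ·)).image fun j => (P.r i)⁻¹ * P.r j)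
    (fun r hr => by
      simp only [Finset.mem_biUnion, Finset.mem_image, Finset.mem_filter, Finset.mem_univ,
        true_and] at hr
      obtain ⟨i, j, hij, rfl⟩ := hr
      exact P.moved i j hij)
    hθ₁0
  have hone : ∀ a b : Fin N, ‖(if a = b then (1 : A) else 0)‖ ≤ 1 := fun a b => by
    split_ifs <;> simp
  have hd : ∀ a b i, ‖α (P.r i) (star (s a) * s b) - (if a = b then (1 : A) else 0)‖ ≤ θ := by
    intro a b i
    have e : α (P.r i) (if a = b then (1 : A) else 0) = if a = b then (1 : A) else 0 := by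
      split_ifs <;> simp
    rw [← e, ← map_sub, StarAlgEquiv.norm_map]
    exact (hs1 a b).trans hθ₁θ
  have hr : ∀ i j, i ≠ j → ∀ a b, ‖star (s a) * α ((P.r i)⁻¹ * P.r j) (s b)‖ ≤ θ := by
    intro i j hij a b
    refine (hs3 _ ?_ a b).trans hθ₁θ
    simp only [Finset.mem_biUnion, Finset.mem_image, Finset.mem_filter, Finset.mem_univ, true_and]
    exact ⟨i, j, hij, rfl⟩
  have hsn : ∀ a, ‖s a‖ ≤ 2 := fun a => by
    have h1 := norm_le_norm_add_norm_sub' (star (s a) * s a) 1
    have h2 := hs1 a a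
    rw [if_pos rfl] at h2
    rw [CStarRing.norm_one, CStarRing.norm_star_mul_self] at h1
    have h3 : θ₁ ≤ 1 := hθ₁θ.trans (by
      rw [hθdef, div_le_one (by positivity)]
      nlinarith [min_le_right ε (1 : ℝ), Nat.cast_nonneg (α := ℝ) P.n])
    nlinarith [norm_nonneg (s a)]
  have hfix : ∀ k (hk : k ∈ K) i, P.w i ≠ 0 → ∀ a,
      ‖α ((P.r (σ k hk i))⁻¹ * (k * P.r i)) (s a) - s a‖ ≤ θ := by
    intro k hk i hi a
    have h2 : ‖(2⁻¹ : ℂ)‖ = 2⁻¹ := by norm_num
    have h1 := hF (⟨k, hk⟩, i) hi ((2⁻¹ : ℂ) • s a)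
      (by rw [norm_smul, h2]; linarith [hsn a])
      (fun c hc => by
        rw [mul_smul_comm, smul_mul_assoc, ← smul_sub, norm_smul, h2]
        have hmem : c ∈ Finset.univ.biUnion F := Finset.mem_biUnion.2 ⟨_, Finset.mem_univ _, hc⟩
        have := (hs2 c (Finset.mem_union_left _ hmem) a).trans (hθ₁δ (⟨k, hk⟩, i))
        linarith [norm_nonneg (c * s a - s a * c)])
    rw [map_smul, ← smul_sub, norm_smul, h2] at h1
    dsimp only at h1
    linarith
  have hn0 : (0 : ℝ) ≤ P.n := Nat.cast_nonneg _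
  have hM : θ * (100 * M ^ 2) = ε₁ ^ 2 := div_mul_cancel₀ _ (by positivity)
  have hn2 : 100 * ((P.n : ℝ) ^ 2 * θ) ≤ ε₁ ^ 2 := by nlinarith
  have hn1 : 100 * ((P.n : ℝ) * θ) ≤ ε₁ ^ 2 := by nlinarith
  have hεε : ε₁ ^ 2 ≤ ε₁ := by nlinarith [min_le_right ε (1 : ℝ)]
  have hε1 : ε₁ ≤ ε := min_le_left _ _
  refine ⟨fun a => P.avg (s a), fun a => ?_, fun a b => ?_, fun c hc a => ?_, fun k hk a => ?_⟩
  · have h1 := P.gram_le hα hθ.le (hd a a) fun i j hij => hr i j hij a a
    rw [if_pos rfl] at h1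
    have h2 := norm_le_norm_add_norm_sub' (star (P.avg (s a)) * P.avg (s a)) 1
    rw [CStarRing.norm_one, CStarRing.norm_star_mul_self] at h2
    nlinarith [norm_nonneg (P.avg (s a)), min_le_right ε (1 : ℝ)]
  · exact (P.gram_le hα hθ.le (hd a b) fun i j hij => hr i j hij a b).trans (by linarith)
  · refine (P.commutator_le hα c (s a) hθ.le fun i => (hs2 _ (Finset.mem_union_right _
      (Finset.mem_biUnion.2 ⟨i, Finset.mem_univ _, Finset.mem_image_of_mem _ hc⟩)) a).trans
        hθ₁θ).trans (by linarith)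
  · have h1 := P.invariant_le hα (hσ2 k hk) hθ.le
      (show ‖(1 : A)‖ ≤ 1 from CStarRing.norm_one.le)
      (fun i => by simpa using hd a a i) (fun i j hij => hr i j hij a a)
      fun i hi => hfix k hk i hi a
    have h2 : Real.sqrt (ε ^ 2 / 16 + 4 * (P.n : ℝ) ^ 2 * θ) ≤ ε / 2 :=
      Real.sqrt_le_iff.2 ⟨by positivity, by nlinarith [mul_le_mul hε1 hε1 hε₁.le hε.le]⟩
    linarith

/-- **The traceless case.** If the unit almost embeds under every positive element, there are
invariant unital maps from the dimension drop algebras into the central sequences. -/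
theorem dropGoal_of_infGoal [Group G] [Countable G] [TopologicalSpace.SeparableSpace A]
    {α : G → A ≃⋆ₐ[ℂ] A} (hG : IsAmenableGroup G) (hα : ∀ g h a, α (g * h) a = α g (α h a))
    (hinf : ¬FiniteDimensional ℂ A) (he : ExciseGoal α) (ho : OneStepGoal A) (hc : InfGoal A)
    {ω : Ultrafilter ℕ} (hfree : (ω : Filter ℕ) ≤ cofinite) : AF.DropGoal α ω := by
  classical
  intro m _
  have hω : (ω : Filter ℕ) ≤ atTop := hfree.trans Nat.cofinite_eq_atTop.le
  obtain ⟨q, hq⟩ := TopologicalSpace.exists_dense_seq A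
  obtain ⟨kG, hkG⟩ := exists_surjective_nat G
  choose S hSn hSo hSc hSi using fun n : ℕ => exists_isometries hG hα hinf he ho hc (2 ^ m)
    ((Finset.range (n + 1)).image q) ((Finset.range (n + 1)).image kG)
    (show (0 : ℝ) < 1 / ((n : ℝ) + 1) by positivity)
  have h0 : Tendsto (fun n : ℕ => 1 / ((n : ℝ) + 1)) atTop (𝓝 0) :=
    tendsto_one_div_add_atTop_nhds_zero_nat
  have hmem : ∀ a, (fun n => S n a) ∈ P101.cseq A ω := fun a =>
    ⟨⟨2, fun n => hSn n a⟩, fun c => by
      have h1 : Exc.Cen fun n => (2⁻¹ : ℂ) • S n a :=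
        Exc.cen_of_dense hq (fun n => by
          rw [norm_smul]; norm_num; linarith [hSn n a]) fun i => squeeze_zero_norm' (by
          filter_upwards [eventually_ge_atTop i] with n hn
          rw [mul_smul_comm, smul_mul_assoc, ← smul_sub, norm_smul]
          exact (mul_le_of_le_one_left (norm_nonneg _) (by norm_num)).trans
            (hSc n _ (Finset.mem_image_of_mem q (Finset.mem_range.2 (Nat.lt_succ_of_le hn))) a)) h0
      have h2 := ((h1.2 c).const_smul (-(2 : ℂ))).mono_left hω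
      rw [smul_zero] at h2
      refine h2.congr fun n => ?_
      simp only [mul_smul_comm, smul_mul_assoc, ← smul_sub, smul_smul]
      norm_num⟩
  let Sq : Fin (2 ^ m) → P101.cseq A ω := fun a => ⟨fun n => S n a, hmem a⟩
  have hSfix : ∀ a, P101.toFO (Sq a) ∈ AF.fixed α ω := fun a =>
    (AF.toFO_mem_fixed_iff α ω _).2 fun g => by
      obtain ⟨i, rfl⟩ := hkG g
      refine Tendsto.mono_left (squeeze_zero_norm' ?_ h0) hω
      filter_upwards [eventually_ge_atTop i] with n hn
      exact hSi n _ (Finset.mem_image_of_mem kG (Finset.mem_range.2 (Nat.lt_succ_of_le hn))) a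
  let v : Fin (2 ^ m) → AF.fixed α ω := fun a => ⟨P101.toFO (Sq a), hSfix a⟩
  have hv : ∀ a b, star (v a) * v b = if a = b then 1 else 0 := fun a b => by
    refine Subtype.ext ?_
    have h1 : Tendsto (fun n => star (S n a) * S n b - (if a = b then (1 : A) else 0))
        (ω : Filter ℕ) (𝓝 0) :=
      Tendsto.mono_left (squeeze_zero_norm (fun n => hSo n a b) h0) hω
    rw [MulMemClass.coe_mul, StarMemClass.coe_star, P101.star_toFO, ← P101.toFO_mul]
    split_ifs with hab
    · rw [OneMemClass.coe_one, ← P101.toFO_one, P101.toFO_eq_iff]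
      refine h1.congr fun n => ?_
      rw [if_pos hab]
      rfl
    · rw [ZeroMemClass.coe_zero, ← P101.toFO_zero, P101.toFO_eq_iff]
      refine h1.congr fun n => ?_
      rw [if_neg hab]
      rfl
  let : PartialOrder (AF.fixed α ω) := CStarAlgebra.spectralOrder _
  have : StarOrderedRing (AF.fixed α ω) := CStarAlgebra.spectralOrderedRing _
  set E : Fin (2 ^ m) → Fin (2 ^ m) → AF.fixed α ω := fun i j => v i * star (v j) with hE
  set p := ∑ i, E i i with hp
  have hEl : ∀ i j, p * E i j = E i j := fun i j => by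
    rw [hp, Finset.sum_mul, Finset.sum_eq_single i]
    · simp only [hE, mul_assoc]
      rw [← mul_assoc (star (v i)), hv, if_pos rfl, one_mul]
    · intro l _ hl
      simp only [hE, mul_assoc]
      rw [← mul_assoc (star (v l)), hv, if_neg hl, zero_mul, mul_zero]
    · simp
  have hmul : ∀ i j k l, E i j * E k l = if j = k then p * E i l else 0 := fun i j k l => by
    rw [hEl]
    simp only [hE, mul_assoc]
    rw [← mul_assoc (star (v j)), hv]
    split_ifs <;> simp
  have hstar : ∀ i j, star (E i j) = E j i := fun i j => by simp [hE]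
  have hpsa : star p = p := by simp [hp, star_sum, hstar]
  have hpp : p * p = p := by
    conv_lhs => arg 2; rw [hp]
    rw [Finset.mul_sum, hp]
    exact Finset.sum_congr rfl fun i _ => hEl i i
  obtain ⟨ψ⟩ := P101.Universal.exists_hom_dropAlg (AF.unitsMap E)
    (AF.unitsMap_star E hstar) (AF.unitsMap_mul E hmul)
    (by
      rw [AF.unitsMap_one]
      exact Finset.sum_nonneg fun i _ => mul_star_self_nonneg (v i))
    (v 0 * (1 - p)) (by
      rw [AF.unitsMap_one, ← hp, star_mul, star_sub, star_one, hpsa, mul_assoc,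
        ← mul_assoc (star (v 0)), hv, if_pos rfl, one_mul]
      simp only [mul_sub, sub_mul, one_mul, mul_one, hpp]
      abel)
    (by
      rw [AF.unitsMap_single]
      simp only [hE, mul_assoc]
      rw [← mul_assoc (star (v 0)), hv, if_pos rfl, one_mul])
  exact ⟨(AF.fixed α ω).subtype.comp ψ, fun g z x hx =>
    (AF.toFO_mem_fixed_iff α ω x).1 (hx ▸ (ψ z).2) g⟩

end Vale.Agent.P095.Uni
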