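import Vale.Agent.P095.Uni.Assemble
import Vale.Agent.P095.Uni.Compare
import Vale.Agent.P095.Uni.Decomp
import Vale.Agent.P095.Uni.Excise
import Vale.Agent.P095.Uni.FromZStable
import Vale.Agent.P095.Uni.InfCore
import Vale.Agent.P095.Uni.OneStep
import Vale.Agent.P095.Uni.SI
import Vale.Agent.P095.Uni.Model.Main

/-!
# P095: actions on unital simple nuclear Z-stable algebras
-/

open scoped ComplexOrder
open Filter

set_option maxSynthPendingDepth 3

namespace Vale.Agent.P095.Uni

/-- Every action of a countable amenable group on a unital simple separable nuclear Z-stable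
algebra is equivariantly Z-stable. -/
theorem isEquivariantlyZStable {G A : Type*} [Group G] [Countable G] [CStarAlgebra A]
    [IsSimpleRing A] [TopologicalSpace.SeparableSpace A] (hG : IsAmenableGroup G)
    (hn : IsNuclear A) (hZ : P101.IsZStable A P101.Limit.JS)
    (α : G → A ≃⋆ₐ[ℂ] A) (hα : ∀ g h a, α (g * h) a = α g (α h a)) :
    AF.IsEquivariantlyZStable α := by
  let := CStarAlgebra.spectralOrder A
  have := CStarAlgebra.spectralOrderedRing A
  have hd := hasCentralDropMaps_of_isZStable hZ
  have hinf := Slots.not_finiteDimensional hd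
  have hs := Slots.slots_goal hd
  have hdec := Decomp.decomp_goal (A := A)
  have he := excise_goal α
  have ho := oneStep_goal hinf hn
  by_cases hne : ∃ τ : A →ₗ[ℂ] ℂ, IsTracial τ
  · exact isEquivariantlyZStable_of_si hG hd α hα
      (si_goal hG hα (Compare.compare_goal hn hs hdec Free.matrix_goal hne) he ho)
  · exact AF.isEquivariantlyZStable_of_drop hα
      (dropGoal_of_infGoal hG hα hinf he ho (infGoal_of_no_trace hn hs hdec Free.matrix_goal hne)
        (ω := hyperfilter ℕ) hyperfilter_le_cofinite)

end Vale.Agent.P095.Uni
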